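import Mathlib.Algebra.MvPolynomial.PDeriv
import Mathlib.Algebra.MvPolynomial.CommRing
import Mathlib.Algebra.Polynomial.Basic
import Mathlib.Algebra.Polynomial.Coeff
import Mathlib.Data.Finsupp.Weight
import Mathlib.LinearAlgebra.Matrix.Determinant.Basic

/-!
The algebraic formulas used in the proof: the residue functional of a system
`x_i ^ e = r_i` (`deg r_i < e`), the trace form, and division free Newton formulas.
All of them are defined over an arbitrary commutative ring.
-/

namespace Vale.Agent.P337

open MvPolynomial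

variable {σ : Type*} [Fintype σ] [DecidableEq σ] {R : Type*} [CommRing R]

/-- The exponent vector `(m, …, m)`. -/
noncomputable def cst (σ : Type*) [Fintype σ] (m : ℕ) : σ →₀ ℕ :=
  Finsupp.equivFunOnFinite.symm fun _ => m

/-- The polynomial system `x_i ^ e - r_i`. -/
noncomputable def sys (e : ℕ) (r : σ → MvPolynomial σ R) (i : σ) : MvPolynomial σ R :=
  X i ^ e - r i

/-- The truncated geometric sum `∑_{k ≤ K} r_i ^ k x_i ^ (e (K - k))`. -/
noncomputable def geo (e K : ℕ) (r : σ → MvPolynomial σ R) (i : σ) : MvPolynomial σ R :=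
  ∑ k ∈ Finset.range (K + 1), r i ^ k * (X i ^ e) ^ (K - k)

/-- The residue functional (truncation order `K`). -/
noncomputable def lamK (e K : ℕ) (r : σ → MvPolynomial σ R) (g : MvPolynomial σ R) : R :=
  coeff (cst σ (e * K + (e - 1))) (g * ∏ i, geo e K r i)

/-- The Jacobian determinant of the system. -/
noncomputable def jac (e : ℕ) (r : σ → MvPolynomial σ R) : MvPolynomial σ R :=
  (Matrix.of fun i j => pderiv j (sys e r i)).det

/-- The trace form: the sum of the values of `g` at the roots of the system. -/
noncomputable def tauK (e K : ℕ) (r : σ → MvPolynomial σ R) (g : MvPolynomial σ R) : R :=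
  lamK e K r (g * jac e r)

/-- `D!` times the truncated logarithm `∑_{k=1}^{D} (-1)^(k-1) p_k z^k / k`. -/
noncomputable def newtonL (D : ℕ) (p : ℕ → R) : Polynomial R :=
  ∑ k ∈ Finset.range D, Polynomial.C ((-1) ^ k *
    ((∏ j ∈ Finset.range D, if j = k then 1 else j + 1 : ℕ) : R) * p (k + 1)) *
      Polynomial.X ^ (k + 1)

/-- `D!^(D+1)` times the truncated exponential of the truncated logarithm. -/
noncomputable def newtonE (D : ℕ) (p : ℕ → R) : Polynomial R :=
  ∑ m ∈ Finset.range (D + 1),
    Polynomial.C ((D.factorial ^ (D - m) * D.descFactorial (D - m) : ℕ) : R) * newtonL D p ^ m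

/-- The normalising factor. -/
def QQ (D : ℕ) : ℕ := D.factorial ^ (D + 1)

/-- `QQ D` times the `k`-th elementary symmetric function of the values of `g` at the
`D = e ^ n` roots of the system. -/
noncomputable def EE (e K : ℕ) (r : σ → MvPolynomial σ R) (g : MvPolynomial σ R) (k : ℕ) : R :=
  (newtonE (e ^ Fintype.card σ) fun j => tauK e K r (g ^ j)).coeff k

/-- The right hand sides of the critical point system. -/
noncomputable def rr (t : R) (P : MvPolynomial σ R) (i : σ) : MvPolynomial σ R :=
  1 - C t * pderiv i P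

/-- The coercive penalty term. -/
noncomputable def NN (σ : Type*) [Fintype σ] (R : Type*) [CommRing R] (e : ℕ) :
    MvPolynomial σ R :=
  ∑ i, (X i ^ (e + 1) - C ((e : R) + 1) * X i + C (e : R))

/-- The function to be minimised. -/
noncomputable def hh (e : ℕ) (t : R) (P : MvPolynomial σ R) : MvPolynomial σ R :=
  NN σ R e + C (((e : R) + 1) * t) * P

/-- The `k`-th derivative of `QQ D * ∏_η (T - g η)`, evaluated at `T = g`. -/
noncomputable def vv (e K : ℕ) (r : σ → MvPolynomial σ R) (g : MvPolynomial σ R) (k : ℕ) :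
    MvPolynomial σ R :=
  ∑ j ∈ Finset.range (e ^ Fintype.card σ + 1),
    C ((-1) ^ j * EE e K r g j * (((e ^ Fintype.card σ - j).descFactorial k : ℕ) : R)) *
      g ^ (e ^ Fintype.card σ - j - k)

/-- `W(u) = ∏_{l ≤ B} (u + 2 ^ l)`. -/
def WW (B : ℕ) (u : R) : R := ∏ l ∈ Finset.range (B + 1), (u + 2 ^ l)

/-- The polynomial which is negative only if `u 0, …, u (m - 1)` are all positive. -/
def GG (B m : ℕ) (u : ℕ → R) : R :=
  ∑ j ∈ Finset.range m, ∏ l ∈ Finset.range m, WW B (if l = j then -u l else u l) ^ (2 * m) -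
    ∏ l ∈ Finset.range m, WW B (u l) ^ (2 * m)

end Vale.Agent.P337
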