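import Vale.Agent.P337.AlgDefs
import Mathlib.Analysis.Complex.Basic
import Mathlib.Algebra.Order.Archimedean.Basic
import Mathlib.Tactic

/-!
The inequalities for the polynomials `WW` and `GG` over the reals, and the sign of a product over
a finite set with a conjugation.
-/

namespace Vale.Agent.P337

open Finset ComplexConjugate

theorem one_le_WW (B : ℕ) {u : ℝ} (hu : 0 ≤ u) : 1 ≤ WW B u := by
  unfold WW
  refine one_le_prod fun l _ => ?_
  have : (1 : ℝ) ≤ 2 ^ l := one_le_pow₀ (by norm_num)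
  linarith

theorem abs_WW_le (B : ℕ) {u : ℝ} (hu : u ≤ 0) : |WW B u| ≤ WW B (-u) := by
  unfold WW
  rw [abs_prod]
  refine prod_le_prod (fun _ _ => abs_nonneg _) fun l _ => ?_
  have : (0 : ℝ) < 2 ^ l := by positivity
  rw [abs_le]
  constructor <;> linarith

theorem abs_WW_neg_le (B : ℕ) {u : ℝ} (hu : 1 ≤ u) (hB : u ≤ 2 ^ B) :
    |WW B (-u)| ≤ WW B u / 3 := by
  obtain ⟨n, h1, h2⟩ := exists_nat_pow_near hu (by norm_num : (1 : ℝ) < 2)
  have hn : n ∈ range (B + 1) := by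
    rw [mem_range, Nat.lt_succ_iff]
    exact (pow_le_pow_iff_right₀ (by norm_num : (1 : ℝ) < 2)).1 (h1.trans hB)
  unfold WW
  rw [abs_prod, ← mul_prod_erase _ _ hn, ← mul_prod_erase _ (fun l => u + 2 ^ l) hn,
    mul_div_right_comm]
  refine mul_le_mul ?_ (prod_le_prod (fun _ _ => abs_nonneg _) fun l _ => ?_)
    (prod_nonneg fun _ _ => abs_nonneg _) (by positivity)
  · rw [pow_succ] at h2
    rw [abs_le]
    constructor <;> linarith
  · have : (0 : ℝ) < 2 ^ l := by positivity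
    rw [abs_le]
    constructor <;> linarith

theorem GG_nonneg {B m : ℕ} {u : ℕ → ℝ} {j : ℕ} (hj : j < m) (hu : u j ≤ 0) : 0 ≤ GG B m u := by
  unfold GG
  rw [sub_nonneg]
  have hnn : ∀ (i : ℕ), 0 ≤ ∏ l ∈ range m, WW B (if l = i then -u l else u l) ^ (2 * m) :=
    fun i => prod_nonneg fun l _ => (even_two_mul m).pow_nonneg _
  refine le_trans ?_ (single_le_sum (fun i _ => hnn i) (mem_range.2 hj))
  refine prod_le_prod (fun l _ => (even_two_mul m).pow_nonneg _) fun l _ => ?_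
  split_ifs with h
  · subst h
    rw [← (even_two_mul m).pow_abs]
    exact pow_le_pow_left₀ (abs_nonneg _) (abs_WW_le B hu) _
  · exact le_rfl

theorem pos_of_GG_neg {B m : ℕ} {u : ℕ → ℝ} (h : GG B m u < 0) {j : ℕ} (hj : j < m) : 0 < u j :=
  lt_of_not_ge fun hu => absurd (GG_nonneg (B := B) hj hu) (not_le.2 h)

theorem two_mul_le_nine_pow (m : ℕ) : 2 * m ≤ 9 ^ m := by
  induction m with
  | zero => simp
  | succ m ih =>
    have : 1 ≤ 9 ^ m := Nat.one_le_pow _ _ (by norm_num)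
    rw [pow_succ]; omega

theorem GG_le {B m : ℕ} {u : ℕ → ℝ} (h1 : ∀ l < m, 1 ≤ u l) (h2 : ∀ l < m, u l ≤ 2 ^ B) :
    GG B m u ≤ -1 / 2 := by
  unfold GG
  set Q : ℝ := ∏ l ∈ range m, WW B (u l) ^ (2 * m) with hQ
  have hQ1 : 1 ≤ Q := one_le_prod fun l hl =>
    one_le_pow₀ (one_le_WW B (by linarith [h1 l (mem_range.1 hl)]))
  have hterm : ∀ j ∈ range m,
      ∏ l ∈ range m, WW B (if l = j then -u l else u l) ^ (2 * m) ≤ Q / 9 ^ m := by
    intro j hj
    rw [hQ, ← mul_prod_erase _ _ hj, ← mul_prod_erase _ (fun l => WW B (u l) ^ (2 * m)) hj,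
      mul_div_right_comm, if_pos rfl]
    refine mul_le_mul ?_ (le_of_eq (prod_congr rfl fun l hl => ?_))
      (prod_nonneg fun l _ => (even_two_mul m).pow_nonneg _)
      (div_nonneg ((even_two_mul m).pow_nonneg _) (by positivity))
    · rw [← (even_two_mul m).pow_abs]
      refine (pow_le_pow_left₀ (abs_nonneg _)
        (abs_WW_neg_le B (h1 j (mem_range.1 hj)) (h2 j (mem_range.1 hj))) _).trans (le_of_eq ?_)
      rw [div_pow, pow_mul (3 : ℝ)]
      norm_num
    · rw [if_neg (ne_of_mem_erase hl)]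
  have hsum := sum_le_card_nsmul _ _ _ hterm
  rw [card_range, nsmul_eq_mul] at hsum
  have h9 : (2 : ℝ) * m ≤ 9 ^ m := by exact_mod_cast two_mul_le_nine_pow m
  have h9' : (0 : ℝ) < 9 ^ m := by positivity
  have : (m : ℝ) * (Q / 9 ^ m) ≤ Q / 2 := by
    rw [mul_div_assoc', div_le_div_iff₀ h9' (by norm_num)]
    nlinarith
  linarith

section Parity

variable {α : Type*} [DecidableEq α]

omit [DecidableEq α] in
/-- Without fixed points, the product of an equivariant function is the product of the norms. -/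
theorem prod_eq_prod_norm (Z : Finset α) (c : α → α) (hZ : ∀ a ∈ Z, c a ∈ Z)
    (hc : ∀ a, c (c a) = a) (hfix : ∀ a ∈ Z, c a ≠ a) (φ : α → ℂ)
    (hφ : ∀ a, φ (c a) = conj (φ a)) : ∏ a ∈ Z, φ a = ((∏ a ∈ Z, ‖φ a‖ : ℝ) : ℂ) := by
  by_cases h0 : ∃ a ∈ Z, φ a = 0
  · obtain ⟨a, ha, h⟩ := h0
    rw [prod_eq_zero ha h, prod_eq_zero ha (by rw [h, norm_zero])]
    simp
  push Not at h0
  have h1 : ∏ a ∈ Z, (φ a / (‖φ a‖ : ℂ)) = 1 := by
    refine prod_involution (fun a _ => c a) (fun a ha => ?_) (fun a ha _ => hfix a ha)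
      (fun a ha => hZ a ha) (fun a _ => hc a)
    have hne : (‖φ a‖ : ℂ) ≠ 0 := by exact_mod_cast norm_ne_zero_iff.2 (h0 a ha)
    rw [hφ, Complex.norm_conj, div_mul_div_comm, Complex.mul_conj, Complex.normSq_eq_norm_sq]
    push_cast
    field_simp
  have hne : ∏ a ∈ Z, (‖φ a‖ : ℂ) ≠ 0 :=
    prod_ne_zero_iff.2 fun a ha => by exact_mod_cast norm_ne_zero_iff.2 (h0 a ha)
  rw [prod_div_distrib, div_eq_one_iff_eq hne] at h1
  rw [h1]
  push_cast
  rfl

theorem re_prod_eq (Z : Finset α) (c : α → α) (hZ : ∀ a ∈ Z, c a ∈ Z)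
    (hc : ∀ a, c (c a) = a) (φ : α → ℂ) (hφ : ∀ a, φ (c a) = conj (φ a)) :
    (∏ a ∈ Z, φ a).re = (∏ a ∈ Z.filter (fun a => c a = a), (φ a).re) *
      ∏ a ∈ Z.filter (fun a => ¬ c a = a), ‖φ a‖ := by
  rw [← prod_filter_mul_prod_filter_not Z (fun a => c a = a),
    prod_eq_prod_norm (Z.filter (fun a => ¬ c a = a)) c ?_ hc
      (fun a ha => (mem_filter.1 ha).2) φ hφ]
  · have : ∏ a ∈ Z.filter (fun a => c a = a), φ a =
        ((∏ a ∈ Z.filter (fun a => c a = a), (φ a).re : ℝ) : ℂ) := by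
      push_cast
      refine prod_congr rfl fun a ha => ?_
      have h := hφ a
      rw [(mem_filter.1 ha).2] at h
      exact (Complex.conj_eq_iff_re.1 h.symm).symm
    rw [this, ← Complex.ofReal_mul, Complex.ofReal_re]
  · intro a ha
    refine mem_filter.2 ⟨hZ a (mem_filter.1 ha).1, fun h => (mem_filter.1 ha).2 ?_⟩
    rw [hc] at h
    exact h.symm

/-- If the product is negative, some fixed point has a negative value. -/
theorem exists_neg_of_re_prod_neg (Z : Finset α) (c : α → α) (hZ : ∀ a ∈ Z, c a ∈ Z)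
    (hc : ∀ a, c (c a) = a) (φ : α → ℂ) (hφ : ∀ a, φ (c a) = conj (φ a))
    (h : (∏ a ∈ Z, φ a).re < 0) : ∃ a ∈ Z, c a = a ∧ (φ a).re < 0 := by
  by_contra hcon
  push Not at hcon
  rw [re_prod_eq Z c hZ hc φ hφ] at h
  refine absurd h (not_lt.2 (mul_nonneg (prod_nonneg fun a ha => ?_)
    (prod_nonneg fun a _ => norm_nonneg _)))
  exact hcon a (mem_filter.1 ha).1 (mem_filter.1 ha).2

/-- If there is no zero and exactly one fixed point has a negative value, the product is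
negative. -/
theorem re_prod_neg (Z : Finset α) (c : α → α) (hZ : ∀ a ∈ Z, c a ∈ Z)
    (hc : ∀ a, c (c a) = a) (φ : α → ℂ) (hφ : ∀ a, φ (c a) = conj (φ a))
    (h0 : ∀ a ∈ Z, φ a ≠ 0) {a : α} (ha : a ∈ Z) (hca : c a = a) (hneg : (φ a).re < 0)
    (hpos : ∀ b ∈ Z, c b = b → b ≠ a → 0 < (φ b).re) : (∏ a ∈ Z, φ a).re < 0 := by
  rw [re_prod_eq Z c hZ hc φ hφ]
  refine mul_neg_of_neg_of_pos ?_
    (prod_pos fun b hb => norm_pos_iff.2 (h0 b (mem_filter.1 hb).1))
  have ha' : a ∈ Z.filter (fun a => c a = a) := mem_filter.2 ⟨ha, hca⟩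
  rw [← mul_prod_erase _ _ ha']
  refine mul_neg_of_neg_of_pos hneg (prod_pos fun b hb => ?_)
  have hb' := mem_filter.1 (mem_of_mem_erase hb)
  exact hpos b hb'.1 hb'.2 (ne_of_mem_erase hb)

end Parity

end Vale.Agent.P337
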