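import Vale.Agent.P337.AlgDefs

/-!
The formulas of the real root test.
-/

namespace Vale.Agent.P337

open MvPolynomial

variable {R : Type*} [CommRing R]

/-- The sign test with code `c` for the family `w`: `± (L * (± w (c / 4)) - 1)`. -/
def UU (L : R) (w : ℕ → R) (c : ℕ) : R := (-1) ^ c * (L * ((-1) ^ (c / 2) * w (c / 4)) - 1)

/-- The final test element: the tests are given by the digits of `b * N` in base `b`. -/
def GC (B m D b N c : ℕ) (L : R) (w : ℕ → R) : R :=
  ((2 * (D + 2) : ℕ) : R) * GG B m (fun l => UU L w (b * N / b ^ l % b)) + ((c + 1 : ℕ) : R)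

/-- The variable with number `i`. -/
noncomputable def XN (n : ℕ) (R : Type*) [CommRing R] (i : ℕ) : MvPolynomial (Fin n) R :=
  if h : i < n then X ⟨i, h⟩ else 0

/-- The family of polynomials whose signs are tested: `h0` and the derivatives of the
characteristic polynomials of the variables. -/
noncomputable def base {n : ℕ} (e K : ℕ) (r : Fin n → MvPolynomial (Fin n) R)
    (h0 : MvPolynomial (Fin n) R) (j : ℕ) : MvPolynomial (Fin n) R :=
  if j = 0 then h0 else vv e K r (XN n R ((j - 1) % n)) ((j - 1) / n)

theorem map_UU {S : Type*} [CommRing S] (φ : R →+* S) (L : R) (w : ℕ → R) (c : ℕ) :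
    φ (UU L w c) = UU (φ L) (fun j => φ (w j)) c := by simp [UU]

theorem map_GC {S : Type*} [CommRing S] (φ : R →+* S) (B m D b N c : ℕ) (L : R) (w : ℕ → R) :
    φ (GC B m D b N c L w) = GC B m D b N c (φ L) (fun j => φ (w j)) := by
  simp only [GC, GG, WW, map_add, map_mul, map_natCast, map_sub, map_sum, map_prod, map_pow,
    map_ofNat, apply_ite φ, map_neg, map_UU]

end Vale.Agent.P337
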