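import Mathlib.Algebra.MvPolynomial.Degrees
import Mathlib.Algebra.MvPolynomial.Eval
import Mathlib.FieldTheory.Finite.Basic
import Mathlib.LinearAlgebra.Lagrange
import Mathlib.Tactic

/-! Coefficients of polynomials as weighted sums of values. -/

namespace Vale.Agent.P337

open Finset

section Generic

variable {K : Type*} [CommRing K] {ι : Type*} [Fintype ι] {x : ι → K} {w : ℕ → ι → K} {d : ℕ}

/-- A coefficient of a univariate polynomial as a weighted sum of values. -/
theorem coeff_eq_sum_uni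
    (hw : ∀ b ≤ d, ∀ m ≤ d, ∑ t, w b t * x t ^ m = if m = b then 1 else 0)
    (F : Polynomial K) (hF : F.natDegree ≤ d) {b : ℕ} (hb : b ≤ d) :
    F.coeff b = ∑ t, w b t * F.eval (x t) := by
  have h1 : ∀ t, F.eval (x t) = ∑ m ∈ range (d + 1), F.coeff m * x t ^ m := fun t =>
    Polynomial.eval_eq_sum_range' (Nat.lt_succ_of_le hF) _
  simp only [h1, mul_sum]
  rw [sum_comm]
  have h2 : ∀ m ∈ range (d + 1), ∑ t, w b t * (F.coeff m * x t ^ m) =
      if m = b then F.coeff m else 0 := by
    intro m hm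
    have h3 := hw b hb m (Nat.lt_succ_iff.1 (mem_range.1 hm))
    calc ∑ t, w b t * (F.coeff m * x t ^ m) = F.coeff m * ∑ t, w b t * x t ^ m := by
          rw [mul_sum]; exact sum_congr rfl fun t _ => by ring
      _ = _ := by rw [h3]; split_ifs <;> simp
  rw [sum_congr rfl h2, sum_ite_eq', if_pos (mem_range.2 (Nat.lt_succ_of_le hb))]

/-- A coefficient of a multivariate polynomial as a weighted sum of values. -/
theorem coeff_eq_sum_multi' {σ : Type*} [Fintype σ] [DecidableEq σ]
    (hw : ∀ b ≤ d, ∀ m ≤ d, ∑ t, w b t * x t ^ m = if m = b then 1 else 0)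
    (F : MvPolynomial σ K) (hF : ∀ m ∈ F.support, ∀ i, m i ≤ d) {b : σ →₀ ℕ}
    (hb : ∀ i, b i ≤ d) :
    MvPolynomial.coeff b F =
      ∑ t : σ → ι, (∏ i, w (b i) (t i)) * MvPolynomial.eval (fun i => x (t i)) F := by
  classical
  simp only [MvPolynomial.eval_eq', mul_sum]
  rw [sum_comm]
  have h2 : ∀ m ∈ F.support,
      ∑ t : σ → ι, (∏ i, w (b i) (t i)) * (MvPolynomial.coeff m F * ∏ i, x (t i) ^ m i) =
        if m = b then MvPolynomial.coeff m F else 0 := by
    intro m hm
    have h3 : ∑ t : σ → ι, ∏ i, (w (b i) (t i) * x (t i) ^ m i) =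
        ∏ i, ∑ s, w (b i) s * x s ^ m i := by
      rw [Finset.prod_univ_sum, Fintype.piFinset_univ]
    have h4 : ∏ i, ∑ s, w (b i) s * x s ^ m i = if m = b then 1 else 0 := by
      rw [prod_congr rfl fun i _ => hw (b i) (hb i) (m i) (hF m hm i)]
      split_ifs with h
      · subst h; simp
      · obtain ⟨i, hi⟩ : ∃ i, m i ≠ b i := by
          by_contra hcon
          push Not at hcon
          exact h (Finsupp.ext hcon)
        exact prod_eq_zero (mem_univ i) (if_neg hi)
    calc _ = MvPolynomial.coeff m F * ∑ t : σ → ι, ∏ i, (w (b i) (t i) * x (t i) ^ m i) := by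
          rw [mul_sum]
          exact sum_congr rfl fun t _ => by rw [prod_mul_distrib]; ring
      _ = _ := by rw [h3, h4]; split_ifs <;> simp
  rw [sum_congr rfl h2, sum_ite_eq']
  split_ifs with h
  · rfl
  · exact MvPolynomial.notMem_support_iff.1 h

/-- The same for a bound on the total degree. -/
theorem coeff_eq_sum_multi {σ : Type*} [Fintype σ] [DecidableEq σ]
    (hw : ∀ b ≤ d, ∀ m ≤ d, ∑ t, w b t * x t ^ m = if m = b then 1 else 0)
    (F : MvPolynomial σ K) (hF : F.totalDegree ≤ d) {b : σ →₀ ℕ} (hb : ∀ i, b i ≤ d) :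
    MvPolynomial.coeff b F =
      ∑ t : σ → ι, (∏ i, w (b i) (t i)) * MvPolynomial.eval (fun i => x (t i)) F :=
  coeff_eq_sum_multi' hw F (fun _ hm i =>
    ((MvPolynomial.monomial_le_degreeOf i hm).trans
      (MvPolynomial.degreeOf_le_totalDegree F i)).trans hF) hb

end Generic

/-- Power sums over a prime field. -/
theorem sum_pow_zmod (p : ℕ) [Fact p.Prime] {k : ℕ} (hk : k ≠ 0) :
    ∑ y : ZMod p, y ^ k = if p - 1 ∣ k then -1 else 0 := by
  classical
  have h := FiniteField.sum_pow_units (ZMod p) k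
  rw [ZMod.card] at h
  rw [← h]
  let φ : (ZMod p)ˣ ↪ ZMod p := ⟨fun x => x, Units.val_injective⟩
  have h2 : univ.map φ = univ \ {0} := by
    ext y
    simp only [mem_map, mem_univ, true_and, mem_sdiff, mem_singleton, φ,
      Function.Embedding.coeFn_mk]
    exact ⟨fun ⟨u, hu⟩ => hu ▸ u.ne_zero, fun hy => ⟨Units.mk0 y hy, rfl⟩⟩
  rw [← sum_sdiff (subset_univ ({0} : Finset (ZMod p))), sum_singleton, zero_pow hk, add_zero,
    ← h2, sum_map]
  simp [φ]

/-- The weights over a prime field. -/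
theorem weights_zmod (p : ℕ) [Fact p.Prime] {d : ℕ} (hd : d + 1 < p) :
    ∀ b ≤ d, ∀ m ≤ d, ∑ t : Fin p, (-(((t : ℕ) : ZMod p) ^ (p - 1 - b))) * ((t : ℕ) : ZMod p) ^ m =
      if m = b then 1 else 0 := by
  intro b hb m hm
  have hp : p ≠ 0 := by omega
  have : NeZero p := ⟨hp⟩
  have h1 : ∑ t : Fin p, (-(((t : ℕ) : ZMod p) ^ (p - 1 - b))) * ((t : ℕ) : ZMod p) ^ m =
      -∑ y : ZMod p, y ^ (p - 1 - b + m) := by
    rw [← sum_neg_distrib]
    refine Fintype.sum_equiv (ZMod.finEquiv p).toEquiv _ _ fun t => ?_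
    have : ((ZMod.finEquiv p).toEquiv t : ZMod p) = ((t : ℕ) : ZMod p) := by
      obtain ⟨q, rfl⟩ := Nat.exists_eq_succ_of_ne_zero hp
      exact (Fin.cast_val_eq_self t).symm
    rw [this, pow_add, neg_mul]
  rw [h1, sum_pow_zmod p (by omega)]
  by_cases h : m = b
  · subst h
    rw [if_pos rfl, if_pos (by rw [Nat.sub_add_cancel (by omega)]), neg_neg]
  · rw [if_neg h, if_neg, neg_zero]
    rintro ⟨c, hc⟩
    rcases c with _ | _ | c
    · omega
    · omega
    · have : (p - 1) * (c + 1 + 1) = (p - 1) * c + 2 * (p - 1) := by ring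
      omega

theorem abs_coeff_mul_le {q : Polynomial ℚ} {B : ℚ} (hq : ∀ b, |q.coeff b| ≤ B) {c y D : ℚ}
    (hc : |c| ≤ 1) (hy : |y| ≤ D) (b : ℕ) :
    |(Polynomial.C c * (Polynomial.X - Polynomial.C y) * q).coeff b| ≤ (D + 1) * B := by
  have hB : 0 ≤ B := (abs_nonneg _).trans (hq 0)
  have h1 : |(Polynomial.X * q).coeff b| ≤ B := by
    rcases b with _ | b
    · simpa using hB
    · rw [Polynomial.coeff_X_mul]; exact hq b
  have h2 : |y * q.coeff b| ≤ D * B := by
    rw [abs_mul]; exact mul_le_mul hy (hq b) (abs_nonneg _) ((abs_nonneg _).trans hy)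
  rw [mul_assoc, Polynomial.coeff_C_mul, sub_mul, Polynomial.coeff_sub, Polynomial.coeff_C_mul,
    abs_mul]
  have h3 : |(Polynomial.X * q).coeff b - y * q.coeff b| ≤ (D + 1) * B := by
    have := abs_sub ((Polynomial.X * q).coeff b) (y * q.coeff b)
    linarith
  calc _ ≤ 1 * ((D + 1) * B) := mul_le_mul hc h3 (abs_nonneg _) zero_le_one
    _ = _ := one_mul _

/-- The Lagrange weights for the nodes `0, …, d`. -/
theorem weights_rat (d : ℕ) : ∃ w : ℕ → Fin (d + 1) → ℚ,
    (∀ b ≤ d, ∀ m ≤ d, ∑ t, w b t * ((t : ℕ) : ℚ) ^ m = if m = b then 1 else 0) ∧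
      ∀ b t, |w b t| ≤ ((d : ℚ) + 1) ^ d := by
  classical
  let x : Fin (d + 1) → ℚ := fun t => ((t : ℕ) : ℚ)
  have hx : Function.Injective x := fun s t h => Fin.ext (Nat.cast_injective (R := ℚ) h)
  refine ⟨fun b t => (Lagrange.basis univ x t).coeff b, fun b _ m hm => ?_, fun b t => ?_⟩
  · have h := Lagrange.eq_interpolate (s := univ) (v := x) (f := Polynomial.X ^ m) hx.injOn (by
      rw [Polynomial.degree_X_pow, card_univ, Fintype.card_fin]
      exact_mod_cast Nat.lt_succ_of_le hm)
    have h2 := congrArg (fun q => Polynomial.coeff q b) h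
    simp only [Lagrange.interpolate_apply, Polynomial.finsetSum_coeff, Polynomial.coeff_C_mul,
      Polynomial.eval_pow, Polynomial.eval_X, Polynomial.coeff_X_pow] at h2
    rw [if_congr eq_comm rfl rfl, h2]
    exact sum_congr rfl fun t _ => mul_comm _ _
  · have key : ∀ s : Finset (Fin (d + 1)), t ∉ s → ∀ b,
        |(∏ j ∈ s, Lagrange.basisDivisor (x t) (x j)).coeff b| ≤ ((d : ℚ) + 1) ^ s.card := by
      intro s
      induction s using Finset.induction_on with
      | empty =>
        intro _ b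
        rw [prod_empty, Polynomial.coeff_one]
        split_ifs <;> simp
      | insert j s hj ih =>
        intro ht b
        rw [prod_insert hj, card_insert_of_notMem hj, pow_succ']
        refine abs_coeff_mul_le (ih fun h => ht (mem_insert_of_mem h)) ?_ ?_ b
        · have hne : (t : ℕ) ≠ j := fun h => ht (by rw [Fin.ext h]; exact mem_insert_self _ _)
          rw [abs_inv]
          apply inv_le_one_of_one_le₀
          have h1 : (1 : ℤ) ≤ |((t : ℕ) : ℤ) - ((j : ℕ) : ℤ)| := by
            rcases lt_or_gt_of_ne hne with h | h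
            · rw [abs_of_neg (by omega)]; omega
            · rw [abs_of_pos (by omega)]; omega
          simp only [x]
          exact_mod_cast h1
        · simp only [x]
          rw [abs_of_nonneg (Nat.cast_nonneg _)]
          exact_mod_cast Nat.lt_succ_iff.1 j.2
    have h := key (univ.erase t) (notMem_erase _ _) b
    rwa [card_erase_of_mem (mem_univ _), card_univ, Fintype.card_fin, Nat.add_sub_cancel] at h

end Vale.Agent.P337
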