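import Mathlib.Data.Nat.Choose.Factorization
import Mathlib.Data.Nat.Choose.Central
import Mathlib.RingTheory.Coprime.Lemmas
import Mathlib.RingTheory.Int.Basic
import Mathlib.FieldTheory.Finite.Basic
import Mathlib.Tactic

/-!
The sign of an integer from its residues modulo many primes, and a window with many primes.
-/

namespace Vale.Agent.P337

open Finset

/-- The primes `p` with `lo < p < hi`. -/
def window (lo hi : ℕ) : Finset ℕ := (range hi).filter fun p => lo < p ∧ p.Prime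

theorem mem_window {lo hi p : ℕ} : p ∈ window lo hi ↔ p < hi ∧ lo < p ∧ p.Prime := by
  simp [window]

theorem card_window_le (lo hi : ℕ) : (window lo hi).card ≤ hi := by
  simpa [window] using card_filter_le (range hi) fun p => lo < p ∧ p.Prime

theorem prod_window_le (lo hi : ℕ) : ∏ p ∈ window lo hi, p ≤ 2 ^ (hi * hi) := by
  calc ∏ p ∈ window lo hi, p ≤ (2 ^ hi) ^ (window lo hi).card := by
        refine prod_le_pow_card _ _ _ fun p hp => ?_
        exact ((mem_window.1 hp).1.trans Nat.lt_two_pow_self).le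
    _ ≤ (2 ^ hi) ^ hi := Nat.pow_le_pow_right (by positivity) (card_window_le lo hi)
    _ = 2 ^ (hi * hi) := by rw [← pow_mul]

/-- There are at least `m` primes up to `2 m ^ 2`. -/
theorem le_card_primes (m : ℕ) (hm : 2 ≤ m) :
    m ≤ ((range (2 * m ^ 2 + 1)).filter Nat.Prime).card := by
  by_contra hlt
  push Not at hlt
  set n := m ^ 2 with hn
  have hn4 : 4 ≤ n := by nlinarith
  have h1 := Nat.four_pow_lt_mul_centralBinom n hn4
  have h2 : n.centralBinom ≤ (2 * n) ^ ((range (2 * n + 1)).filter Nat.Prime).card := by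
    rw [← Nat.prod_pow_factorization_centralBinom n]
    rw [← prod_filter_of_ne (p := Nat.Prime)]
    · refine prod_le_pow_card _ _ _ fun p _ => ?_
      exact Nat.pow_factorization_choose_le (by omega)
    · intro p _ hp
      by_contra hpp
      rw [Nat.factorization_eq_zero_of_not_prime _ hpp] at hp
      simp at hp
  have h3 : 2 * m ≤ 2 ^ m := by
    obtain ⟨k, rfl⟩ : ∃ k, m = k + 1 := ⟨m - 1, by omega⟩
    have : k < 2 ^ k := Nat.lt_two_pow_self
    rw [pow_succ]; omega
  have h4 : 2 * n ≤ 4 ^ m := by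
    have : (2 * m) ^ 2 ≤ (2 ^ m) ^ 2 := Nat.pow_le_pow_left h3 2
    have e : (2 ^ m) ^ 2 = 4 ^ m := by
      rw [← pow_mul, mul_comm, pow_mul]; norm_num
    rw [e] at this
    nlinarith
  have h5 : n * n.centralBinom ≤ (2 * n) ^ m := by
    calc n * n.centralBinom
        ≤ (2 * n) * (2 * n) ^ ((range (2 * n + 1)).filter Nat.Prime).card :=
          Nat.mul_le_mul (by omega) h2
      _ = (2 * n) ^ (((range (2 * n + 1)).filter Nat.Prime).card + 1) := by ring
      _ ≤ (2 * n) ^ m := Nat.pow_le_pow_right (by omega) hlt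
  have h6 : (2 * n) ^ m ≤ 4 ^ n := by
    calc (2 * n) ^ m ≤ (4 ^ m) ^ m := Nat.pow_le_pow_left h4 m
      _ = 4 ^ n := by rw [← pow_mul, hn, pow_two]
  omega

/-- A window of primes with a large product. -/
theorem two_pow_le_prod_window (lo b hi : ℕ) (hhi : 2 * (lo + b + 2) ^ 2 < hi) :
    2 ^ b ≤ ∏ p ∈ window lo hi, p := by
  have h1 := le_card_primes (lo + b + 2) (by omega)
  have h2 : (range (2 * (lo + b + 2) ^ 2 + 1)).filter Nat.Prime ⊆
      window lo hi ∪ range (lo + 1) := by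
    intro p hp
    rw [mem_filter, mem_range] at hp
    rw [mem_union, mem_window, mem_range]
    by_cases h : lo < p
    · exact Or.inl ⟨by omega, h, hp.2⟩
    · exact Or.inr (by omega)
  have h3 := (card_le_card h2).trans (card_union_le _ _)
  rw [card_range] at h3
  calc 2 ^ b ≤ 2 ^ (window lo hi).card := Nat.pow_le_pow_right (by norm_num) (by omega)
    _ ≤ ∏ p ∈ window lo hi, p :=
        pow_card_le_prod _ _ _ fun p hp => (mem_window.1 hp).2.2.two_le

/-- The approximation of the fractional part of `Y / M`. -/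
theorem exists_approx (S : Finset ℕ) (hS : ∀ p ∈ S, p.Prime) (Y : ℤ) (u : ℕ) (hu : S.card ≤ u)
    (r : ℕ → ℕ) (hr : ∀ p ∈ S, (r p : ℤ) * ((∏ q ∈ S.erase p, q : ℕ) : ℤ) ≡ Y [ZMOD p]) :
    ∃ z δ : ℤ, ((∑ p ∈ S, 16 * u * r p / p : ℕ) : ℤ) = δ + 16 * u * z ∧
      ((∏ p ∈ S, p : ℕ) : ℤ) * δ ≤ 16 * u * Y ∧
      16 * u * Y ≤ ((∏ p ∈ S, p : ℕ) : ℤ) * δ + ((∏ p ∈ S, p : ℕ) : ℤ) * u := by
  set M : ℕ := ∏ p ∈ S, p with hM
  set T : ℕ := ∑ p ∈ S, r p * ∏ q ∈ S.erase p, q with hT
  set F : ℕ := ∑ p ∈ S, 16 * u * r p / p with hF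
  have hMp : ∀ p ∈ S, p * ∏ q ∈ S.erase p, q = M := fun p hp => mul_prod_erase S (fun q => q) hp
  have hdvd : (M : ℤ) ∣ (T : ℤ) - Y := by
    rw [hM, Nat.cast_prod]
    refine prod_dvd_of_coprime ?_ fun p hp => ?_
    · intro p hp q hq hpq
      exact Nat.isCoprime_iff_coprime.2 ((Nat.coprime_primes (hS p hp) (hS q hq)).2 hpq)
    · have h1 : (T : ℤ) ≡ (r p : ℤ) * ((∏ q ∈ S.erase p, q : ℕ) : ℤ) [ZMOD p] := by
        rw [hT, ← add_sum_erase S _ hp, Nat.cast_add, Nat.cast_mul]
        refine (Int.ModEq.add_left _ (Int.modEq_zero_iff_dvd.2 ?_)).trans (by rw [add_zero])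
        refine Int.natCast_dvd_natCast.2 (dvd_sum fun q hq => dvd_mul_of_dvd_right ?_ _)
        rw [mem_erase] at hq
        exact dvd_prod_of_mem _ (mem_erase.2 ⟨hq.1.symm, hp⟩)
      exact (h1.trans (hr p hp)).symm.dvd
  obtain ⟨z, hz⟩ := hdvd
  have h1 : M * F ≤ 16 * u * T := by
    rw [hF, hT, mul_sum, mul_sum]
    refine sum_le_sum fun p hp => ?_
    rw [← hMp p hp]
    have := Nat.mul_div_le (16 * u * r p) p
    calc p * (∏ q ∈ S.erase p, q) * (16 * u * r p / p)
        = p * (16 * u * r p / p) * ∏ q ∈ S.erase p, q := by ring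
      _ ≤ 16 * u * r p * ∏ q ∈ S.erase p, q := Nat.mul_le_mul_right _ this
      _ = _ := by ring
  have h2 : 16 * u * T ≤ M * F + M * u := by
    have h3 : 16 * u * T ≤ ∑ p ∈ S, (M * (16 * u * r p / p) + M) := by
      rw [hT, mul_sum]
      refine sum_le_sum fun p hp => ?_
      rw [← hMp p hp]
      have := Nat.lt_mul_div_succ (16 * u * r p) (hS p hp).pos
      calc 16 * u * (r p * ∏ q ∈ S.erase p, q) = 16 * u * r p * ∏ q ∈ S.erase p, q := by ring
        _ ≤ p * (16 * u * r p / p + 1) * ∏ q ∈ S.erase p, q := Nat.mul_le_mul_right _ this.le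
        _ = _ := by ring
    rw [sum_add_distrib, ← mul_sum, sum_const, smul_eq_mul] at h3
    have := Nat.mul_le_mul_right M hu
    nlinarith
  refine ⟨z, (F : ℤ) - 16 * u * z, by ring, ?_, ?_⟩
  · have h1' : (M : ℤ) * F ≤ 16 * u * T := by exact_mod_cast h1
    have : (T : ℤ) = Y + M * z := by linarith
    rw [this] at h1'
    nlinarith
  · have h2' : 16 * u * (T : ℤ) ≤ M * F + M * u := by exact_mod_cast h2
    have : (T : ℤ) = Y + M * z := by linarith
    rw [this] at h2'
    nlinarith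

/-- The sign test. `r k p` is any natural number with `r k p * (M / p) ≡ 2 ^ k X` modulo `p`, where
`M` is the product of the primes in `S`. -/
theorem sign_crt (S : Finset ℕ) (hS : ∀ p ∈ S, p.Prime) (X : ℤ) (u K : ℕ) (hu : S.card ≤ u)
    (hu0 : 0 < u) (hX : 8 * |X| ≤ ((∏ p ∈ S, p : ℕ) : ℤ)) (hK : ∏ p ∈ S, p ≤ 2 ^ K)
    (r : ℕ → ℕ → ℕ)
    (hr : ∀ k, ∀ p ∈ S, (r k p : ℤ) * ((∏ q ∈ S.erase p, q : ℕ) : ℤ) ≡ 2 ^ k * X [ZMOD p])
    (A : ℕ → ℕ) (hA : ∀ k, A k = (∑ p ∈ S, 16 * u * r k p / p) % (16 * u)) :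
    X < 0 ↔ ∃ k < K + 1, (8 * u ≤ A k ∧ A k < 15 * u) ∧ ∀ j < k, ¬ (u ≤ A j ∧ A j < 8 * u) := by
  set M : ℤ := ((∏ p ∈ S, p : ℕ) : ℤ) with hM
  have hM0 : 0 < M := by
    rw [hM]
    exact_mod_cast prod_pos fun p hp => (hS p hp).pos
  have hu0' : (0 : ℤ) < u := by exact_mod_cast hu0
  have key : ∀ k, ∃ δ : ℤ, (A k : ℤ) = δ % (16 * u) ∧ M * δ ≤ 16 * u * (2 ^ k * X) ∧
      16 * u * (2 ^ k * X) ≤ M * δ + M * u := by
    intro k
    obtain ⟨z, δ, h1, h2, h3⟩ := exists_approx S hS (2 ^ k * X) u hu (r k) (hr k)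
    refine ⟨δ, ?_, h2, h3⟩
    rw [hA, Int.natCast_mod, h1]
    push_cast
    rw [Int.add_mul_emod_self_left]
  choose δ hδ hδ1 hδ2 using key
  -- bounds for `δ k` from bounds for `2 ^ k X / M`
  have up : ∀ (k : ℕ) (a : ℤ), 16 * (2 ^ k * X) ≤ a * M → δ k ≤ a * u := by
    intro k a h
    refine le_of_mul_le_mul_left ?_ hM0
    nlinarith [hδ1 k]
  have up' : ∀ (k : ℕ) (a : ℤ), 16 * (2 ^ k * X) < a * M → δ k < a * u := by
    intro k a h
    refine lt_of_mul_lt_mul_left ?_ hM0.le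
    nlinarith [hδ1 k]
  have lo : ∀ (k : ℕ) (a : ℤ), a * M ≤ 16 * (2 ^ k * X) → (a - 1) * u ≤ δ k := by
    intro k a h
    refine le_of_mul_le_mul_left ?_ hM0
    nlinarith [hδ2 k]
  have mpos : ∀ k, 0 ≤ δ k → δ k < 16 * u → (A k : ℤ) = δ k := by
    intro k h1 h2
    rw [hδ, Int.emod_eq_of_lt h1 h2]
  have mneg : ∀ k, δ k < 0 → -(16 * u) ≤ δ k → (A k : ℤ) = δ k + 16 * u := by
    intro k h1 h2
    rw [hδ, ← Int.add_emod_right, Int.emod_eq_of_lt (by linarith) (by linarith)]
  have habs := abs_le.1 (show |X| ≤ |X| from le_rfl)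
  constructor
  · intro hneg
    have hex : ∃ k, 16 * (2 ^ k * X) < -M := by
      refine ⟨K, ?_⟩
      have : M ≤ 2 ^ K := by rw [hM]; exact_mod_cast hK
      nlinarith
    have hkK : Nat.find hex ≤ K := by
      refine Nat.find_min' hex ?_
      have : M ≤ 2 ^ K := by rw [hM]; exact_mod_cast hK
      nlinarith
    have h1 := Nat.find_spec hex
    have h2 : -2 * M ≤ 16 * (2 ^ Nat.find hex * X) := by
      rcases Nat.eq_zero_or_pos (Nat.find hex) with h0 | h0
      · rw [h0]; simp only [pow_zero, one_mul]; linarith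
      · have h3 := Nat.find_min hex (show Nat.find hex - 1 < Nat.find hex by omega)
        have e : (2 : ℤ) ^ Nat.find hex = 2 * 2 ^ (Nat.find hex - 1) := by
          rw [← pow_succ']; congr 1; omega
        rw [e]
        push Not at h3
        linarith
    refine ⟨Nat.find hex, by omega, ?_, fun j hj => ?_⟩
    · have h3 := up' _ (-1) (by linarith)
      have h4 := lo _ (-2) h2
      have h5 := mneg _ (by linarith) (by linarith)
      constructor
      · zify; linarith
      · zify; linarith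
    · have h3 := Nat.find_min hex hj
      push Not at h3
      have h4 := lo j (-1) (by linarith)
      have h5 := up' j 0 (by
        have : (0 : ℤ) < 2 ^ j := by positivity
        nlinarith)
      have h6 := mneg j (by linarith) (by linarith)
      rintro ⟨-, h7⟩
      zify at h7
      linarith
  · rintro ⟨k, -, ⟨h1, h2⟩, h3⟩
    by_contra hpos
    push Not at hpos
    have hind : ∀ j ≤ k, 16 * (2 ^ j * X) ≤ 4 * M := by
      intro j
      induction j with
      | zero => intro _; simp only [pow_zero, one_mul]; linarith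
      | succ j ih =>
        intro hj
        have h4 := ih (by omega)
        by_contra h5
        push Not at h5
        rw [pow_succ] at h5
        have h6 := lo j 2 (by linarith)
        have h7 := up j 4 h4
        have h8 := mpos j (by linarith) (by linarith)
        refine h3 j (by omega) ⟨?_, ?_⟩
        · zify; linarith
        · zify; linarith
    have h4 := up k 4 (hind k le_rfl)
    have h5 := lo k 0 (by
      have : (0 : ℤ) < 2 ^ k := by positivity
      nlinarith)
    zify at h1 h2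
    rcases lt_or_ge (δ k) 0 with h6 | h6
    · have := mneg k h6 (by linarith)
      linarith
    · have := mpos k h6 (by linarith)
      linarith

/-- The residues used in the sign test: inversion by Fermat's little theorem. -/
theorem fermat_residue {p : ℕ} (hp : p.Prime) {m : ℕ} (hm : ¬ p ∣ m) (Y : ℤ) {r : ℕ}
    (hr : (r : ZMod p) = (Y : ZMod p) * (m : ZMod p) ^ (p - 2)) : (r : ℤ) * (m : ℤ) ≡ Y [ZMOD p] := by
  have : Fact p.Prime := ⟨hp⟩
  rw [← ZMod.intCast_eq_intCast_iff]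
  push_cast
  have hm' : (m : ZMod p) ≠ 0 := by rwa [Ne, ZMod.natCast_eq_zero_iff]
  rw [hr, mul_assoc, ← pow_succ, show p - 2 + 1 = p - 1 by have := hp.two_le; omega,
    ZMod.pow_card_sub_one_eq_one hm', mul_one]

theorem not_dvd_prod_erase {S : Finset ℕ} (hS : ∀ p ∈ S, p.Prime) {p : ℕ} (hp : p ∈ S) :
    ¬ p ∣ ∏ q ∈ S.erase p, q := by
  intro h
  obtain ⟨q, hq, h'⟩ := ((hS p hp).prime.dvd_finsetProd_iff _).1 h
  rw [mem_erase] at hq
  exact hq.1 ((Nat.prime_dvd_prime_iff_eq (hS p hp) (hS q hq.2)).1 h').symm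

end Vale.Agent.P337
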