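import Mathlib.Analysis.RCLike.Basic
import Mathlib.Algebra.Polynomial.Reverse
import Mathlib.Algebra.Polynomial.AlgebraMap
import Mathlib.Algebra.Polynomial.Eval.Degree
import Mathlib.Algebra.Ring.GeomSum
import Mathlib.Tactic

/-!
Cauchy type bounds for values and roots of polynomials with bounded coefficients.
-/

namespace Vale.Agent.P337

open Finset Polynomial

theorem cauchy_sum {K : Type*} [NormedField K] (d : ℕ) (a : ℕ → K) {M : ℝ} (r : K)
    (hd : 1 ≤ ‖a d‖) (ha : ∀ i < d, ‖a i‖ ≤ M) (hr : M + 1 ≤ ‖r‖) :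
    1 ≤ ‖∑ i ∈ range (d + 1), a i * r ^ i‖ := by
  have h1 : ‖∑ i ∈ range d, a i * r ^ i‖ ≤ M * ∑ i ∈ range d, ‖r‖ ^ i := by
    rw [mul_sum]
    refine (norm_sum_le _ _).trans (sum_le_sum fun i hi => ?_)
    rw [norm_mul, norm_pow]
    exact mul_le_mul_of_nonneg_right (ha i (mem_range.1 hi)) (by positivity)
  have h2 : (‖r‖ - 1) * ∑ i ∈ range d, ‖r‖ ^ i = ‖r‖ ^ d - 1 := mul_geom_sum _ _
  have h3 : M * ∑ i ∈ range d, ‖r‖ ^ i ≤ (‖r‖ - 1) * ∑ i ∈ range d, ‖r‖ ^ i :=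
    mul_le_mul_of_nonneg_right (by linarith) (sum_nonneg fun i _ => by positivity)
  have h4 : ‖r‖ ^ d ≤ ‖a d * r ^ d‖ := by
    rw [norm_mul, norm_pow]
    exact le_mul_of_one_le_left (by positivity) hd
  have h5 : ‖a d * r ^ d‖ ≤ ‖∑ i ∈ range (d + 1), a i * r ^ i‖ +
      ‖∑ i ∈ range d, a i * r ^ i‖ := by
    have : a d * r ^ d = ∑ i ∈ range (d + 1), a i * r ^ i - ∑ i ∈ range d, a i * r ^ i := by
      rw [sum_range_succ]; ring
    rw [this]
    exact norm_sub_le _ _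
  linarith

theorem cauchy_eval {K : Type*} [NormedField K] (p : K[X]) {M : ℝ} (r : K)
    (hd : 1 ≤ ‖p.leadingCoeff‖) (ha : ∀ i, ‖p.coeff i‖ ≤ M) (hr : M + 1 ≤ ‖r‖) :
    1 ≤ ‖p.eval r‖ := by
  rw [eval_eq_sum_range]
  exact cauchy_sum _ _ r hd (fun i _ => ha i) hr

variable {K : Type*} [RCLike K]

theorem norm_intCast' (z : ℤ) : ‖(z : K)‖ = |(z : ℝ)| := by
  rw [← RCLike.ofReal_intCast, RCLike.norm_ofReal]

theorem one_le_norm_intCast {z : ℤ} (hz : z ≠ 0) : 1 ≤ ‖(z : K)‖ := by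
  rw [norm_intCast']
  exact_mod_cast Int.one_le_abs hz

/-- A nonzero integer polynomial with coefficients bounded by `M` has absolute value at least `1`
outside the disc of radius `M + 1`. -/
theorem one_le_norm_aeval {p : ℤ[X]} (hp : p ≠ 0) {M : ℝ} (ha : ∀ i, |(p.coeff i : ℝ)| ≤ M)
    {r : K} (hr : M + 1 ≤ ‖r‖) : 1 ≤ ‖aeval r p‖ := by
  rw [aeval_eq_sum_range]
  simp only [zsmul_eq_mul]
  refine cauchy_sum p.natDegree (fun i => (p.coeff i : K)) r ?_ (fun i _ => ?_) hr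
  · exact one_le_norm_intCast (leadingCoeff_ne_zero.2 hp)
  · rw [norm_intCast']; exact ha i

theorem aeval_ne_zero_of_le {p : ℤ[X]} (hp : p ≠ 0) {M : ℝ} (ha : ∀ i, |(p.coeff i : ℝ)| ≤ M)
    {r : K} (hr : M + 1 ≤ ‖r‖) : aeval r p ≠ 0 := by
  intro h
  have := one_le_norm_aeval hp ha hr
  rw [h, norm_zero] at this
  linarith

/-- Upper bound for the roots of a nonzero integer polynomial. -/
theorem norm_root_lt {p : ℤ[X]} (hp : p ≠ 0) {M : ℝ} (ha : ∀ i, |(p.coeff i : ℝ)| ≤ M)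
    {z : K} (hz : aeval z p = 0) : ‖z‖ < M + 1 :=
  lt_of_not_ge fun h => aeval_ne_zero_of_le hp ha h hz

/-- Lower bound for the nonzero roots of a nonzero integer polynomial. -/
theorem one_lt_mul_norm_root {p : ℤ[X]} (hp : p ≠ 0) {M : ℝ} (ha : ∀ i, |(p.coeff i : ℝ)| ≤ M)
    {z : K} (hz : aeval z p = 0) (hz0 : z ≠ 0) : 1 < (M + 1) * ‖z‖ := by
  have hrev : aeval z⁻¹ p.reverse = 0 := by
    let _ : Invertible z := invertibleOfNonzero hz0
    have := (eval₂_reverse_eq_zero_iff (algebraMap ℤ K) z p).2 (by rwa [← aeval_def])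
    rwa [invOf_eq_inv, ← aeval_def] at this
  have h := norm_root_lt (K := K) (reverse_eq_zero.not.2 hp) (M := M)
    (fun i => by rw [coeff_reverse]; exact ha _) hrev
  rw [norm_inv] at h
  have hpos : 0 < ‖z‖ := norm_pos_iff.2 hz0
  rwa [inv_lt_iff_one_lt_mul₀ hpos] at h

end Vale.Agent.P337
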