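import Vale.Agent.P337.Trace
import Mathlib.RingTheory.Polynomial.Vieta
import Mathlib.Algebra.Polynomial.Derivative
import Mathlib.Algebra.Polynomial.Div
import Mathlib.Data.Nat.Factorial.BigOperators
import Mathlib.Tactic.FieldSimp

/-!
The division free Newton formula: elementary symmetric functions from power sums.
-/

namespace Vale.Agent.P337

open Polynomial

section
variable {K : Type*} [Field K] [CharZero K]

omit [CharZero K] in
theorem coeff_prod_one_add (s : Multiset K) (k : ℕ) :
    (s.map fun a => (1 + C a * X : K[X])).prod.coeff k = s.esymm k := by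
  induction s using Multiset.induction_on generalizing k with
  | empty =>
    cases k with
    | zero => simp [Multiset.esymm]
    | succ k => simp [Multiset.esymm, coeff_one, Multiset.powersetCard_zero_right]
  | cons a s ih =>
    rw [Multiset.map_cons, Multiset.prod_cons, add_mul, one_mul, coeff_add, mul_assoc, coeff_C_mul]
    cases k with
    | zero => simp [ih, Multiset.esymm]
    | succ k =>
      rw [coeff_X_mul, ih, ih, Multiset.esymm, Multiset.esymm, Multiset.esymm,
        Multiset.powersetCard_cons, Multiset.map_add, Multiset.sum_add, Multiset.map_map,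
        ← Multiset.sum_map_mul_left]
      simp

omit [CharZero K] in
theorem dvd_derivative_prod (D : ℕ) (s : Multiset K) :
    (X : K[X]) ^ D ∣ derivative (s.map fun a => (1 + C a * X : K[X])).prod -
      (s.map fun a => C a * ∑ k ∈ Finset.range D, (-(C a * X)) ^ k).sum *
        (s.map fun a => (1 + C a * X : K[X])).prod := by
  induction s using Multiset.induction_on with
  | empty => simp
  | cons a s ih =>
    simp only [Multiset.map_cons, Multiset.prod_cons, Multiset.sum_cons]
    set E := (s.map fun a => (1 + C a * X : K[X])).prod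
    set G := (s.map fun a => C a * ∑ k ∈ Finset.range D, (-(C a * X) : K[X]) ^ k).sum
    have h1 := mul_neg_geom_sum (-(C a * X) : K[X]) D
    have h2 : derivative ((1 + C a * X) * E) -
        (C a * ∑ k ∈ Finset.range D, (-(C a * X)) ^ k + G) * ((1 + C a * X) * E) =
        X ^ D * (C a * (-C a) ^ D * E) + (1 + C a * X) * (derivative E - G * E) := by
      have h3 : (-(C a * X) : K[X]) ^ D = X ^ D * (-C a) ^ D := by
        rw [← mul_pow]
        congr 1
        ring
      rw [h3] at h1
      simp only [derivative_mul, derivative_add, derivative_one, derivative_C, derivative_X]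
      linear_combination (-(C a * E)) * h1
    rw [h2]
    exact dvd_add (dvd_mul_right _ _) (Dvd.dvd.mul_left ih _)

theorem ode_unique (D : ℕ) (U G : K[X]) (h0 : U.coeff 0 = 0)
    (h : (X : K[X]) ^ D ∣ derivative U - G * U) : (X : K[X]) ^ (D + 1) ∣ U := by
  have key : ∀ k ≤ D + 1, (X : K[X]) ^ k ∣ U := by
    intro k
    induction k with
    | zero => simp
    | succ k ih =>
      intro hk
      have h1 : (X : K[X]) ^ k ∣ derivative U := by
        have := dvd_add ((pow_dvd_pow X (show k ≤ D by omega)).trans h)
          (Dvd.dvd.mul_left (ih (by omega)) G)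
        rwa [sub_add_cancel] at this
      rw [X_pow_dvd_iff] at h1 ⊢
      intro d hd
      cases d with
      | zero => exact h0
      | succ d =>
        have := h1 d (by omega)
        rw [coeff_derivative, mul_eq_zero] at this
        exact this.resolve_right (by exact_mod_cast Nat.succ_ne_zero d)
  exact key _ le_rfl

omit [CharZero K] in
theorem prod_ite_mul (D k : ℕ) (hk : k < D) :
    (∏ j ∈ Finset.range D, if j = k then 1 else j + 1 : ℕ) * (k + 1) = D.factorial := by
  rw [← Finset.prod_range_add_one_eq_factorial,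
    ← Finset.mul_prod_erase _ _ (Finset.mem_range.2 hk),
    ← Finset.mul_prod_erase _ (fun j => j + 1) (Finset.mem_range.2 hk), if_pos rfl, one_mul,
    mul_comm]
  congr 1
  exact Finset.prod_congr rfl fun j hj => if_neg (Finset.ne_of_mem_erase hj)

theorem coeff_newtonE (D : ℕ) (s : Multiset K) (p : ℕ → K)
    (hp : ∀ j, 1 ≤ j → j ≤ D → p j = (s.map fun a => a ^ j).sum) {k : ℕ} (hk : k ≤ D) :
    (newtonE D p).coeff k = QQ D * s.esymm k := by
  have hf : ∀ m : ℕ, ((m.factorial : ℕ) : K) ≠ 0 := fun m => by
    exact_mod_cast m.factorial_ne_zero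
  set L : K[X] := C ((D.factorial : K))⁻¹ * newtonL D p with hL
  set Y : K[X] := ∑ m ∈ Finset.range (D + 1), C ((m.factorial : K))⁻¹ * L ^ m with hY
  have hE : newtonE D p = C (QQ D : K) * Y := by
    rw [newtonE, hY, Finset.mul_sum]
    refine Finset.sum_congr rfl fun m hm => ?_
    have hm' : m ≤ D := Nat.lt_succ_iff.1 (Finset.mem_range.1 hm)
    rw [hL, mul_pow, ← C_pow, ← mul_assoc, ← mul_assoc, ← C_mul, ← C_mul]
    congr 2
    have h1 := Nat.factorial_mul_descFactorial (show D - m ≤ D by omega)
    rw [show D - (D - m) = m by omega] at h1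
    have h2 : ((m.factorial : ℕ) : K) * (D.descFactorial (D - m) : ℕ) = (D.factorial : ℕ) := by
      exact_mod_cast h1
    have h3 : ((D.factorial : ℕ) : K) ^ (D + 1) =
        (D.factorial : ℕ) ^ (D - m) * (D.factorial : ℕ) ^ m * (D.factorial : ℕ) := by
      rw [← pow_add, ← pow_succ]
      congr 1
      omega
    have h4 := hf m
    have h5 := hf D
    rw [QQ]
    push_cast
    rw [h3, inv_pow]
    field_simp
    linear_combination h2
  have hXL : (X : K[X]) ∣ L := by
    refine Dvd.dvd.mul_left (Finset.dvd_sum fun k _ => Dvd.dvd.mul_left ?_ _) _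
    exact dvd_pow_self _ (Nat.succ_ne_zero k)
  have hL' : derivative L =
      (s.map fun a => C a * ∑ k ∈ Finset.range D, (-(C a * X)) ^ k).sum := by
    simp only [Finset.mul_sum]
    rw [Multiset.sum_map_sum, hL, newtonL, Finset.mul_sum, derivative_sum]
    refine Finset.sum_congr rfl fun k hk => ?_
    have hk' := Finset.mem_range.1 hk
    have h1 : (((∏ j ∈ Finset.range D, if j = k then 1 else j + 1 : ℕ) : ℕ) : K) * (k + 1) =
        (D.factorial : ℕ) := by exact_mod_cast prod_ite_mul D k hk'
    rw [← mul_assoc, ← C_mul, derivative_C_mul_X_pow, hp (k + 1) (by omega) (by omega),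
      add_tsub_cancel_right]
    have h2 : ∀ a : K, C a * (-(C a * X) : K[X]) ^ k = C ((-1) ^ k * a ^ (k + 1)) * X ^ k := by
      intro a
      rw [neg_pow, mul_pow, C_mul, C_pow, C_pow, C_neg, C_1]
      ring
    simp only [h2]
    have h3 : (s.map fun a => C ((-1) ^ k * a ^ (k + 1))).sum =
        C ((s.map fun a => (-1) ^ k * a ^ (k + 1)).sum) := by
      rw [map_multiset_sum, Multiset.map_map]
      rfl
    rw [Multiset.sum_map_mul_right, h3, Multiset.sum_map_mul_left]
    congr 2
    have h5 := hf D
    push_cast at h1 ⊢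
    field_simp
    linear_combination (Multiset.map (fun a => a ^ (k + 1)) s).sum * h1
  have hY' : (X : K[X]) ^ D ∣ derivative Y - derivative L * Y := by
    have h1 : derivative Y =
        derivative L * ∑ m ∈ Finset.range D, C ((m.factorial : K))⁻¹ * L ^ m := by
      rw [hY, derivative_sum, Finset.sum_range_succ', Finset.mul_sum]
      simp only [pow_zero, mul_one, derivative_C, add_zero]
      refine Finset.sum_congr rfl fun m _ => ?_
      rw [derivative_C_mul, derivative_pow, add_tsub_cancel_right, ← mul_assoc, ← mul_assoc,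
        ← C_mul]
      have : (((m + 1).factorial : ℕ) : K)⁻¹ * ((m + 1 : ℕ) : K) = ((m.factorial : ℕ) : K)⁻¹ := by
        have h4 := hf m
        have h5 : ((m : K) + 1) ≠ 0 := by exact_mod_cast Nat.succ_ne_zero m
        rw [Nat.factorial_succ]
        push_cast
        field_simp
      rw [this]
      ring
    rw [h1, hY, Finset.sum_range_succ, ← mul_sub, sub_add_cancel_left]
    exact Dvd.dvd.mul_left (dvd_neg.2 (Dvd.dvd.mul_left (pow_dvd_pow_of_dvd hXL D) _)) _
  set E := (s.map fun a => (1 + C a * X : K[X])).prod with hE'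
  have hU : (X : K[X]) ^ (D + 1) ∣ Y - E := by
    refine ode_unique D _ (derivative L) ?_ ?_
    · rw [coeff_sub, hE', coeff_prod_one_add, hY, Finset.sum_range_succ', coeff_add,
        X_dvd_iff.1 (Finset.dvd_sum fun m _ => Dvd.dvd.mul_left
          (hXL.trans (dvd_pow_self L (Nat.succ_ne_zero m))) _)]
      simp [Multiset.esymm]
    · have := dvd_sub hY' (dvd_derivative_prod D s)
      rw [← hL', ← hE'] at this
      convert this using 1
      rw [derivative_sub]
      ring
  have := X_pow_dvd_iff.1 hU k (by omega)
  rw [coeff_sub, sub_eq_zero, hE', coeff_prod_one_add] at this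
  rw [hE, coeff_C_mul, this]

end

theorem QQ_pos (D : ℕ) : 0 < QQ D := pow_pos D.factorial_pos _

open MvPolynomial in
/-- The roots of the system, with multiplicities, and the meaning of `EE`. -/
theorem exists_roots_EE {σ : Type*} [Fintype σ] [DecidableEq σ] {K : Type*} [Field K]
    [IsAlgClosed K] [CharZero K] {e : ℕ} {r : σ → MvPolynomial σ K} (he : 1 ≤ e)
    (hr : ∀ i, Dg ((e : ℤ) - 1) (r i)) :
    ∃ Z : Multiset (σ → K), (∀ η, η ∈ Z ↔ ∀ i, eval η (sys e r i) = 0) ∧
      Z.card = e ^ Fintype.card σ ∧
      (∀ (N : ℕ) (g : MvPolynomial σ K), e ^ Fintype.card σ * g.totalDegree ≤ N →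
        ∀ k ≤ e ^ Fintype.card σ,
          EE e N r g k = QQ (e ^ Fintype.card σ) * (Z.map fun η => eval η g).esymm k) ∧
      ((∀ η ∈ Z, eval η (jac e r) ≠ 0) → Z.Nodup) := by
  obtain ⟨Z, h1, h2, h3, h4⟩ := exists_roots he hr
  refine ⟨Z, h1, h2, fun N g hg k hk => ?_, h4⟩
  refine coeff_newtonE _ _ _ (fun j _ hj => ?_) hk
  rw [h3 N (g ^ j) ((totalDegree_pow g j).trans ((Nat.mul_le_mul_right _ hj).trans hg)),
    Multiset.map_map]
  simp

end Vale.Agent.P337
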