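import Vale.Agent.P337.StepD
import Vale.Agent.P337.Newton
import Vale.Agent.P337.Cauchy
import Mathlib.RingTheory.Polynomial.Vieta
import Mathlib.Analysis.Complex.Polynomial.Basic

/-!
The real root test for an integer system `x_i ^ e = r_i`.
-/

namespace Vale.Agent.P337

open Finset ComplexConjugate MvPolynomial

section CP

variable {σ : Type*} [Fintype σ] [DecidableEq σ] {R : Type*} [CommRing R]

/-- `QQ D * ∏_η (T - g η)`. -/
noncomputable def cpoly (e K : ℕ) (r : σ → MvPolynomial σ R) (g : MvPolynomial σ R) :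
    Polynomial R :=
  ∑ j ∈ range (e ^ Fintype.card σ + 1),
    Polynomial.C ((-1) ^ j * EE e K r g j) * Polynomial.X ^ (e ^ Fintype.card σ - j)

theorem natDegree_cpoly (e K : ℕ) (r : σ → MvPolynomial σ R) (g : MvPolynomial σ R) :
    (cpoly e K r g).natDegree ≤ e ^ Fintype.card σ :=
  Polynomial.natDegree_sum_le_of_forall_le _ _ fun _ _ =>
    (Polynomial.natDegree_C_mul_X_pow_le _ _).trans (Nat.sub_le _ _)

theorem coeff_cpoly (e K : ℕ) (r : σ → MvPolynomial σ R) (g : MvPolynomial σ R) (i : ℕ) :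
    (cpoly e K r g).coeff i = if i ≤ e ^ Fintype.card σ then
      (-1) ^ (e ^ Fintype.card σ - i) * EE e K r g (e ^ Fintype.card σ - i) else 0 := by
  simp only [cpoly, Polynomial.finsetSum_coeff, Polynomial.coeff_C_mul_X_pow]
  split_ifs with h
  · rw [sum_eq_single (e ^ Fintype.card σ - i), if_pos (by omega)]
    · intro j hj hne
      rw [if_neg]
      have := mem_range.1 hj
      omega
    · intro h'
      exact (h' (mem_range.2 (by omega))).elim
  · refine sum_eq_zero fun j _ => if_neg ?_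
    omega

theorem aeval_vv {S : Type*} [CommRing S] [Algebra R S] (x : σ → S) (e K : ℕ)
    (r : σ → MvPolynomial σ R) (g : MvPolynomial σ R) (k : ℕ) :
    aeval x (vv e K r g k) =
      Polynomial.aeval (aeval x g) (Polynomial.derivative^[k] (cpoly e K r g)) := by
  simp only [vv, cpoly, Polynomial.iterate_derivative_sum, Polynomial.iterate_derivative_C_mul,
    Polynomial.iterate_derivative_X_pow_eq_C_mul, map_sum]
  refine sum_congr rfl fun j _ => ?_
  simp only [map_mul, map_pow, aeval_C, Polynomial.aeval_C, Polynomial.aeval_X, map_natCast]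
  ring

theorem dg_vv (e K : ℕ) (r : σ → MvPolynomial σ R) {g : MvPolynomial σ R} (hg : Dg 1 g) (k : ℕ) :
    Dg (e ^ Fintype.card σ : ℕ) (vv e K r g k) :=
  Dg.sum _ fun j _ => ((hg.pow _).C_mul _).mono (by
    rw [mul_one]
    exact_mod_cast (Nat.sub_le _ _).trans (Nat.sub_le _ _))

omit [Fintype σ] [DecidableEq σ] in
theorem dg_natCast (a : ℕ) : Dg 0 ((a : ℕ) : MvPolynomial σ R) := by
  rw [← map_natCast (C : R →+* MvPolynomial σ R)]
  exact Dg.C _

omit [Fintype σ] [DecidableEq σ] in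
theorem dg_neg_one_pow (a : ℕ) : Dg 0 ((-1) ^ a : MvPolynomial σ R) := by
  simpa using (Dg.one (σ := σ) (R := R)).neg.pow a

omit [Fintype σ] [DecidableEq σ] in
theorem dg_UU {d : ℕ} (L : ℕ) {w : ℕ → MvPolynomial σ R} (hw : ∀ j, Dg d (w j)) (c : ℕ) :
    Dg d (UU (L : MvPolynomial σ R) w c) := by
  have h1 := (dg_natCast (σ := σ) (R := R) L).mul ((dg_neg_one_pow (c / 2)).mul (hw (c / 4)))
  rw [zero_add, zero_add] at h1
  have h2 := (dg_neg_one_pow c).mul (h1.sub (Dg.one.mono (Int.natCast_nonneg d)))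
  rwa [zero_add] at h2

omit [Fintype σ] [DecidableEq σ] in
theorem dg_WW {d : ℕ} (B : ℕ) {u : MvPolynomial σ R} (hu : Dg d u) :
    Dg (((B + 1) * d : ℕ) : ℤ) (WW B u) := by
  have h : ∀ l : ℕ, Dg d ((2 : MvPolynomial σ R) ^ l) := fun l => by
    have := (dg_natCast (σ := σ) (R := R) (2 ^ l)).mono (Int.natCast_nonneg d)
    simpa using this
  have := Dg.prod (range (B + 1)) (fun l _ => hu.add (h l))
  rw [card_range] at this
  exact this.mono (by push_cast; exact le_rfl)

omit [Fintype σ] [DecidableEq σ] in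
theorem dg_GG {d : ℕ} (B m : ℕ) {u : ℕ → MvPolynomial σ R} (hu : ∀ j, Dg d (u j)) :
    Dg ((m * (2 * m) * (B + 1) * d : ℕ) : ℤ) (GG B m u) := by
  have h : ∀ (v : ℕ → MvPolynomial σ R), (∀ j, Dg d (v j)) →
      Dg ((m * (2 * m) * (B + 1) * d : ℕ) : ℤ) (∏ l ∈ range m, WW B (v l) ^ (2 * m)) := by
    intro v hv
    have := Dg.prod (range m) (fun l _ => (dg_WW B (hv l)).pow (2 * m))
    rw [card_range] at this
    exact this.mono (le_of_eq (by push_cast; ring))
  refine (Dg.sum _ fun j _ => h (fun l => if l = j then -u l else u l) fun l => ?_).sub (h u hu)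
  split_ifs
  · exact (hu l).neg
  · exact hu l

omit [Fintype σ] [DecidableEq σ] in
theorem dg_GC {d : ℕ} (B m D b N c L : ℕ) {w : ℕ → MvPolynomial σ R} (hw : ∀ j, Dg d (w j)) :
    Dg ((m * (2 * m) * (B + 1) * d : ℕ) : ℤ) (GC B m D b N c (L : MvPolynomial σ R) w) := by
  have h := (dg_natCast (σ := σ) (R := R) (2 * (D + 2))).mul
    (dg_GG B m (u := fun l => UU (L : MvPolynomial σ R) w (b * N / b ^ l % b))
      (fun l => dg_UU L hw _))
  rw [zero_add] at h
  exact h.add ((dg_natCast _).mono (Int.natCast_nonneg _))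

end CP

theorem dg_XN (n : ℕ) (R : Type*) [CommRing R] (i : ℕ) : Dg 1 (XN n R i) := by
  unfold XN
  split_ifs
  · exact Dg.X _
  · exact Dg.zero _

theorem dg_base {n : ℕ} {R : Type*} [CommRing R] (e K : ℕ) (r : Fin n → MvPolynomial (Fin n) R)
    {h0 : MvPolynomial (Fin n) R} {d : ℕ} (hd : h0.totalDegree ≤ d) (hD : e ^ n ≤ d) (j : ℕ) :
    Dg d (base e K r h0 j) := by
  unfold base
  split_ifs
  · exact dg_iff.2 hd
  · refine (dg_vv e K r (dg_XN n R _) _).mono ?_
    rw [Fintype.card_fin]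
    exact_mod_cast hD

theorem esymm_card_eq {R : Type*} [CommRing R] (s : Multiset R) : s.esymm s.card = s.prod := by
  simp [Multiset.esymm, Multiset.powersetCard_self]

section Int

variable {σ : Type*} [Fintype σ] [DecidableEq σ]

/-- The complex roots of an integer system. -/
theorem exists_roots_int {e : ℕ} {r : σ → MvPolynomial σ ℤ} (he : 1 ≤ e)
    (hr : ∀ i, Dg ((e : ℤ) - 1) (r i)) :
    ∃ Z : Multiset (σ → ℂ), (∀ η, η ∈ Z ↔ ∀ i, aeval η (sys e r i) = 0) ∧
      Z.card = e ^ Fintype.card σ ∧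
      (∀ (N : ℕ) (g : MvPolynomial σ ℤ), e ^ Fintype.card σ * g.totalDegree ≤ N →
        ∀ k ≤ e ^ Fintype.card σ, ((EE e N r g k : ℤ) : ℂ) =
          QQ (e ^ Fintype.card σ) * (Z.map fun η => aeval η g).esymm k) ∧
      ((∀ η ∈ Z, aeval η (jac e r) ≠ 0) → Z.Nodup) := by
  obtain ⟨Z, h1, h2, h3, h4⟩ := exists_roots_EE (K := ℂ) he
    (r := fun i => map (algebraMap ℤ ℂ) (r i)) (fun i => (hr i).map _)
  have key : ∀ (η : σ → ℂ) (g : MvPolynomial σ ℤ),
      eval η (map (algebraMap ℤ ℂ) g) = aeval η g := fun η g => by rw [eval_map, aeval_def]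
  refine ⟨Z, fun η => ?_, h2, fun N g hg k hk => ?_, fun h => h4 fun η hη => ?_⟩
  · rw [h1]
    simp only [← map_sys, key]
  · have := h3 N (map (algebraMap ℤ ℂ) g)
      ((Nat.mul_le_mul_left _ ((dg_totalDegree g).map _).totalDegree_le).trans hg) k hk
    rw [← map_EE] at this
    simpa only [key, eq_intCast] using this
  · rw [← map_jac, key]
    exact h η hη

theorem map_cpoly_eq {e N : ℕ} {r : σ → MvPolynomial σ ℤ} {g : MvPolynomial σ ℤ}
    {s : Multiset ℂ} (hs : s.card = e ^ Fintype.card σ)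
    (h : ∀ k ≤ e ^ Fintype.card σ,
      ((EE e N r g k : ℤ) : ℂ) = QQ (e ^ Fintype.card σ) * s.esymm k) :
    (cpoly e N r g).map (algebraMap ℤ ℂ) = Polynomial.C (QQ (e ^ Fintype.card σ) : ℂ) *
      (s.map fun t => Polynomial.X - Polynomial.C t).prod := by
  rw [Multiset.prod_X_sub_X_eq_sum_esymm, hs, mul_sum, cpoly, Polynomial.map_sum]
  refine sum_congr rfl fun j hj => ?_
  rw [Polynomial.map_mul, Polynomial.map_C, Polynomial.map_pow, Polynomial.map_X, eq_intCast]
  push_cast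
  rw [h j (Nat.lt_succ_iff.1 (mem_range.1 hj))]
  simp only [map_mul, map_pow, map_neg, map_one]
  ring

theorem cpoly_ne_zero {e N : ℕ} {r : σ → MvPolynomial σ ℤ} {g : MvPolynomial σ ℤ}
    {s : Multiset ℂ} (hs : s.card = e ^ Fintype.card σ)
    (h : ∀ k ≤ e ^ Fintype.card σ,
      ((EE e N r g k : ℤ) : ℂ) = QQ (e ^ Fintype.card σ) * s.esymm k) :
    cpoly e N r g ≠ 0 := by
  intro h0
  have h1 := map_cpoly_eq hs h
  rw [h0, Polynomial.map_zero] at h1
  refine mul_ne_zero (Polynomial.C_ne_zero.2 ?_) ?_ h1.symm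
  · exact_mod_cast (QQ_pos _).ne'
  · exact (Polynomial.monic_multiset_prod_of_monic _ _
      fun t _ => Polynomial.monic_X_sub_C t).ne_zero

theorem aeval_cpoly_eq_zero {e N : ℕ} {r : σ → MvPolynomial σ ℤ} {g : MvPolynomial σ ℤ}
    {s : Multiset ℂ} (hs : s.card = e ^ Fintype.card σ)
    (h : ∀ k ≤ e ^ Fintype.card σ,
      ((EE e N r g k : ℤ) : ℂ) = QQ (e ^ Fintype.card σ) * s.esymm k) {z : ℂ} (hz : z ∈ s) :
    Polynomial.aeval z (cpoly e N r g) = 0 := by
  rw [← Polynomial.eval_map_algebraMap, map_cpoly_eq hs h, Polynomial.eval_mul,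
    Polynomial.eval_multiset_prod, Multiset.map_map]
  refine mul_eq_zero_of_right _ (Multiset.prod_eq_zero (Multiset.mem_map.2 ⟨z, hz, ?_⟩))
  simp

theorem abs_coeff_cpoly_le {e N : ℕ} {r : σ → MvPolynomial σ ℤ} {g : MvPolynomial σ ℤ} {M : ℕ}
    (h : ∀ k ≤ e ^ Fintype.card σ, |EE e N r g k| ≤ M) (i : ℕ) :
    |(((cpoly e N r g).coeff i : ℤ) : ℝ)| ≤ M := by
  rw [coeff_cpoly]
  split_ifs
  · have := h (e ^ Fintype.card σ - i) (Nat.sub_le _ _)
    rw [← Int.cast_abs, abs_mul, abs_pow, abs_neg, abs_one, one_pow, one_mul]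
    exact_mod_cast this
  · simp

omit [Fintype σ] [DecidableEq σ] in
theorem aeval_ofReal (x : σ → ℝ) (g : MvPolynomial σ ℤ) :
    aeval (fun i => (x i : ℂ)) g = ((aeval x g : ℝ) : ℂ) :=
  (comp_aeval_apply x Complex.ofRealHom.toIntAlgHom g).symm

omit [Fintype σ] [DecidableEq σ] in
theorem aeval_star (η : σ → ℂ) (g : MvPolynomial σ ℤ) :
    aeval (star η) g = conj (aeval η g) :=
  (comp_aeval_apply η (starRingEnd ℂ).toIntAlgHom g).symm

omit [Fintype σ] [DecidableEq σ] in
theorem eq_ofReal_of_star_eq {η : σ → ℂ} (h : star η = η) : η = fun i => ((η i).re : ℂ) :=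
  funext fun i => (Complex.conj_eq_iff_re.1 (congrFun h i)).symm

end Int

theorem base_succ {n : ℕ} {R : Type*} [CommRing R] (e K : ℕ) (r : Fin n → MvPolynomial (Fin n) R)
    (h0 : MvPolynomial (Fin n) R) (i : Fin n) (k : ℕ) :
    base e K r h0 (i + n * k + 1) = vv e K r (X i) k := by
  have hn : 0 < n := i.pos
  unfold base
  rw [if_neg (by omega), Nat.add_sub_cancel, Nat.add_mul_mod_self_left, Nat.mod_eq_of_lt i.2,
    Nat.add_mul_div_left _ _ hn, Nat.div_eq_of_lt i.2, zero_add, XN, dif_pos i.2]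

/-- The real root test over the integers. -/
theorem stepD_int {n e : ℕ} {r : Fin n → MvPolynomial (Fin n) ℤ} (he : 1 ≤ e)
    (hr : ∀ i, Dg ((e : ℤ) - 1) (r i)) (h0 : MvPolynomial (Fin n) ℤ)
    {d K0 K1 K2 K3 M L B m : ℕ} (hd : h0.totalDegree ≤ d) (hDd : e ^ n ≤ d)
    (hK0 : e ^ n * (jac e r).totalDegree ≤ K0) (hjac : EE e K0 r (jac e r) (e ^ n) ≠ 0)
    (hK1 : e ^ n ≤ K1) (hK2 : e ^ n * d ≤ K2)
    (hK3 : e ^ n * (m * (2 * m) * (B + 1) * d) ≤ K3)
    (hM : ∀ j < n * (e ^ n + 1) + 1, ∀ k ≤ e ^ n, |EE e K2 r (base e K1 r h0 j) k| ≤ M)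
    (hL : 2 * (M + 1) ≤ L) (hB : L * (M + 1) + 1 ≤ 2 ^ B) (hm : e ^ n < 2 ^ m) :
    (∃ x : Fin n → ℝ, (∀ i, aeval x (sys e r i) = 0) ∧ 0 < aeval x h0) ↔
      ∃ N < (4 * (n * (e ^ n + 1) + 1)) ^ m, ∃ c < e ^ n + 1,
        EE e K3 r (GC B m (e ^ n) (4 * (n * (e ^ n + 1) + 1)) N c
          (L : MvPolynomial (Fin n) ℤ) (base e K1 r h0)) (e ^ n) < 0 := by
  classical
  obtain ⟨Z, h1, h2, h3, h4⟩ := exists_roots_int he hr
  have hcard : e ^ Fintype.card (Fin n) = e ^ n := by rw [Fintype.card_fin]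
  have hQ : (0 : ℝ) < QQ (e ^ n) := by exact_mod_cast QQ_pos _
  have htop : ∀ (N : ℕ) (g : MvPolynomial (Fin n) ℤ), e ^ n * g.totalDegree ≤ N →
      ((EE e N r g (e ^ n) : ℤ) : ℂ) = QQ (e ^ n) * (Z.map fun η => aeval η g).prod := by
    intro N g hg
    have := h3 N g (hcard ▸ hg) _ le_rfl
    rw [hcard] at this
    rw [this, ← esymm_card_eq, Multiset.card_map, h2, hcard]
  have hnd : Z.Nodup := by
    refine h4 fun η hη h => hjac ?_
    have := htop K0 _ hK0
    rw [Multiset.prod_eq_zero (Multiset.mem_map.2 ⟨η, hη, h⟩), mul_zero] at this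
    exact_mod_cast this
  have hm0 : 0 < m := by
    rcases Nat.eq_zero_or_pos m with rfl | h
    · have : 1 ≤ e ^ n := Nat.one_le_pow _ _ he
      omega
    · exact h
  have hdeg : ∀ j, e ^ n * (base e K1 r h0 j).totalDegree ≤ K2 := fun j =>
    (Nat.mul_le_mul_left _ (dg_base e K1 r hd hDd j).totalDegree_le).trans hK2
  have hroot : ∀ (N : ℕ) (g : MvPolynomial (Fin n) ℤ), e ^ n * g.totalDegree ≤ N →
      cpoly e N r g ≠ 0 ∧ ∀ η ∈ Z, Polynomial.aeval (aeval η g) (cpoly e N r g) = 0 := by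
    intro N g hg
    have hs : (Z.map fun η => aeval η g).card = e ^ Fintype.card (Fin n) := by
      rw [Multiset.card_map, h2]
    have h := h3 N g (hcard ▸ hg)
    exact ⟨cpoly_ne_zero hs h, fun η hη =>
      aeval_cpoly_eq_zero hs h (Multiset.mem_map_of_mem _ hη)⟩
  have hM0 : (0 : ℝ) ≤ M := Nat.cast_nonneg M
  have hL' : 2 * ((M : ℝ) + 1) ≤ L := by exact_mod_cast hL
  have hB' : (L : ℝ) * (M + 1) + 1 ≤ 2 ^ B := by exact_mod_cast hB
  have hstar : ∀ η ∈ Z, star η ∈ Z := by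
    intro η hη
    rw [h1] at hη ⊢
    intro i
    rw [aeval_star, hη i, map_zero]
  have main := stepD (⟨Z, hnd⟩ : Finset (Fin n → ℂ)) star hstar star_star
    (fun j η => aeval η (base e K1 r h0 j)) (fun j η => aeval_star η _)
    (J := n * (e ^ n + 1) + 1) (D := e ^ n) (m := m) (B := B) (L := L) (Nat.succ_pos _)
    (le_of_eq (h2.trans hcard)) hm hm0 ?_ ?_ ?_
  · have hb0 : base e K1 r h0 0 = h0 := if_pos rfl
    have hfin : ∀ N c, (∏ η ∈ (⟨Z, hnd⟩ : Finset (Fin n → ℂ)),
        GC B m (e ^ n) (4 * (n * (e ^ n + 1) + 1)) N c (L : ℂ)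
          (fun j => aeval η (base e K1 r h0 j))).re < 0 ↔
        EE e K3 r (GC B m (e ^ n) (4 * (n * (e ^ n + 1) + 1)) N c
          (L : MvPolynomial (Fin n) ℤ) (base e K1 r h0)) (e ^ n) < 0 := by
      intro N c
      have h5 := htop K3 _ ((Nat.mul_le_mul_left _ (dg_GC B m (e ^ n)
        (4 * (n * (e ^ n + 1) + 1)) N c L (dg_base e K1 r hd hDd)).totalDegree_le).trans hK3)
      have h6 : ∀ η : Fin n → ℂ, aeval η (GC B m (e ^ n) (4 * (n * (e ^ n + 1) + 1)) N c
          (L : MvPolynomial (Fin n) ℤ) (base e K1 r h0)) =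
          GC B m (e ^ n) (4 * (n * (e ^ n + 1) + 1)) N c (L : ℂ)
            (fun j => aeval η (base e K1 r h0 j)) := by
        intro η
        have := map_GC (aeval η : MvPolynomial (Fin n) ℤ →ₐ[ℤ] ℂ).toRingHom B m (e ^ n)
          (4 * (n * (e ^ n + 1) + 1)) N c (L : MvPolynomial (Fin n) ℤ) (base e K1 r h0)
        simpa using this
      simp only [h6] at h5
      have h7 := congrArg Complex.re h5
      rw [Complex.intCast_re, ← Complex.ofReal_natCast, Complex.re_ofReal_mul] at h7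
      rw [prod_mk, ← Int.cast_lt (R := ℝ), h7, Int.cast_zero, mul_neg_iff]
      constructor
      · exact fun h => Or.inl ⟨hQ, h⟩
      · rintro (h | h)
        · exact h.2
        · exact absurd h.1 (not_lt.2 hQ.le)
    simp only [hfin, hb0] at main
    rw [← main]
    constructor
    · rintro ⟨x, hx, hpos⟩
      refine ⟨fun i => (x i : ℂ), ?_, ?_, ?_⟩
      · refine (h1 _).2 fun i => ?_
        rw [aeval_ofReal, hx i, Complex.ofReal_zero]
      · exact funext fun i => Complex.conj_ofReal _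
      · rwa [aeval_ofReal, Complex.ofReal_re]
    · rintro ⟨η, hη, hfix, hpos⟩
      rw [eq_ofReal_of_star_eq hfix, aeval_ofReal, Complex.ofReal_re] at hpos
      refine ⟨fun i => (η i).re, fun i => ?_, hpos⟩
      have := (h1 η).1 hη i
      rw [eq_ofReal_of_star_eq hfix, aeval_ofReal] at this
      exact_mod_cast this
  · intro a ha b hb hafix hbfix hab
    obtain ⟨i, hi⟩ := Function.ne_iff.1 hab
    have ha' := eq_ofReal_of_star_eq hafix
    have hb' := eq_ofReal_of_star_eq hbfix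
    obtain ⟨hne, hz⟩ := hroot K1 (X i) (by simpa using hK1)
    have hreal : ∀ η ∈ Z, star η = η →
        ((cpoly e K1 r (X i)).map (algebraMap ℤ ℝ)).eval (η i).re = 0 := by
      intro η hη hfix
      have h5 := hz η hη
      rw [aeval_X, congrFun (eq_ofReal_of_star_eq hfix) i] at h5
      have h6 := Polynomial.aeval_algHom_apply Complex.ofRealHom.toIntAlgHom (η i).re
        (cpoly e K1 r (X i))
      rw [Polynomial.eval_map_algebraMap]
      have h7 : ((Polynomial.aeval (η i).re (cpoly e K1 r (X i)) : ℝ) : ℂ) = 0 :=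
        h6.symm.trans h5
      exact_mod_cast h7
    obtain ⟨k, hk, hs⟩ := thom ((cpoly e K1 r (X i)).map (algebraMap ℤ ℝ))
      ((Polynomial.map_ne_zero_iff (algebraMap ℤ ℝ).injective_int).2 hne)
      (a := (a i).re) (b := (b i).re)
      (fun h => hi (by rw [congrFun ha' i, congrFun hb' i, h]))
      (hreal a ha hafix) (hreal b hb hbfix)
    have hk' : k ≤ e ^ n :=
      hk.trans (Polynomial.natDegree_map_le.trans ((natDegree_cpoly _ _ _ _).trans hcard.le))
    refine ⟨i + n * k + 1, ?_, ?_⟩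
    · have := i.2
      have := Nat.mul_le_mul_left n hk'
      rw [mul_add, mul_one]
      omega
    · have h5 : ∀ η : Fin n → ℂ, star η = η → (aeval η (vv e K1 r (X i) k)).re =
          (Polynomial.derivative^[k] ((cpoly e K1 r (X i)).map (algebraMap ℤ ℝ))).eval
            (η i).re := by
        intro η hfix
        conv_lhs => rw [eq_ofReal_of_star_eq hfix]
        rw [aeval_ofReal, Complex.ofReal_re, aeval_vv, aeval_X,
          Polynomial.iterate_derivative_map, Polynomial.eval_map_algebraMap]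
      simp only [base_succ]
      rwa [h5 a hafix, h5 b hbfix]
  · intro j hj a ha hne
    obtain ⟨h5, h6⟩ := hroot K2 _ (hdeg j)
    have := one_lt_mul_norm_root h5 (abs_coeff_cpoly_le (hcard ▸ hM j hj)) (h6 a ha) hne
    have h7 := mul_le_mul_of_nonneg_right hL' (norm_nonneg (aeval a (base e K1 r h0 j)))
    linarith
  · intro j hj a ha
    obtain ⟨h5, h6⟩ := hroot K2 _ (hdeg j)
    have := norm_root_lt h5 (abs_coeff_cpoly_le (hcard ▸ hM j hj)) (h6 a ha)
    have h7 := mul_le_mul_of_nonneg_left this.le (Nat.cast_nonneg (α := ℝ) L)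
    linarith

end Vale.Agent.P337
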