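import Vale.Agent.P337.StepC
import Vale.Agent.P337.StepDInt

/-!
The feasibility of a nonnegative integer polynomial over the reals is equivalent to the
negativity of one of the test integers.
-/

namespace Vale.Agent.P337

open Finset MvPolynomial

theorem eval_map_intCast {σ F : Type*} [CommRing F] (x : σ → F) (g : MvPolynomial σ ℤ) :
    eval x (map (Int.castRingHom F) g) = aeval x g := by
  rw [eval_map, aeval_def, algebraMap_int_eq]

/-- The polynomial `R - h` at the parameter `t`. -/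
noncomputable def hzero {σ : Type*} [Fintype σ] {S : Type*} [CommRing S] (e : ℕ) (R t : S)
    (P : MvPolynomial σ S) : MvPolynomial σ S := C R - hh e t P

theorem core {n e : ℕ} {P : MvPolynomial (Fin n) ℤ} (he : Odd e) (hP : P.totalDegree ≤ e)
    (hP0 : ∀ x : Fin n → ℝ, 0 ≤ aeval x P) {KE KD M1 R t d K1 K2 K3 M2 L B m : ℕ}
    (hKE : e ^ n * (e + 1) ≤ KE) (hKD : e ^ n * (n * e) ≤ KD)
    (hE : ∀ k ≤ e ^ n, ∀ j, |(epsT e KE P k).coeff j| ≤ M1)
    (hD : ∀ j, |(delT e KD P).coeff j| ≤ M1)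
    (hR : M1 + 1 ≤ R) (ht : M1 * (e ^ n + 1) * (2 * R) ^ (e ^ n) + 1 ≤ t)
    (hd : e + 1 ≤ d) (hDd : e ^ n ≤ d) (hK1 : e ^ n ≤ K1) (hK2 : e ^ n * d ≤ K2)
    (hK3 : e ^ n * (m * (2 * m) * (B + 1) * d) ≤ K3)
    (hM : ∀ j < n * (e ^ n + 1) + 1, ∀ k ≤ e ^ n,
      |EE e K2 (rr (t : ℤ) P) (base e K1 (rr (t : ℤ) P) (hzero e (R : ℤ) (t : ℤ) P) j) k| ≤ M2)
    (hL : 2 * (M2 + 1) ≤ L) (hB : L * (M2 + 1) + 1 ≤ 2 ^ B) (hm : e ^ n < 2 ^ m) :
    (∃ x : Fin n → ℝ, aeval x P = 0) ↔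
      ∃ N < (4 * (n * (e ^ n + 1) + 1)) ^ m, ∃ c < e ^ n + 1,
        EE e K3 (rr (t : ℤ) P) (GC B m (e ^ n) (4 * (n * (e ^ n + 1) + 1)) N c
          (L : MvPolynomial (Fin n) ℤ)
          (base e K1 (rr (t : ℤ) P) (hzero e (R : ℤ) (t : ℤ) P))) (e ^ n) < 0 := by
  have he1 : 1 ≤ e := he.pos
  have hc : Fintype.card (Fin n) = n := Fintype.card_fin n
  have hP' : Dg e P := dg_iff.2 hP
  have hr := dg_rr he1 hP' (t : ℤ)
  have hKD' : e ^ Fintype.card (Fin n) * (Fintype.card (Fin n) * e) ≤ KD := by rwa [hc]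
  have htM : M1 + 1 ≤ t := by
    refine le_trans (Nat.succ_le_succ ?_) ht
    have h1 : 1 ≤ (2 * R) ^ (e ^ n) := Nat.one_le_pow _ _ (by omega)
    calc M1 = M1 * 1 * 1 := by ring
      _ ≤ _ := Nat.mul_le_mul (Nat.mul_le_mul_left _ (by omega)) h1
  have hjac : EE e KD (rr (t : ℤ) P) (jac e (rr (t : ℤ) P)) (e ^ n) ≠ 0 := by
    have h1 : Polynomial.aeval (t : ℝ) (delT e KD P) ≠ 0 :=
      aeval_ne_zero_of_le (delT_ne_zero he1 hP hKD') (M := M1)
        (fun j => by exact_mod_cast hD j) (by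
          rw [Real.norm_natCast]
          exact_mod_cast htM)
    intro h0
    apply h1
    have h2 := map_EE (Int.castRingHom ℝ) e KD (rr (t : ℤ) P) (jac e (rr (t : ℤ) P)) (e ^ n)
    rw [h0, map_zero, map_jac] at h2
    simp only [map_rr, map_natCast] at h2
    rw [aeval_delT, hc]
    exact h2.symm
  have hdeg : (hzero e (R : ℤ) (t : ℤ) P).totalDegree ≤ d :=
    dg_iff.1 (((Dg.C _).mono (Int.natCast_nonneg d)).sub
      ((dg_hh hP' _).mono (by exact_mod_cast hd)))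
  rw [← stepD_int he1 hr (hzero e (R : ℤ) (t : ℤ) P) hdeg hDd
    ((Nat.mul_le_mul_left _ ((totalDegree_jac_le hr).trans (by rw [hc]))).trans hKD) hjac
    hK1 hK2 hK3 hM hL hB hm]
  have hC := stepC (P := P) (K := KE) he hP (by simpa only [eval_map_intCast] using hP0)
    (by rwa [hc]) (M := M1) (R := R) (t₀ := t)
    (fun k hk j => by exact_mod_cast hE k (by rwa [hc] at hk) j) (by exact_mod_cast hR)
    (by rw [hc]; exact_mod_cast ht)
  simp only [eval_map_intCast] at hC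
  rw [hC]
  refine exists_congr fun x => and_congr (forall_congr' fun i => ?_) ?_
  · have h1 := map_sys (Int.castRingHom ℝ) e (rr (t : ℤ) P) i
    simp only [map_rr, map_natCast] at h1
    rw [← eval_map_intCast, h1]
  · have h1 := map_hh (Int.castRingHom ℝ) e (t : ℤ) P
    rw [map_natCast] at h1
    rw [hzero, map_sub, ← h1, eval_map_intCast, aeval_C, sub_pos]
    simp

end Vale.Agent.P337
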