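import Vale.Agent.P337.ParseDefs
import Vale.Agent.P337.DDefs
import Vale.Agent.P337.CH.MC
import Mathlib.Algebra.MvPolynomial.Degrees

/-!
Step A: a sign condition is satisfiable iff one nonnegative polynomial has a real zero.
-/

namespace Vale.Agent.P337

open Vale.Agent.Lib.PolyTime Finset

section Generic

variable {R S : Type*} [CommRing R] [CommRing S]

/-- The coefficient of the `k`-th monomial. -/
def cf (p : LPoly) (k : ℕ) : ℤ := (p.getD k (0, [])).1

/-- The exponent of the `i`-th variable in the `k`-th monomial. -/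
def ex (p : LPoly) (k i : ℕ) : ℕ := ((p.getD k (0, [])).2.getD i (Un.mk 0)).v

/-- The value of a raw polynomial in the variables `y 0, …, y (n - 1)` in any ring. -/
def rawEval (n : ℕ) (p : LPoly) (y : ℕ → R) : R :=
  ∑ k ∈ range p.length, (cf p k : R) * ∏ i ∈ range n, y i ^ ex p k i

/-- The equation which says that `v` has the sign with code `c`. -/
def tm (c : ℕ) (v y : R) : R :=
  if c = 0 then v else if c = 1 then v * y ^ 2 - 1 else if c = 2 then v * y ^ 2 + 1 else 1

/-- The sum of the squares of the equations. -/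
def PAe (n : ℕ) (L : List LPoly) (s : List ℕ) (y : ℕ → R) : R :=
  ∑ j ∈ range L.length, tm (s.getD j 0) (rawEval n (L.getD j []) y) (y (n + j)) ^ 2

theorem map_rawEval (φ : R →+* S) (n : ℕ) (p : LPoly) (y : ℕ → R) :
    φ (rawEval n p y) = rawEval n p fun i => φ (y i) := by
  simp [rawEval]

theorem map_tm (φ : R →+* S) (c : ℕ) (v y : R) : φ (tm c v y) = tm c (φ v) (φ y) := by
  unfold tm; split_ifs <;> simp

theorem map_PAe (φ : R →+* S) (n : ℕ) (L : List LPoly) (s : List ℕ) (y : ℕ → R) :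
    φ (PAe n L s y) = PAe n L s fun i => φ (y i) := by
  simp [PAe, map_tm, map_rawEval]

theorem rawEval_congr {n : ℕ} (p : LPoly) {y y' : ℕ → R} (h : ∀ i < n, y i = y' i) :
    rawEval n p y = rawEval n p y' :=
  sum_congr rfl fun _ _ => congrArg _ (prod_congr rfl fun i hi => by rw [h i (mem_range.1 hi)])

theorem PAe_congr {n : ℕ} {L : List LPoly} (s : List ℕ) {y y' : ℕ → R}
    (h : ∀ i < n + L.length, y i = y' i) : PAe n L s y = PAe n L s y' :=
  sum_congr rfl fun j hj => by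
    rw [rawEval_congr _ fun i hi => h i (by omega), h (n + j) (by have := mem_range.1 hj; omega)]

end Generic

/-- The polynomial of step A, in `N ≥ n + L.length` variables. -/
noncomputable def PA (N n : ℕ) (L : List LPoly) (s : List ℕ) : MvPolynomial (Fin N) ℤ :=
  PAe n L s (XN N ℤ)

theorem aeval_XN {K : Type*} [CommRing K] {N : ℕ} (x : Fin N → K) {i : ℕ} (hi : i < N) :
    MvPolynomial.aeval x (XN N ℤ i) = x ⟨i, hi⟩ := by
  simp [XN, hi]

theorem aeval_PA {K : Type*} [CommRing K] {N n : ℕ} {L : List LPoly} (s : List ℕ)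
    (hN : n + L.length ≤ N) (x : Fin N → K) (y : ℕ → K) (h : ∀ i : Fin N, x i = y i) :
    MvPolynomial.aeval x (PA N n L s) = PAe n L s y := by
  have := map_PAe (MvPolynomial.aeval (R := ℤ) x).toRingHom n L s (XN N ℤ)
  refine this.trans (PAe_congr s fun i hi => ?_)
  exact (aeval_XN x (by omega)).trans (h ⟨i, by omega⟩)

theorem aeval_PA' {K : Type*} [CommRing K] {N n : ℕ} {L : List LPoly} (s : List ℕ)
    (hN : n + L.length ≤ N) (x : Fin N → K) :
    MvPolynomial.aeval x (PA N n L s) = PAe n L s fun i => if h : i < N then x ⟨i, h⟩ else 0 :=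
  aeval_PA s hN x _ fun i => by simp

theorem PAe_nonneg (n : ℕ) (L : List LPoly) (s : List ℕ) (y : ℕ → ℝ) : 0 ≤ PAe n L s y :=
  sum_nonneg fun _ _ => sq_nonneg _

theorem aeval_PA_nonneg {N n : ℕ} {L : List LPoly} (s : List ℕ) (hN : n + L.length ≤ N)
    (x : Fin N → ℝ) : 0 ≤ MvPolynomial.aeval x (PA N n L s) := by
  rw [aeval_PA' s hN]; exact PAe_nonneg _ _ _ _

theorem list_sum_eq_range {β M : Type*} [AddCommMonoid M] (d : β) (f : β → M) (l : List β) :
    (l.map f).sum = ∑ k ∈ range l.length, f (l.getD k d) := by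
  induction l with
  | nil => simp
  | cons a l ih => rw [List.map_cons, List.sum_cons, List.length_cons, sum_range_succ', ih, add_comm]; simp

theorem evalL_eq (n : ℕ) (x : Fin n → ℝ) (p : LPoly) (y : ℕ → ℝ) (h : ∀ i : Fin n, x i = y i) :
    evalL n x p = rawEval n p y := by
  unfold evalL rawEval
  rw [list_sum_eq_range (0, [])]
  refine sum_congr rfl fun k _ => ?_
  rw [← Fin.prod_univ_eq_prod_range (fun i => y i ^ ex p k i) n]
  simp only [cf, ex, h]

theorem exists_tm_eq_zero (c : ℕ) (v : ℝ) : (∃ y, tm c v y = 0) ↔ sgc v = c := by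
  unfold tm sgc
  constructor
  · rintro ⟨y, hy⟩
    split_ifs at hy with h0 h1 h2
    · rw [if_pos hy, h0]
    · have hv : 0 < v := by
        by_contra hv
        nlinarith [sq_nonneg y]
      rw [if_neg hv.ne', if_pos hv, h1]
    · have hv : v < 0 := by
        by_contra hv
        nlinarith [sq_nonneg y]
      rw [if_neg hv.ne, if_neg (not_lt.2 hv.le), h2]
    · exact absurd hy one_ne_zero
  · intro h
    split_ifs at h with h0 h1
    · exact ⟨0, by rw [if_pos h.symm, h0]⟩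
    · subst h
      refine ⟨√v⁻¹, ?_⟩
      rw [if_neg one_ne_zero, if_pos rfl, Real.sq_sqrt (inv_nonneg.2 h1.le), mul_inv_cancel₀ h0,
        sub_self]
    · subst h
      have hv : v < 0 := lt_of_le_of_ne (not_lt.1 h1) h0
      refine ⟨√(-v)⁻¹, ?_⟩
      rw [if_neg (by omega), if_neg (by omega), if_pos rfl,
        Real.sq_sqrt (inv_nonneg.2 (by linarith)), inv_neg, mul_neg, mul_inv_cancel₀ h0]
      ring

/-- Step A. -/
theorem exists_aeval_PA_eq_zero {N n : ℕ} {L : List LPoly} (s : List ℕ) (hN : n + L.length ≤ N) :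
    (∃ x : Fin N → ℝ, MvPolynomial.aeval x (PA N n L s) = 0) ↔
      ∃ x : Fin n → ℝ, ∀ j < L.length, sgc (evalL n x (L.getD j [])) = s.getD j 0 := by
  constructor
  · rintro ⟨x, hx⟩
    rw [aeval_PA' s hN] at hx
    set y : ℕ → ℝ := fun i => if h : i < N then x ⟨i, h⟩ else 0
    refine ⟨fun i => y i, fun j hj => ?_⟩
    rw [evalL_eq n _ _ y fun _ => rfl, ← exists_tm_eq_zero]
    have := (sum_eq_zero_iff_of_nonneg fun _ _ => sq_nonneg _).1 hx j (mem_range.2 hj)
    exact ⟨_, pow_eq_zero_iff (two_ne_zero) |>.1 this⟩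
  · rintro ⟨x, hx⟩
    have h1 : ∀ j, ∃ z, j < L.length → tm (s.getD j 0) (evalL n x (L.getD j [])) z = 0 := by
      intro j
      by_cases hj : j < L.length
      · obtain ⟨z, hz⟩ := (exists_tm_eq_zero _ _).2 (hx j hj)
        exact ⟨z, fun _ => hz⟩
      · exact ⟨0, fun h => absurd h hj⟩
    choose z hz using h1
    set y : ℕ → ℝ := fun i => if h : i < n then x ⟨i, h⟩ else z (i - n) with hy
    refine ⟨fun i => y i, ?_⟩
    rw [aeval_PA s hN _ y fun _ => rfl]
    refine sum_eq_zero fun j hj => ?_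
    have h2 : y (n + j) = z j := by simp [hy]
    rw [← evalL_eq n x _ y fun i => by simp [hy], h2, hz j (mem_range.1 hj)]
    simp

theorem signFeas_iff (a : Un × List LPoly × List ℕ) {N : ℕ} (hN : a.1.v + a.2.1.length ≤ N) :
    SignFeas a ↔ ∃ x : Fin N → ℝ, MvPolynomial.aeval x (PA N a.1.v a.2.1 a.2.2) = 0 :=
  (exists_aeval_PA_eq_zero _ hN).symm

/-! ### Sizes -/

theorem esize_getD_le {β : Type*} [Enc β] (l : List β) (d : β) {k : ℕ} (hk : k < l.length) :
    esize (l.getD k d) ≤ esize l := by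
  rw [List.getD_eq_getElem _ _ hk]
  exact esize_le_of_mem (List.getElem_mem hk)

theorem sum_getD_v_le (l : List Un) (n : ℕ) : ∑ i ∈ range n, (l.getD i (Un.mk 0)).v ≤ esize l := by
  induction l generalizing n with
  | nil => simp
  | cons a l ih =>
    rcases n with _ | n
    · simp
    · rw [sum_range_succ', esize_list_cons, esize_un]
      have := ih n
      simp only [List.getD_cons_succ, List.getD_cons_zero]
      omega

theorem sum_ex_le (p : LPoly) (n : ℕ) {k : ℕ} (hk : k < p.length) :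
    ∑ i ∈ range n, ex p k i ≤ esize p :=
  (sum_getD_v_le _ n).trans ((esize_snd_le _).trans (esize_getD_le p _ hk))

theorem natAbs_cf_le (p : LPoly) {k : ℕ} (hk : k < p.length) : (cf p k).natAbs ≤ 2 ^ esize p := by
  have h1 : esize (cf p k) ≤ esize p := (esize_fst_le _).trans (esize_getD_le p _ hk)
  rw [esize_int] at h1
  exact (Nat.lt_size_self _).le.trans (Nat.pow_le_pow_right (by omega) (by omega))

theorem totalDegree_XN_le (N i : ℕ) : (XN N ℤ i).totalDegree ≤ 1 := by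
  unfold XN
  split_ifs
  · exact (MvPolynomial.totalDegree_X _).le
  · simp

theorem totalDegree_rawEval_le (N n : ℕ) (p : LPoly) :
    (rawEval n p (XN N ℤ)).totalDegree ≤ esize p := by
  refine MvPolynomial.totalDegree_finsetSum_le fun k hk => ?_
  refine (MvPolynomial.totalDegree_mul _ _).trans ?_
  have h0 : ((cf p k : ℤ) : MvPolynomial (Fin N) ℤ).totalDegree = 0 :=
    MvPolynomial.totalDegree_C (cf p k)
  rw [h0, zero_add]
  refine (MvPolynomial.totalDegree_finsetProd _ _).trans (le_trans (sum_le_sum fun i _ => ?_)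
    (sum_ex_le p n (mem_range.1 hk)))
  refine (MvPolynomial.totalDegree_pow _ _).trans ?_
  simpa using Nat.mul_le_mul_left (ex p k i) (totalDegree_XN_le N i)

theorem totalDegree_tm_le {σ : Type*} (c : ℕ) {v y : MvPolynomial σ ℤ} {d : ℕ}
    (hv : v.totalDegree ≤ d) (hy : y.totalDegree ≤ 1) : (tm c v y).totalDegree ≤ d + 2 := by
  have h1 : (v * y ^ 2).totalDegree ≤ d + 2 :=
    (MvPolynomial.totalDegree_mul _ _).trans
      (add_le_add hv ((MvPolynomial.totalDegree_pow _ _).trans (by omega)))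
  unfold tm
  split_ifs
  · omega
  · exact (MvPolynomial.totalDegree_sub _ _).trans (max_le h1 (by simp))
  · exact (MvPolynomial.totalDegree_add _ _).trans (max_le h1 (by simp))
  · simp

theorem totalDegree_PA_le (N n : ℕ) (L : List LPoly) (s : List ℕ) :
    (PA N n L s).totalDegree ≤ 2 * esize L + 4 := by
  refine MvPolynomial.totalDegree_finsetSum_le fun j hj => ?_
  refine (MvPolynomial.totalDegree_pow _ _).trans ?_
  have := totalDegree_tm_le (s.getD j 0) ((totalDegree_rawEval_le N n (L.getD j [])).trans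
    (esize_getD_le L _ (mem_range.1 hj))) (totalDegree_XN_le N (n + j))
  omega

theorem norm_rawEval_le {K : Type*} [NormedField K] [CharZero K] [NormSMulClass ℤ K] (n : ℕ)
    (p : LPoly) {S : ℕ} (hp : esize p ≤ S) {ρ : ℝ} (hρ : 1 ≤ ρ) {y : ℕ → K} (hy : ∀ i, ‖y i‖ ≤ ρ) :
    ‖rawEval n p y‖ ≤ 2 ^ (2 * S) * ρ ^ S := by
  have h1 : ∀ k ∈ range p.length,
      ‖(cf p k : K) * ∏ i ∈ range n, y i ^ ex p k i‖ ≤ 2 ^ S * ρ ^ S := by
    intro k hk
    rw [norm_mul, norm_prod]
    refine mul_le_mul ?_ ?_ (prod_nonneg fun _ _ => norm_nonneg _) (by positivity)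
    · have h2 : ‖(cf p k : K)‖ = ((cf p k).natAbs : ℝ) := by
        rw [← zsmul_one, norm_smul, norm_one, mul_one, Int.norm_eq_abs, Nat.cast_natAbs,
          Int.cast_abs]
      rw [h2]
      exact_mod_cast (natAbs_cf_le p (mem_range.1 hk)).trans (Nat.pow_le_pow_right (by omega) hp)
    · calc ∏ i ∈ range n, ‖y i ^ ex p k i‖ ≤ ∏ i ∈ range n, ρ ^ ex p k i :=
            prod_le_prod (fun _ _ => norm_nonneg _) fun i _ => by
              rw [norm_pow]; exact pow_le_pow_left₀ (norm_nonneg _) (hy i) _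
        _ = ρ ^ ∑ i ∈ range n, ex p k i := prod_pow_eq_pow_sum _ _ _
        _ ≤ ρ ^ S := pow_le_pow_right₀ hρ ((sum_ex_le p n (mem_range.1 hk)).trans hp)
  refine (norm_sum_le _ _).trans ((sum_le_card_nsmul _ _ _ h1).trans ?_)
  rw [card_range, nsmul_eq_mul, two_mul, pow_add, mul_assoc]
  refine mul_le_mul_of_nonneg_right ?_ (by positivity)
  exact_mod_cast ((length_le_esize p).trans hp).trans Nat.lt_two_pow_self.le

theorem norm_tm_le {K : Type*} [NormedField K] (c : ℕ) {v y : K} {B ρ : ℝ} (hB : 1 ≤ B)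
    (hρ : 1 ≤ ρ) (hv : ‖v‖ ≤ B) (hy : ‖y‖ ≤ ρ) : ‖tm c v y‖ ≤ 2 * (B * ρ ^ 2) := by
  have h0 : 1 ≤ ρ ^ 2 := one_le_pow₀ hρ
  have h1 : ‖v * y ^ 2‖ ≤ B * ρ ^ 2 := by
    rw [norm_mul, norm_pow]
    exact mul_le_mul hv (pow_le_pow_left₀ (norm_nonneg _) hy _) (by positivity) (by linarith)
  have h2 : 1 ≤ B * ρ ^ 2 := one_le_mul_of_one_le_of_one_le hB h0
  have h3 : B ≤ B * ρ ^ 2 := le_mul_of_one_le_right (by linarith) h0
  unfold tm
  split_ifs
  · linarith
  · have := norm_sub_le (v * y ^ 2) 1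
    rw [norm_one] at this
    linarith
  · have := norm_add_le (v * y ^ 2) 1
    rw [norm_one] at this
    linarith
  · rw [norm_one]; linarith

theorem norm_aeval_PA_le {N n : ℕ} {L : List LPoly} (s : List ℕ) (hN : n + L.length ≤ N)
    {ρ : ℝ} (hρ : 1 ≤ ρ) (η : Fin N → ℂ) (hη : ∀ i, ‖η i‖ ≤ ρ) :
    ‖MvPolynomial.aeval η (PA N n L s)‖ ≤ 2 ^ (5 * esize L + 4) * ρ ^ (5 * esize L + 4) := by
  rw [aeval_PA' s hN]
  set y : ℕ → ℂ := fun i => if h : i < N then η ⟨i, h⟩ else 0 with hy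
  have hyρ : ∀ i, ‖y i‖ ≤ ρ := fun i => by
    simp only [hy]
    split_ifs
    · exact hη _
    · rw [norm_zero]; linarith
  set S := esize L
  have hB : (1 : ℝ) ≤ 2 ^ (2 * S) * ρ ^ S :=
    one_le_mul_of_one_le_of_one_le (one_le_pow₀ one_le_two) (one_le_pow₀ hρ)
  have h1 : ∀ j ∈ range L.length,
      ‖tm (s.getD j 0) (rawEval n (L.getD j []) y) (y (n + j)) ^ 2‖ ≤
        (2 * (2 ^ (2 * S) * ρ ^ S * ρ ^ 2)) ^ 2 := by
    intro j hj
    rw [norm_pow]
    exact pow_le_pow_left₀ (norm_nonneg _) (norm_tm_le _ hB hρ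
      (norm_rawEval_le n _ (esize_getD_le L _ (mem_range.1 hj)) hρ hyρ) (hyρ _)) _
  refine (norm_sum_le _ _).trans ((sum_le_card_nsmul _ _ _ h1).trans ?_)
  rw [card_range, nsmul_eq_mul]
  have h2 : (L.length : ℝ) ≤ 2 ^ S := by
    exact_mod_cast (length_le_esize L).trans Nat.lt_two_pow_self.le
  have h3 : ρ ^ (2 * S + 4) ≤ ρ ^ (5 * S + 4) := pow_le_pow_right₀ hρ (by omega)
  have h4 : (2 : ℝ) ^ (5 * S + 2) ≤ 2 ^ (5 * S + 4) := pow_le_pow_right₀ one_le_two (by omega)
  calc _ ≤ 2 ^ S * (2 * (2 ^ (2 * S) * ρ ^ S * ρ ^ 2)) ^ 2 :=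
        mul_le_mul_of_nonneg_right h2 (by positivity)
    _ = 2 ^ (5 * S + 2) * ρ ^ (2 * S + 4) := by ring
    _ ≤ _ := mul_le_mul h4 h3 (by positivity) (by positivity)

/-! ### Evaluation modulo a prime -/

section CH

variable {γ : Type*} [Enc γ]

@[fun_prop]
theorem CHF_cf {p : γ → LPoly} {k : γ → ℕ} (hp : CHF p) (hk : CHF k) :
    CHF fun x => cf (p x) (k x) := by
  unfold cf; fun_prop

@[fun_prop]
theorem CHF_ex {p : γ → LPoly} {k i : γ → ℕ} (hp : CHF p) (hk : CHF k) (hi : CHF i) :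
    CHF fun x => ex (p x) (k x) (i x) := by
  unfold ex; fun_prop

theorem ZC_intCast {E : γ → Prop} {p : γ → ℕ} (hp : CHF p) {z : γ → ℤ} (hz : CHF z) :
    ZC E p fun x => (z x : ZMod (p x)) :=
  ((ZC.natCast (E := E) hz.toNat).add ((ZC.natCast hz.intNeg.toNat).neg hp)).congr
    fun x h _ => ⟨h, by
      have h2 : z x = ((z x).toNat : ℤ) - ((-z x).toNat : ℤ) := by omega
      conv_rhs => rw [h2]
      push_cast
      ring⟩

theorem ZC_rawEval {E : γ → Prop} {p : γ → ℕ} (hp : CHF p) {n : γ → ℕ} (hn : CHF n)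
    {q : γ → LPoly} (hq : CHF q) {l : γ → List ℕ} (hl : CHF l) :
    ZC E p fun x => rawEval (n x) (q x) fun i => (((l x).getD i 0 : ℕ) : ZMod (p x)) := by
  refine ZC.sum_range (by fun_prop) (ZC.mul (ZC_intCast (by fun_prop) (by fun_prop)) ?_)
  refine ZC.prod_range (by fun_prop) (m := fun y : γ × ℕ => n y.1) (by fun_prop) ?_
  exact ZC.pow (by fun_prop) (ZC.natCast (by fun_prop)) (by fun_prop)

theorem ZC_tm {E : γ → Prop} {p : γ → ℕ} (hp : CHF p) {c : γ → ℕ} (hc : CHF c)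
    {v y : (x : γ) → ZMod (p x)} (hv : ZC E p v) (hy : ZC E p y) :
    ZC E p fun x => tm (c x) (v x) (y x) := by
  have h1 : ZC E p fun x => v x * y x ^ 2 := hv.mul (hy.pow hp (CHF.const 2))
  have h0 : ZC E p fun x => (1 : ZMod (p x)) :=
    (ZC.natCast (E := E) (CHF.const 1)).congr fun x h _ => ⟨h, by simp⟩
  unfold tm
  refine ZC.ite (by fun_prop) (hv.congr fun x h _ => ⟨h.1, rfl⟩) ?_
  refine ZC.ite (by fun_prop) ((h1.add (h0.neg hp)).congr fun x h _ =>
    ⟨h.1.1, (sub_eq_add_neg _ _).symm⟩) ?_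
  exact ZC.ite (by fun_prop) ((h1.add h0).congr fun x h _ => ⟨h.1.1.1, rfl⟩)
    (h0.congr fun x h _ => ⟨h.1.1.1, rfl⟩)

theorem ZC_PAe {E : γ → Prop} {p : γ → ℕ} (hp : CHF p) {n : γ → ℕ} (hn : CHF n)
    {L : γ → List LPoly} (hL : CHF L) {s : γ → List ℕ} (hs : CHF s) {l : γ → List ℕ}
    (hl : CHF l) :
    ZC E p fun x => PAe (n x) (L x) (s x) fun i => (((l x).getD i 0 : ℕ) : ZMod (p x)) := by
  refine ZC.sum_range (by fun_prop) (ZC.pow (by fun_prop) ?_ (CHF.const 2))
  exact ZC_tm (by fun_prop) (by fun_prop)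
    (ZC_rawEval (l := fun y : γ × ℕ => l y.1) (by fun_prop) (by fun_prop) (by fun_prop)
      (by fun_prop)) (ZC.natCast (by fun_prop))

end CH

/-- The number of variables of the polynomial of step A. -/
def nA (a : Un × List LPoly × List ℕ) : ℕ := a.1.v + a.2.1.length + 1

/-- The size parameter of the polynomial of step A. -/
def sA (a : Un × List LPoly × List ℕ) : ℕ := 5 * esize a.2.1 + 4

/-- The polynomial attached to an instance. -/
noncomputable def polyA (a : Un × List LPoly × List ℕ) : MvPolynomial (Fin (nA a)) ℤ :=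
  PA (nA a) a.1.v a.2.1 a.2.2

theorem le_nA (a : Un × List LPoly × List ℕ) : a.1.v + a.2.1.length ≤ nA a := Nat.le_succ _

theorem CHF_nA : CHF nA := by unfold nA; fun_prop

theorem PBd_nA : PBd nA := by unfold nA; fun_prop

theorem CHF_sA : CHF sA := by unfold sA; fun_prop

theorem PBd_sA : PBd sA := by unfold sA; fun_prop

theorem totalDegree_polyA_le (a : Un × List LPoly × List ℕ) : (polyA a).totalDegree ≤ sA a :=
  (totalDegree_PA_le _ _ _ _).trans (by unfold sA; omega)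

theorem aeval_polyA_nonneg (a : Un × List LPoly × List ℕ) (x : Fin (nA a) → ℝ) :
    0 ≤ MvPolynomial.aeval x (polyA a) := aeval_PA_nonneg _ (le_nA a) x

theorem norm_aeval_polyA_le (a : Un × List LPoly × List ℕ) (ρ : ℝ) (hρ : 1 ≤ ρ)
    (η : Fin (nA a) → ℂ) (hη : ∀ i, ‖η i‖ ≤ ρ) :
    ‖MvPolynomial.aeval η (polyA a)‖ ≤ 2 ^ sA a * ρ ^ sA a :=
  norm_aeval_PA_le _ (le_nA a) hρ η hη

theorem exists_eval_polyA : ∃ g : (Un × List LPoly × List ℕ) × ℕ × List ℕ → ℕ, CHF g ∧
    ∀ a p l, p.Prime → ((g (a, p, l) : ℕ) : ZMod p) =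
      MvPolynomial.aeval (fun i : Fin (nA a) => ((l.getD i 0 : ℕ) : ZMod p)) (polyA a) := by
  obtain ⟨g, hg, hg'⟩ := ZC_PAe (γ := (Un × List LPoly × List ℕ) × ℕ × List ℕ) (E := fun _ => True)
    (p := fun x => x.2.1) (by fun_prop) (n := fun x => x.1.1.v) (by fun_prop)
    (L := fun x => x.1.2.1) (by fun_prop) (s := fun x => x.1.2.2) (by fun_prop)
    (l := fun x => x.2.2) (by fun_prop)
  refine ⟨g, hg, fun a p l hp => (hg' (a, p, l) trivial hp).trans ?_⟩
  exact (aeval_PA _ (le_nA a) _ (fun i => ((l.getD i 0 : ℕ) : ZMod p)) fun _ => rfl).symm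

theorem signFeas_iff_polyA (a : Un × List LPoly × List ℕ) :
    SignFeas a ↔ ∃ x : Fin (nA a) → ℝ, MvPolynomial.aeval x (polyA a) = 0 :=
  signFeas_iff a (le_nA a)

/-- It suffices to decide whether `polyA a` has a real zero. -/
theorem CHP_signFeas_of
    (h : CHP fun a => ∃ x : Fin (nA a) → ℝ, MvPolynomial.aeval x (polyA a) = 0) : CHP SignFeas :=
  h.congr fun a => (signFeas_iff_polyA a).symm

end Vale.Agent.P337
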