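import Mathlib.GroupTheory.Perm.Fin
import Mathlib.LinearAlgebra.Matrix.Determinant.Basic

/-! The determinant as a sum over all maps, with an explicit sign. -/

namespace Vale.Agent.P337

open Finset

/-- The sign of a map: `0` if it is not injective, the sign of the ordering otherwise. -/
def sgnF (n : ℕ) (x : Fin n → ℕ) : ℤ :=
  ∏ i, ∏ j, if i < j then (if x i < x j then 1 else if x i = x j then 0 else -1) else 1

theorem sgnF_perm {n : ℕ} (σ : Equiv.Perm (Fin n)) :
    sgnF n (fun i => σ i) = (Equiv.Perm.sign σ : ℤ) := by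
  rw [Equiv.Perm.sign_eq_prod_prod_Ioi, Units.coe_prod]
  refine prod_congr rfl fun i _ => ?_
  rw [Units.coe_prod, ← prod_filter]
  refine prod_congr (by ext j; simp) fun j hj => ?_
  have hij : i ≠ j := (mem_Ioi.1 hj).ne
  by_cases h : σ i < σ j
  · rw [if_pos h, if_pos (show (σ i : ℕ) < σ j from h)]; rfl
  · rw [if_neg h, if_neg (show ¬ (σ i : ℕ) < σ j from h),
      if_neg fun h' => hij (σ.injective (Fin.ext h'))]
    rfl

theorem sgnF_eq_zero {n : ℕ} {x : Fin n → ℕ} (hx : ¬ Function.Injective x) : sgnF n x = 0 := by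
  obtain ⟨i, j, hij, hne⟩ := Function.not_injective_iff.1 hx
  wlog hlt : i < j generalizing i j
  · exact this j i hij.symm hne.symm (lt_of_le_of_ne (not_lt.1 hlt) hne.symm)
  refine prod_eq_zero (mem_univ i) (prod_eq_zero (mem_univ j) ?_)
  rw [if_pos hlt, if_neg (by omega), if_pos hij]

theorem det_eq_sum {R : Type*} [CommRing R] {n : ℕ} (M : Matrix (Fin n) (Fin n) R) :
    M.det = ∑ x : Fin n → Fin n, ((sgnF n (fun i => x i) : ℤ) : R) * ∏ i, M (x i) i := by
  classical
  rw [Matrix.det_apply']
  symm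
  rw [← sum_filter_add_sum_filter_not univ fun x : Fin n → Fin n => Function.Bijective x,
    sum_eq_zero (s := filter (fun x : Fin n → Fin n => ¬ Function.Bijective x) univ), add_zero]
  · symm
    refine sum_bij (fun σ _ => (σ : Fin n → Fin n)) (fun σ _ => ?_) (fun σ _ τ _ h => ?_)
      (fun x hx => ?_) fun σ _ => ?_
    · exact mem_filter.2 ⟨mem_univ _, σ.bijective⟩
    · exact Equiv.ext (congrFun h)
    · exact ⟨Equiv.ofBijective x (mem_filter.1 hx).2, mem_univ _, rfl⟩
    · rw [sgnF_perm]
  · intro x hx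
    have h : ¬ Function.Injective fun i => ((x i : Fin n) : ℕ) := fun h =>
      (mem_filter.1 hx).2 (Finite.injective_iff_bijective.1 fun i j e => h (congrArg Fin.val e))
    rw [sgnF_eq_zero h, Int.cast_zero, zero_mul]

end Vale.Agent.P337
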