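import Vale.Agent.P337.CH.Count

/-!
Decoding of words in polynomial time.
-/

namespace Vale.Agent.P337

open Vale.Agent.Lib.PolyTime

/-- Types whose codes can be decoded in polynomial time. -/
class Dec (α : Type*) [Enc α] where
  /-- the decoding function -/
  dec : Word → α
  dec_enc : ∀ a, dec (enc a) = a
  pt : PT ∅ (fun w : Raw => dec w.w)

export Dec (dec dec_enc)

variable {α β : Type*} [Enc α] [Enc β]

theorem PT_rawFst {A : Set Word} {f : α → Raw} (hf : PT A f) :
    PT A (fun a => Raw.mk (fstW (f a).w)) := PT_ofFP FP.fst hf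

theorem PT_rawSnd {A : Set Word} {f : α → Raw} (hf : PT A f) :
    PT A (fun a => Raw.mk (sndW (f a).w)) := PT_ofFP FP.snd hf

instance : Dec Un where
  dec w := ⟨w.length⟩
  dec_enc a := by simp [enc_un]
  pt := PT.mkUn (PT.rawLength PT.id) (PBd.esize.mono fun _ => le_rfl)

instance : Dec ℤ where
  dec w := if hd (fstW w) = true then -(val (sndW w) : ℤ) else (val (sndW w) : ℤ)
  dec_enc a := by
    rw [enc_int, enc_pair, fstW_pr, sndW_pr, enc_bool, val_enc_nat, hd_cons]
    by_cases h : a < 0
    · simp only [h, decide_true, if_true]; omega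
    · simp only [h, decide_false, Bool.false_eq_true, if_false]; omega
  pt := by
    have h1 : PT ∅ (fun w : Raw => (val (sndW w.w) : ℤ)) :=
      (PT.rawVal (PT_rawSnd PT.id)).natCast
    exact PT.ite ((PT.rawHd (PT_rawFst PT.id)).congr fun _ => by simp) h1.intNeg h1

instance [Dec α] [Dec β] : Dec (α × β) where
  dec w := (dec (fstW w), dec (sndW w))
  dec_enc a := by rw [enc_pair, fstW_pr, sndW_pr, dec_enc, dec_enc]
  pt := (Dec.pt.comp (PT_rawFst PT.id)).pair (Dec.pt.comp (PT_rawSnd PT.id))

theorem length_sndW_le (z : Word) : (sndW z).length ≤ z.length := by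
  induction z using sndW.induct with
  | case1 b z ih => simp only [sndW, List.length_cons]; omega
  | case2 y => simp [sndW]
  | case3 z h1 h2 =>
    rw [sndW]
    · simp
    · exact h1
    · exact h2

theorem length_iterate_sndW_le (j : ℕ) (z : Word) : (sndW^[j] z).length ≤ z.length := by
  induction j with
  | zero => exact le_rfl
  | succ j ih => rw [Function.iterate_succ_apply']; exact (length_sndW_le _).trans ih

theorem iterate_sndW_enc (j : ℕ) : ∀ l : List α, sndW^[j] (enc l) = enc (l.drop j) := by
  induction j with
  | zero => intro l; rfl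
  | succ j ih =>
    intro l
    rw [Function.iterate_succ_apply]
    cases l with
    | nil =>
      have := ih []
      rw [List.drop_nil] at this ⊢
      exact this
    | cons a l => rw [enc_cons, sndW_pr, ih, List.drop_succ_cons]

theorem enc_list_eq_nil {l : List α} : enc l = [] ↔ l = [] := by
  cases l with
  | nil => simp [enc_nil]
  | cons a l =>
    simp only [reduceCtorEq, iff_false]
    intro h
    have := congrArg List.length h
    rw [enc_cons, length_pr] at this
    simp at this

theorem PT_iterate_sndW :
    PT ∅ (fun z : Raw × ℕ => Raw.mk (sndW^[min z.2 z.1.w.length] z.1.w)) := by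
  have key : ∀ (j : ℕ) (w : Raw),
      (fun u : Raw => Raw.mk (sndW u.w))^[j] w = Raw.mk (sndW^[j] w.w) := by
    intro j w
    induction j with
    | zero => rfl
    | succ j ih => rw [Function.iterate_succ_apply', Function.iterate_succ_apply', ih]
  have hb : PBd (fun z : Raw × ℕ => z.1.w.length) :=
    (PT.fst' (A := ∅) (α := Raw) (β := ℕ)).pbd
  refine (PT.iterate (k := fun z : Raw × ℕ => min z.2 z.1.w.length) (init := fun z => z.1)
    (step := fun u : Raw => Raw.mk (sndW u.w)) (PT.min PT.snd' (PT.rawLength PT.fst'))
    (hb.mono fun z => min_le_right _ _) PT.fst' (PT_rawSnd PT.id) hb fun z j _ => ?_).congr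
    fun z => key _ _
  rw [key, esize_raw]
  exact length_iterate_sndW_le _ _

instance [Dec α] : Dec (List α) where
  dec w := ((List.range w.length).filter fun i =>
    decide (0 < (sndW^[min i w.length] w).length)).map fun i =>
      dec (fstW (sndW^[min i w.length] w))
  dec_enc l := by
    have hl : l.length ≤ (enc l).length := length_le_esize l
    have h1 : ((List.range (enc l).length).filter fun i =>
        decide (0 < (sndW^[min i (enc l).length] (enc l)).length)) = List.range l.length := by
      obtain ⟨k, hk⟩ := Nat.exists_eq_add_of_le hl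
      have h2 : ∀ i, decide (0 < (sndW^[min i (enc l).length] (enc l)).length) =
          decide (min i (enc l).length < l.length) := by
        intro i
        rw [iterate_sndW_enc, decide_eq_decide, List.length_pos_iff, Ne, enc_list_eq_nil,
          List.drop_eq_nil_iff, not_le]
      simp only [h2]
      generalize (enc l).length = m at *
      subst hk
      rw [List.range_add, List.filter_append, List.filter_eq_self.2, List.filter_eq_nil_iff.2,
        List.append_nil]
      · intro i hi
        obtain ⟨j, hj, rfl⟩ := List.mem_map.1 hi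
        simp
      · intro i hi
        rw [List.mem_range] at hi
        simp [hi]
    rw [h1]
    refine List.ext_getElem (by simp) fun i h2 h3 => ?_
    rw [List.getElem_map, List.getElem_range, min_eq_left (by omega), iterate_sndW_enc,
      List.drop_eq_getElem_cons h3, enc_cons, fstW_pr, dec_enc]
  pt := by
    have hb : PBd (fun w : Raw => w.w.length) := PBd.esize
    refine PT.map (PT.filter (PT.range (PT.rawLength PT.id) hb) ?_) ?_
    · exact (PT.const 0).lt (PT.rawLength PT_iterate_sndW)
    · exact Dec.pt.comp (PT_rawFst PT_iterate_sndW)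

/-- A set of codes of objects with a `CHP` property lies in the counting hierarchy. -/
theorem codes_mem_CH [Dec α] {p : α → Prop} (hp : CHP p) :
    {w : Word | ∃ a : α, w = enc a ∧ p a} ∈ CH := by
  have hd : CHF (fun w : Raw => (dec w.w : α)) := CHF.of_PT Dec.pt
  have h1 : CHP (fun w : Raw => Raw.mk (enc (dec w.w : α)) = w) :=
    CHP.eq (CHF.of_PT (PT_toRaw Dec.pt)) CHF.id
  refine mem_CH_of_CHP ((h1.and (hp.comp hd)).congr fun w => ⟨?_, ?_⟩)
  · rintro ⟨h2, h3⟩
    exact ⟨_, (congrArg Raw.w h2).symm, h3⟩
  · rintro ⟨a, h2, h3⟩
    rw [h2, dec_enc]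
    exact ⟨by rw [← h2], h3⟩

end Vale.Agent.P337
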