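import Vale.Agent.Lib.PolyTime.Defs

/-!
The existential theory of the reals as a language of binary words, and the class `∃ℝ`.
-/

namespace Vale.Agent.P337

open Vale.Agent.Lib.PolyTime

/-- Integer polynomials in `n` variables, given as explicit lists of monomials; a monomial is an
integer coefficient together with an exponent vector. -/
abbrev Poly (n : ℕ) : Type := List (ℤ × (Fin n → ℕ))

/-- The value of a polynomial at a real point. -/
noncomputable def Poly.eval {n : ℕ} (p : Poly n) (x : Fin n → ℝ) : ℝ :=
  (p.map fun m => (m.1 : ℝ) * ∏ i, x i ^ m.2 i).sum

/-- Boolean formulas built with NOT, AND, OR from atoms `p = 0` and `p > 0`. -/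
inductive Formula (n : ℕ) : Type
  | eq (p : Poly n)
  | pos (p : Poly n)
  | not (φ : Formula n)
  | and (φ ψ : Formula n)
  | or (φ ψ : Formula n)

/-- The formula is true at the real point `x`. -/
def Formula.Holds {n : ℕ} (x : Fin n → ℝ) : Formula n → Prop
  | .eq p => p.eval x = 0
  | .pos p => 0 < p.eval x
  | .not φ => ¬ φ.Holds x
  | .and φ ψ => φ.Holds x ∧ ψ.Holds x
  | .or φ ψ => φ.Holds x ∨ ψ.Holds x

/-- Code of a pair of words: every bit of the first word is preceded by `true`, then `false`, then
the second word. -/
def pair : Word → Word → Word
  | [], y => false :: y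
  | b :: x, y => true :: b :: pair x y

/-- Code of a list of words: iterated pairs. -/
def listCode : List Word → Word
  | [] => []
  | w :: l => pair w (listCode l)

/-- A natural number in unary. -/
def unary (k : ℕ) : Word := List.replicate k true

/-- An integer in binary: the sign bit and the binary digits of the absolute value. -/
def intCode (z : ℤ) : Word := pair [decide (z < 0)] z.natAbs.bits

/-- A monomial: the coefficient in binary, the exponents in unary. -/
def monoCode {n : ℕ} (m : ℤ × (Fin n → ℕ)) : Word :=
  pair (intCode m.1) (listCode (List.ofFn fun i => unary (m.2 i)))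

/-- A polynomial: the list of its monomials. -/
def polyCode {n : ℕ} (p : Poly n) : Word := listCode (p.map monoCode)

/-- The symbols of a formula in prefix (Polish) order; each symbol is a tag together with the code
of the polynomial for an atom, and with the empty word for a connective. -/
def Formula.symbols {n : ℕ} : Formula n → List Word
  | .eq p => [pair (unary 0) (polyCode p)]
  | .pos p => [pair (unary 1) (polyCode p)]
  | .not φ => pair (unary 2) [] :: φ.symbols
  | .and φ ψ => pair (unary 3) [] :: (φ.symbols ++ ψ.symbols)
  | .or φ ψ => pair (unary 4) [] :: (φ.symbols ++ ψ.symbols)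

/-- Code of the sentence `∃ x ∈ ℝⁿ, φ(x)`: the number of variables and the list of symbols. -/
def sentenceCode (n : ℕ) (φ : Formula n) : Word := pair (unary n) (listCode φ.symbols)

/-- The existential theory of the reals: the codes of the true existential sentences. -/
def ETR : Set Word :=
  {w | ∃ (n : ℕ) (φ : Formula n), w = sentenceCode n φ ∧ ∃ x : Fin n → ℝ, φ.Holds x}

/-- The class `∃ℝ`: languages that are polynomial time many-one reducible to `ETR`. -/
def ExistsR : Set (Set Word) :=
  {L | ∃ f : Word → Word, PolyTimeFun ∅ f ∧ ∀ x, x ∈ L ↔ f x ∈ ETR}

end Vale.Agent.P337
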