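import Vale.Agent.P337.AlgDefs
import Mathlib.Algebra.MvPolynomial.Degrees
import Mathlib.Tactic.Linarith
import Mathlib.Tactic.Ring
import Mathlib.Tactic.Positivity

/-!
Degree bounds with integer bounds (a negative bound means that the polynomial vanishes).
-/

namespace Vale.Agent.P337

open MvPolynomial

variable {σ : Type*} {R : Type*} [CommRing R]

/-- All monomials of `g` have degree at most `m`. -/
def Dg (m : ℤ) (g : MvPolynomial σ R) : Prop := ∀ c ∈ g.support, ((c.degree : ℕ) : ℤ) ≤ m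

namespace Dg

theorem mono {a b : ℤ} {g : MvPolynomial σ R} (h : Dg a g) (hab : a ≤ b) : Dg b g :=
  fun c hc => (h c hc).trans hab

theorem zero (a : ℤ) : Dg a (0 : MvPolynomial σ R) := fun c hc => by simp at hc

theorem coeff_eq_zero {a : ℤ} {g : MvPolynomial σ R} (h : Dg a g) {c : σ →₀ ℕ}
    (hc : a < ((c.degree : ℕ) : ℤ)) : coeff c g = 0 := by
  by_contra hne
  exact absurd (h c (mem_support_iff.2 hne)) (not_le.2 hc)

theorem of_coeff {a : ℤ} {g : MvPolynomial σ R}
    (h : ∀ c : σ →₀ ℕ, a < ((c.degree : ℕ) : ℤ) → coeff c g = 0) : Dg a g := by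
  intro c hc
  by_contra hlt
  exact (mem_support_iff.1 hc) (h c (not_le.1 hlt))

theorem add {a : ℤ} {g h : MvPolynomial σ R} (hg : Dg a g) (hh : Dg a h) : Dg a (g + h) :=
  of_coeff fun c hc => by rw [coeff_add, hg.coeff_eq_zero hc, hh.coeff_eq_zero hc, add_zero]

theorem neg {a : ℤ} {g : MvPolynomial σ R} (hg : Dg a g) : Dg a (-g) :=
  of_coeff fun c hc => by rw [coeff_neg, hg.coeff_eq_zero hc, neg_zero]

theorem sub {a : ℤ} {g h : MvPolynomial σ R} (hg : Dg a g) (hh : Dg a h) : Dg a (g - h) :=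
  of_coeff fun c hc => by rw [coeff_sub, hg.coeff_eq_zero hc, hh.coeff_eq_zero hc, sub_zero]

theorem mul {a b : ℤ} {g h : MvPolynomial σ R} (hg : Dg a g) (hh : Dg b h) :
    Dg (a + b) (g * h) := by
  classical
  intro c hc
  obtain ⟨u, hu, v, hv, rfl⟩ := Finset.mem_add.1 (support_mul g h hc)
  have h1 := hg u hu
  have h2 := hh v hv
  rw [map_add]
  push_cast
  omega

theorem monomial (c : σ →₀ ℕ) (x : R) : Dg (c.degree : ℕ) (monomial c x) := by
  intro d hd
  have := support_monomial_subset hd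
  rw [Finset.mem_singleton] at this
  rw [this]

theorem C (x : R) : Dg 0 (C x : MvPolynomial σ R) := by
  have := Dg.monomial (0 : σ →₀ ℕ) x
  simpa using this

theorem one : Dg 0 (1 : MvPolynomial σ R) := Dg.C 1

theorem X (i : σ) : Dg 1 (X i : MvPolynomial σ R) := by
  have := Dg.monomial (Finsupp.single i 1 : σ →₀ ℕ) (1 : R)
  simpa [MvPolynomial.X] using this

theorem C_mul {a : ℤ} {g : MvPolynomial σ R} (hg : Dg a g) (x : R) :
    Dg a (MvPolynomial.C x * g) := by
  simpa using (Dg.C x).mul hg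

theorem pow {a : ℤ} {g : MvPolynomial σ R} (hg : Dg a g) (k : ℕ) : Dg (k * a) (g ^ k) := by
  induction k with
  | zero => simpa using Dg.one
  | succ k ih =>
    rw [pow_succ]
    exact (ih.mul hg).mono (by push_cast; linarith)

theorem X_pow (i : σ) (k : ℕ) : Dg k (MvPolynomial.X i ^ k : MvPolynomial σ R) := by
  simpa using (Dg.X (R := R) i).pow k

theorem sum {ι : Type*} {a : ℤ} (s : Finset ι) {g : ι → MvPolynomial σ R}
    (hg : ∀ i ∈ s, Dg a (g i)) : Dg a (∑ i ∈ s, g i) :=
  of_coeff fun c hc => by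
    rw [coeff_sum]
    exact Finset.sum_eq_zero fun i hi => (hg i hi).coeff_eq_zero hc

theorem prod {ι : Type*} {a : ℤ} (s : Finset ι) {g : ι → MvPolynomial σ R}
    (hg : ∀ i ∈ s, Dg a (g i)) : Dg (s.card * a) (∏ i ∈ s, g i) := by
  classical
  induction s using Finset.induction_on with
  | empty => simpa using Dg.one
  | insert i s hi ih =>
    rw [Finset.prod_insert hi, Finset.card_insert_of_notMem hi]
    exact ((hg i (by simp)).mul (ih fun j hj => hg j (by simp [hj]))).mono (by push_cast; linarith)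

theorem prod_sub_prod {ι : Type*} {b δ : ℤ} (s : Finset ι) {g g' : ι → MvPolynomial σ R}
    (hg : ∀ i ∈ s, Dg b (g i)) (hg' : ∀ i ∈ s, Dg b (g' i))
    (hd : ∀ i ∈ s, Dg (b - δ) (g i - g' i)) :
    Dg (s.card * b - δ) (∏ i ∈ s, g i - ∏ i ∈ s, g' i) := by
  classical
  induction s using Finset.induction_on with
  | empty => simpa using Dg.zero _
  | insert i s hi ih =>
    rw [Finset.prod_insert hi, Finset.prod_insert hi, Finset.card_insert_of_notMem hi]
    have e : g i * ∏ j ∈ s, g j - g' i * ∏ j ∈ s, g' j =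
        (g i - g' i) * ∏ j ∈ s, g j + g' i * (∏ j ∈ s, g j - ∏ j ∈ s, g' j) := by ring
    rw [e]
    refine Dg.add (((hd i (by simp)).mul (Dg.prod s fun j hj => hg j (by simp [hj]))).mono ?_)
      (((hg' i (by simp)).mul (ih (fun j hj => hg j (by simp [hj]))
        (fun j hj => hg' j (by simp [hj])) (fun j hj => hd j (by simp [hj])))).mono ?_)
    · push_cast; linarith
    · push_cast; linarith

theorem pderiv {a : ℤ} {g : MvPolynomial σ R} (hg : Dg a g) (i : σ) :
    Dg (a - 1) (MvPolynomial.pderiv i g) :=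
  of_coeff fun c hc => by
    rw [coeff_pderiv, hg.coeff_eq_zero, zero_mul]
    rw [map_add, Finsupp.degree_single]
    push_cast
    omega

theorem map {S : Type*} [CommRing S] (φ : R →+* S) {a : ℤ} {g : MvPolynomial σ R} (hg : Dg a g) :
    Dg a (MvPolynomial.map φ g) :=
  of_coeff fun c hc => by rw [coeff_map, hg.coeff_eq_zero hc, map_zero]

theorem smul_int {a : ℤ} {g : MvPolynomial σ R} (hg : Dg a g) (z : ℤˣ) : Dg a (z • g) := by
  rcases Int.units_eq_one_or z with rfl | rfl
  · simpa using hg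
  · simpa using hg.neg

theorem det {ι : Type*} [Fintype ι] [DecidableEq ι] {a : ℤ} {M : Matrix ι ι (MvPolynomial σ R)}
    (hM : ∀ i j, Dg a (M i j)) : Dg (Fintype.card ι * a) M.det := by
  rw [Matrix.det_apply]
  exact Dg.sum _ fun π _ => (Dg.prod Finset.univ fun i _ => hM _ _).smul_int _

theorem det_sub_det {ι : Type*} [Fintype ι] [DecidableEq ι] {a δ : ℤ}
    {M M' : Matrix ι ι (MvPolynomial σ R)} (hM : ∀ i j, Dg a (M i j)) (hM' : ∀ i j, Dg a (M' i j))
    (hd : ∀ i j, Dg (a - δ) (M i j - M' i j)) :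
    Dg (Fintype.card ι * a - δ) (M.det - M'.det) := by
  rw [Matrix.det_apply, Matrix.det_apply, ← Finset.sum_sub_distrib]
  refine Dg.sum _ fun π _ => ?_
  rw [← smul_sub]
  exact (Dg.prod_sub_prod Finset.univ (fun i _ => hM _ _) (fun i _ => hM' _ _)
    (fun i _ => hd _ _)).smul_int _

end Dg

theorem dg_iff {m : ℕ} {g : MvPolynomial σ R} : Dg m g ↔ g.totalDegree ≤ m := by
  rw [totalDegree, Finset.sup_le_iff]
  constructor
  · intro h c hc
    have := h c hc
    rw [Finsupp.degree_apply] at this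
    exact_mod_cast this
  · intro h c hc
    have := h c hc
    rw [Finsupp.degree_apply]
    exact_mod_cast this

theorem dg_totalDegree (g : MvPolynomial σ R) : Dg g.totalDegree g := dg_iff.2 le_rfl

theorem Dg.totalDegree_le {m : ℕ} {g : MvPolynomial σ R} (h : Dg m g) : g.totalDegree ≤ m :=
  dg_iff.1 h

theorem dg_of_lt {e : ℕ} {g : MvPolynomial σ R} (h : g.totalDegree < e) : Dg ((e : ℤ) - 1) g :=
  (dg_totalDegree g).mono (by omega)

variable [Fintype σ]

@[simp] theorem cst_apply (m : ℕ) (i : σ) : cst σ m i = m := by simp [cst]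

theorem degree_cst (m : ℕ) : (cst σ m).degree = Fintype.card σ * m := by
  rw [Finsupp.degree_eq_sum]
  simp

theorem cst_add (a b : ℕ) : cst σ (a + b) = cst σ a + cst σ b := by
  ext i
  simp

theorem prod_X_pow_cst (m : ℕ) : ∏ i, (X i : MvPolynomial σ R) ^ m = monomial (cst σ m) 1 := by
  rw [monomial_eq, Finsupp.prod_fintype _ _ (by simp)]
  simp

end Vale.Agent.P337
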