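import Vale.Agent.P337.Deg
import Mathlib.Analysis.Calculus.LocalExtr.Basic
import Mathlib.Analysis.Calculus.Deriv.Mul
import Mathlib.Analysis.Calculus.Deriv.Add
import Mathlib.Topology.Algebra.MvPolynomial
import Mathlib.Topology.MetricSpace.Bounded
import Mathlib.Algebra.Order.Ring.Pow
import Mathlib.Tactic

/-!
Real analysis: the penalised function `hh e t P` has a global minimum, which is a root of the
critical point system; behaviour of the minimum as `t` grows.
-/

namespace Vale.Agent.P337

open MvPolynomial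

variable {σ : Type*} [Fintype σ] [DecidableEq σ]

omit [Fintype σ] in
theorem hasDerivAt_update (g : MvPolynomial σ ℝ) (x : σ → ℝ) (i : σ) :
    HasDerivAt (fun s => eval (Function.update x i s) g) (eval x (pderiv i g)) (x i) := by
  induction g using MvPolynomial.induction_on with
  | C a =>
    simp only [eval_C, pderiv_C, map_zero]
    exact hasDerivAt_const (x i) a
  | add p q hp hq =>
    simp only [map_add]
    exact hp.add hq
  | mul_X p j hp =>
    have h1 : HasDerivAt (fun s => Function.update x i s j) (eval x (pderiv i (X j))) (x i) := by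
      by_cases h : j = i
      · subst h
        simp only [Function.update_self, pderiv_X_self, map_one]
        exact hasDerivAt_id (x j)
      · simp only [Function.update_of_ne h, pderiv_X_of_ne h, map_zero]
        exact hasDerivAt_const (x i) (x j)
    have h2 := hp.mul h1
    simp only [Function.update_eq_self] at h2
    simp only [pderiv_mul, map_add, map_mul, eval_X]
    exact h2

theorem pderiv_hh {R : Type*} [CommRing R] (e : ℕ) (t : R) (P : MvPolynomial σ R) (i : σ) :
    pderiv i (hh e t P) = C ((e : R) + 1) * sys e (rr t P) i := by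
  have h1 : ∀ j : σ, pderiv i (X j ^ (e + 1) - C ((e : R) + 1) * X j + C (e : R) :
      MvPolynomial σ R) = if j = i then C ((e : R) + 1) * (X i ^ e - 1) else 0 := by
    intro j
    rw [map_add, map_sub, pderiv_C_mul, pderiv_C, pderiv_pow]
    split_ifs with h
    · subst h
      simp only [pderiv_X_self, add_tsub_cancel_right, map_add, map_one, map_natCast]
      push_cast
      ring
    · simp [pderiv_X_of_ne h]
  rw [hh, NN, map_add, map_sum, pderiv_C_mul]
  simp only [h1, Finset.sum_ite_eq', Finset.mem_univ, if_true, sys, rr, map_mul]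
  ring

theorem penalty_nonneg {e : ℕ} (he : Odd e) (x : ℝ) : 0 ≤ x ^ (e + 1) - ((e : ℝ) + 1) * x + e := by
  rcases le_total 0 x with h | h
  · have := one_add_mul_sub_le_pow (show -1 ≤ x by linarith) (e + 1)
    push_cast at this
    linarith
  · have h1 := he.add_one.pow_nonneg x
    have h2 : (0 : ℝ) ≤ e := Nat.cast_nonneg e
    nlinarith

theorem abs_le_of_penalty {e : ℕ} (he : Odd e) {x c : ℝ}
    (h : x ^ (e + 1) - ((e : ℝ) + 1) * x + e ≤ c) : |x| ≤ max ((e : ℝ) + 2) c := by
  by_contra hlt
  rw [not_le, max_lt_iff] at hlt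
  have h2 : (0 : ℝ) ≤ e := Nat.cast_nonneg e
  have h1 : |x| ^ 2 ≤ x ^ (e + 1) := by
    rw [← he.add_one.pow_abs]
    exact pow_le_pow_right₀ (by linarith) (by have := he.pos; omega)
  have h3 := le_abs_self x
  nlinarith [hlt.1, hlt.2]

omit [DecidableEq σ] in
theorem eval_NN (e : ℕ) (x : σ → ℝ) :
    eval x (NN σ ℝ e) = ∑ i, (x i ^ (e + 1) - ((e : ℝ) + 1) * x i + e) := by
  simp [NN]

omit [DecidableEq σ] in
theorem eval_hh (e : ℕ) (t : ℝ) (P : MvPolynomial σ ℝ) (x : σ → ℝ) :
    eval x (hh e t P) = eval x (NN σ ℝ e) + ((e : ℝ) + 1) * t * eval x P := by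
  simp [hh]

omit [DecidableEq σ] in
theorem NN_nonneg {e : ℕ} (he : Odd e) (x : σ → ℝ) : 0 ≤ eval x (NN σ ℝ e) := by
  rw [eval_NN]
  exact Finset.sum_nonneg fun i _ => penalty_nonneg he _

omit [DecidableEq σ] in
theorem norm_le_of_NN {e : ℕ} (he : Odd e) {x : σ → ℝ} {c : ℝ} (h : eval x (NN σ ℝ e) ≤ c) :
    ‖x‖ ≤ max ((e : ℝ) + 2) c := by
  rw [pi_norm_le_iff_of_nonneg (le_max_of_le_left (by positivity))]
  intro i
  refine abs_le_of_penalty he (le_trans ?_ h)
  rw [eval_NN]
  exact Finset.single_le_sum (f := fun i => x i ^ (e + 1) - ((e : ℝ) + 1) * x i + e)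
    (fun i _ => penalty_nonneg he _) (Finset.mem_univ i)

variable {e : ℕ} {P : MvPolynomial σ ℝ}

/-- The global minimum exists and is a root of the critical point system. -/
theorem exists_min (he : Odd e) (hP : ∀ x, 0 ≤ eval x P) {t : ℝ} (ht : 0 ≤ t) :
    ∃ x, (∀ i, eval x (sys e (rr t P) i) = 0) ∧ ∀ y, eval x (hh e t P) ≤ eval y (hh e t P) := by
  obtain ⟨x, hx⟩ := (continuous_eval (hh e t P)).exists_forall_le_of_isBounded 0 (by
    refine (Metric.isBounded_closedBall (x := (0 : σ → ℝ))
      (r := max ((e : ℝ) + 2) (eval 0 (hh e t P)))).subset fun y hy => ?_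
    rw [mem_closedBall_zero_iff]
    refine norm_le_of_NN he (le_trans ?_ hy)
    rw [eval_hh]
    have := hP y
    have : 0 ≤ ((e : ℝ) + 1) * t * eval y P := by positivity
    linarith)
  refine ⟨x, fun i => ?_, hx⟩
  have h1 : IsLocalMin (fun s => eval (Function.update x i s) (hh e t P)) (x i) :=
    Filter.Eventually.of_forall fun s => by simpa using hx _
  have h2 := h1.hasDerivAt_eq_zero (hasDerivAt_update _ x i)
  rw [pderiv_hh, map_mul, eval_C, mul_eq_zero] at h2
  exact h2.resolve_left (by positivity)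

/-- The real analytic part of step C. -/
theorem feasible_iff (he : Odd e) (hP : ∀ x, 0 ≤ eval x P) {R t₀ : ℝ} {b : ℝ → ℝ}
    (hb : MonotoneOn b (Set.Ici R)) (hR : 0 < R) (ht₀ : 0 < t₀) (hbt : b (2 * R) ≤ t₀)
    (hstar : ∀ t x, 0 < t → (∀ i, eval x (sys e (rr t P) i) = 0) → R ≤ eval x (hh e t P) →
      t < b (eval x (hh e t P))) :
    (∃ x, eval x P = 0) ↔
      ∃ x, (∀ i, eval x (sys e (rr t₀ P) i) = 0) ∧ eval x (hh e t₀ P) < R := by
  have he0 : (0 : ℝ) < (e : ℝ) + 1 := by positivity
  constructor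
  · rintro ⟨z, hz⟩
    obtain ⟨x, hx, hmin⟩ := exists_min he hP ht₀.le
    refine ⟨x, hx, lt_of_not_ge fun hge => ?_⟩
    set c := eval z (NN σ ℝ e)
    set t := max t₀ (b c)
    have htt : t₀ ≤ t := le_max_left _ _
    obtain ⟨y, hy, hymin⟩ := exists_min he hP (ht₀.le.trans htt)
    have h1 : R ≤ eval y (hh e t P) := by
      refine hge.trans ((hmin y).trans ?_)
      rw [eval_hh, eval_hh]
      have := mul_le_mul_of_nonneg_right (mul_le_mul_of_nonneg_left htt he0.le) (hP y)
      linarith
    have h2 : eval y (hh e t P) ≤ c := by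
      have := hymin z
      rwa [eval_hh e t P z, hz, mul_zero, add_zero] at this
    have h3 := hstar t y (ht₀.trans_le htt) hy h1
    have h4 := hb h1 (h1.trans h2) h2
    have h5 : b c ≤ t := le_max_right _ _
    linarith
  · rintro ⟨x, -, hx⟩
    by_contra hne
    push Not at hne
    have hex : ∃ k : ℕ, ∀ y, R ≤ eval y (hh e (2 ^ k * t₀) P) := by
      obtain ⟨z, -, hz⟩ := (isCompact_closedBall (0 : σ → ℝ) (max ((e : ℝ) + 2) R)).exists_isMinOn
        ⟨0, by simp; left; positivity⟩ (continuous_eval P).continuousOn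
      have hδ : 0 < eval z P := lt_of_le_of_ne (hP z) (hne z).symm
      obtain ⟨k, hk⟩ := pow_unbounded_of_one_lt (R / (t₀ * eval z P)) (one_lt_two (α := ℝ))
      rw [div_lt_iff₀ (by positivity)] at hk
      refine ⟨k, fun y => ?_⟩
      rw [eval_hh]
      have hPy := hP y
      have hNy := NN_nonneg (σ := σ) he y
      rcases le_total R (eval y (NN σ ℝ e)) with h | h
      · have : 0 ≤ ((e : ℝ) + 1) * (2 ^ k * t₀) * eval y P := by positivity
        linarith
      · have h1 : eval z P ≤ eval y P :=
          hz (mem_closedBall_zero_iff.2 (norm_le_of_NN he h))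
        have h2 : 2 ^ k * t₀ * eval z P ≤ 2 ^ k * t₀ * eval y P :=
          mul_le_mul_of_nonneg_left h1 (by positivity)
        have h3 : 0 ≤ (e : ℝ) * (2 ^ k * t₀ * eval y P) := by positivity
        nlinarith
    classical
    have hk := Nat.find_spec hex
    set k := Nat.find hex with hkdef
    have hk0 : k ≠ 0 := by
      intro h0
      have := hk x
      rw [h0, pow_zero, one_mul] at this
      linarith
    obtain ⟨j, hj⟩ := Nat.exists_eq_succ_of_ne_zero hk0
    have hj' := Nat.find_min hex (show j < Nat.find hex by omega)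
    push Not at hj'
    obtain ⟨y, hy⟩ := hj'
    have htpos : 0 < 2 ^ k * t₀ := by positivity
    obtain ⟨z, hz, hzmin⟩ := exists_min he hP htpos.le
    have h1 : eval z (hh e (2 ^ k * t₀) P) ≤ 2 * R := by
      refine (hzmin y).trans ?_
      rw [eval_hh] at hy ⊢
      rw [hj, pow_succ]
      have hNy := NN_nonneg (σ := σ) he y
      linarith
    have h2 := hstar _ z htpos hz (hk z)
    have h3 := hb (hk z) (show R ≤ 2 * R by linarith) h1
    have h4 : t₀ ≤ 2 ^ k * t₀ := le_mul_of_one_le_left ht₀.le (one_le_pow₀ one_le_two)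
    linarith

end Vale.Agent.P337
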