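import Vale.Agent.P337.Newton
import Vale.Agent.P337.MinC
import Vale.Agent.P337.Cauchy
import Mathlib.Analysis.Complex.Polynomial.Basic

/-!
Step C: for an explicit value `t₀` of the penalty parameter all roots of the critical point
system are simple, and `P` has a real zero iff some real root has `hh < R`.
-/

namespace Vale.Agent.P337

open MvPolynomial

variable {σ : Type*} [Fintype σ] [DecidableEq σ]

/-- The right hand sides, with the parameter `t` as an indeterminate. -/
noncomputable def rT (P : MvPolynomial σ ℤ) : σ → MvPolynomial σ (Polynomial ℤ) :=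
  rr Polynomial.X (map Polynomial.C P)

/-- The coefficients of the characteristic polynomial of `hh`, as polynomials in `t`. -/
noncomputable def epsT (e K : ℕ) (P : MvPolynomial σ ℤ) (k : ℕ) : Polynomial ℤ :=
  EE e K (rT P) (hh e Polynomial.X (map Polynomial.C P)) k

/-- The norm of the Jacobian, as a polynomial in `t`. -/
noncomputable def delT (e K : ℕ) (P : MvPolynomial σ ℤ) : Polynomial ℤ :=
  EE e K (rT P) (jac e (rT P)) (e ^ Fintype.card σ)

theorem esymm_card {K : Type*} [CommSemiring K] (s : Multiset K) : s.esymm s.card = s.prod := by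
  simp [Multiset.esymm, Multiset.powersetCard_self]

theorem esymm_zero' {K : Type*} [CommSemiring K] (s : Multiset K) : s.esymm 0 = 1 := by
  simp [Multiset.esymm]

theorem sum_esymm_eq_prod {K : Type*} [CommRing K] (s : Multiset K) (x : K) :
    ∑ k ∈ Finset.range (s.card + 1), (-1) ^ k * s.esymm k * x ^ (s.card - k) =
      (s.map fun a => x - a).prod := by
  have := congrArg (Polynomial.eval x) (Multiset.prod_X_sub_X_eq_sum_esymm s)
  rw [Polynomial.eval_multiset_prod, Multiset.map_map, Polynomial.eval_finsetSum] at this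
  simp only [Function.comp_def, Polynomial.eval_sub, Polynomial.eval_X, Polynomial.eval_C,
    Polynomial.eval_mul, Polynomial.eval_pow, Polynomial.eval_neg, Polynomial.eval_one] at this
  rw [this]
  exact Finset.sum_congr rfl fun k _ => mul_assoc _ _ _

section Degrees
variable {R : Type*} [CommRing R] {e : ℕ} {P : MvPolynomial σ R}

omit [Fintype σ] [DecidableEq σ] in
theorem dg_rr (he : 1 ≤ e) (hP : Dg e P) (t : R) (i : σ) : Dg ((e : ℤ) - 1) (rr t P i) :=
  (Dg.one.mono (by omega)).sub ((hP.pderiv i).C_mul t)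

omit [DecidableEq σ] in
theorem dg_NN (e : ℕ) : Dg ((e + 1 : ℕ) : ℤ) (NN σ R e) :=
  Dg.sum _ fun i _ => ((Dg.X_pow i (e + 1)).sub (((Dg.X i).C_mul _).mono (by omega))).add
    ((Dg.C _).mono (by omega))

omit [DecidableEq σ] in
theorem dg_hh (hP : Dg e P) (t : R) : Dg ((e + 1 : ℕ) : ℤ) (hh e t P) :=
  (dg_NN e).add ((hP.C_mul _).mono (by omega))

theorem totalDegree_jac_le {r : σ → MvPolynomial σ R} (hr : ∀ i, Dg ((e : ℤ) - 1) (r i)) :
    (jac e r).totalDegree ≤ Fintype.card σ * e := by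
  refine dg_iff.1 ((dg_jac hr).mono ?_)
  push_cast
  nlinarith [Int.natCast_nonneg (Fintype.card σ)]

end Degrees

theorem one_le_norm_sum (D : ℕ) (b : ℕ → ℤ) {M : ℝ} (h : ∃ k ≤ D, b k ≠ 0)
    (hb : ∀ k ≤ D, |(b k : ℝ)| ≤ M) {r : ℝ} (hr : M + 1 ≤ r) :
    1 ≤ ‖∑ k ∈ Finset.range (D + 1), (b k : ℝ) * r ^ (D - k)‖ := by
  have hM : 0 ≤ M := (abs_nonneg _).trans (hb 0 (Nat.zero_le D))
  set p : Polynomial ℤ := ∑ k ∈ Finset.range (D + 1), Polynomial.monomial (D - k) (b k) with hp
  have hc : ∀ i, p.coeff i = if i ≤ D then b (D - i) else 0 := by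
    intro i
    rw [hp, Polynomial.finsetSum_coeff]
    simp only [Polynomial.coeff_monomial]
    split_ifs with hi
    · rw [Finset.sum_eq_single (D - i), if_pos (by omega)]
      · intro k hk hne
        have := Finset.mem_range.1 hk
        exact if_neg (by omega)
      · intro hk
        exact absurd (Finset.mem_range.2 (by omega)) hk
    · exact Finset.sum_eq_zero fun k _ => if_neg (by omega)
  have hp0 : p ≠ 0 := by
    obtain ⟨k, hk, hk0⟩ := h
    intro h0
    have := hc (D - k)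
    rw [h0, if_pos (by omega), show D - (D - k) = k by omega] at this
    exact hk0 this.symm
  have := one_le_norm_aeval (K := ℝ) hp0 (M := M) (fun i => by
    rw [hc]
    split_ifs
    · exact hb _ (by omega)
    · simpa using hM) (r := r) (hr.trans (le_abs_self r))
  rw [hp, map_sum] at this
  simpa [Polynomial.aeval_monomial] using this

/-- The root bound for the bivariate characteristic polynomial. -/
theorem star_bound (D : ℕ) (ε : ℕ → Polynomial ℤ) {M : ℝ} (h0 : ε 0 ≠ 0)
    (hM : ∀ k ≤ D, ∀ j, |((ε k).coeff j : ℝ)| ≤ M) {r t : ℝ} (hr : M + 1 ≤ r)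
    (h : ∑ k ∈ Finset.range (D + 1), (-1) ^ k * Polynomial.aeval t (ε k) * r ^ (D - k) = 0) :
    t < M * (D + 1) * r ^ D + 1 := by
  have hM0 : 0 ≤ M := (abs_nonneg _).trans (hM 0 (Nat.zero_le D) 0)
  have hr1 : 1 ≤ r := by linarith
  obtain ⟨k₀, hk₀, hsup⟩ := Finset.exists_mem_eq_sup (Finset.range (D + 1)) ⟨0, by simp⟩
    fun k => (ε k).natDegree
  set J := (ε k₀).natDegree with hJ
  have hle : ∀ k ≤ D, (ε k).natDegree ≤ J := fun k hk => by
    rw [← hsup]
    exact Finset.le_sup (f := fun k => (ε k).natDegree) (Finset.mem_range.2 (by omega))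
  have habs : ∀ k j, |((((-1) ^ k * (ε k).coeff j : ℤ)) : ℝ)| = |((ε k).coeff j : ℝ)| := by
    intro k j
    push_cast
    rw [abs_mul, abs_pow, abs_neg, abs_one, one_pow, one_mul]
  by_contra hge
  rw [not_lt] at hge
  have key := cauchy_sum (K := ℝ) J
    (fun j => ∑ k ∈ Finset.range (D + 1), (((-1) ^ k * (ε k).coeff j : ℤ) : ℝ) * r ^ (D - k))
    (M := M * (D + 1) * r ^ D) t ?_ ?_ (hge.trans (le_abs_self t))
  · have : ∑ j ∈ Finset.range (J + 1), (∑ k ∈ Finset.range (D + 1),
        (((-1) ^ k * (ε k).coeff j : ℤ) : ℝ) * r ^ (D - k)) * t ^ j = 0 := by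
      rw [← h]
      simp only [Finset.sum_mul]
      rw [Finset.sum_comm]
      refine Finset.sum_congr rfl fun k hk => ?_
      rw [Polynomial.aeval_eq_sum_range' (Nat.lt_succ_of_le (hle k (by
        have := Finset.mem_range.1 hk; omega))), Finset.mul_sum, Finset.sum_mul]
      refine Finset.sum_congr rfl fun j _ => ?_
      push_cast
      rw [zsmul_eq_mul]
      ring
    rw [this, norm_zero] at key
    linarith
  · refine one_le_norm_sum D (fun k => (-1) ^ k * (ε k).coeff J) ?_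
      (fun k hk => by rw [habs]; exact hM k hk J) hr
    by_cases hz : ε k₀ = 0
    · refine ⟨0, Nat.zero_le D, ?_⟩
      have h1 : J = 0 := by rw [hJ, hz, Polynomial.natDegree_zero]
      have h2 : (ε 0).natDegree = J := le_antisymm (hle 0 (Nat.zero_le D)) (by omega)
      rw [← h2]
      simpa using h0
    · refine ⟨k₀, by have := Finset.mem_range.1 hk₀; omega, ?_⟩
      simpa [hJ] using hz
  · intro j _
    refine (norm_sum_le _ _).trans ?_
    have : ∀ k ∈ Finset.range (D + 1),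
        ‖(((-1) ^ k * (ε k).coeff j : ℤ) : ℝ) * r ^ (D - k)‖ ≤ M * r ^ D := by
      intro k hk
      rw [norm_mul, Real.norm_eq_abs, Real.norm_eq_abs, habs,
        abs_of_nonneg (show 0 ≤ r ^ (D - k) by positivity)]
      exact mul_le_mul (hM k (by have := Finset.mem_range.1 hk; omega) j)
        (pow_le_pow_right₀ hr1 (Nat.sub_le _ _)) (by positivity) hM0
    refine (Finset.sum_le_sum this).trans (le_of_eq ?_)
    simp
    ring

section Special
variable {F : Type*} [CommRing F] (t : F) (P : MvPolynomial σ ℤ)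

omit [Fintype σ] [DecidableEq σ] in
theorem map_specialize :
    map (Polynomial.aeval t : Polynomial ℤ →ₐ[ℤ] F).toRingHom (map Polynomial.C P) =
      map (Int.castRingHom F) P := by
  rw [map_map]
  congr 1
  exact congrArg _ (RingHom.ext_int _ _)

omit [Fintype σ] [DecidableEq σ] in
theorem map_rT : (fun j => map (Polynomial.aeval t : Polynomial ℤ →ₐ[ℤ] F).toRingHom (rT P j)) =
    rr t (map (Int.castRingHom F) P) := by
  funext j
  rw [rT, map_rr, map_specialize]
  simp

theorem aeval_epsT (e K k : ℕ) : Polynomial.aeval t (epsT e K P k) =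
    EE e K (rr t (map (Int.castRingHom F) P)) (hh e t (map (Int.castRingHom F) P)) k := by
  have := map_EE (Polynomial.aeval t : Polynomial ℤ →ₐ[ℤ] F).toRingHom e K (rT P)
    (hh e Polynomial.X (map Polynomial.C P)) k
  rw [map_rT, map_hh, map_specialize] at this
  simpa [epsT] using this

theorem aeval_delT (e K : ℕ) : Polynomial.aeval t (delT e K P) =
    EE e K (rr t (map (Int.castRingHom F) P)) (jac e (rr t (map (Int.castRingHom F) P)))
      (e ^ Fintype.card σ) := by
  have := map_EE (Polynomial.aeval t : Polynomial ℤ →ₐ[ℤ] F).toRingHom e K (rT P)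
    (jac e (rT P)) (e ^ Fintype.card σ)
  rw [map_jac, map_rT] at this
  simpa [delT] using this

end Special

variable {e K : ℕ} {P : MvPolynomial σ ℤ}

theorem aeval_delT_ne_zero_iff (he : 1 ≤ e) (hP : P.totalDegree ≤ e)
    (hK : e ^ Fintype.card σ * (Fintype.card σ * e) ≤ K) (t : ℂ) :
    Polynomial.aeval t (delT e K P) ≠ 0 ↔ ∀ η : σ → ℂ,
      (∀ i, eval η (sys e (rr t (map (Int.castRingHom ℂ) P)) i) = 0) →
        eval η (jac e (rr t (map (Int.castRingHom ℂ) P))) ≠ 0 := by
  have hr := dg_rr he ((dg_iff.2 hP).map (Int.castRingHom ℂ)) t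
  obtain ⟨Z, h1, h2, h3, -⟩ := exists_roots_EE he hr
  rw [aeval_delT, h3 K _ ((Nat.mul_le_mul_left _ (totalDegree_jac_le hr)).trans hK) _ le_rfl,
    ← h2, ← Multiset.card_map (fun η => eval η (jac e (rr t (map (Int.castRingHom ℂ) P)))),
    esymm_card, mul_ne_zero_iff, Ne, Ne, Multiset.prod_eq_zero_iff, Multiset.mem_map]
  have hQ : ((QQ (Multiset.card (Z.map fun η =>
      eval η (jac e (rr t (map (Int.castRingHom ℂ) P))))) : ℕ) : ℂ) ≠ 0 := by
    exact_mod_cast (QQ_pos _).ne'
  constructor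
  · rintro ⟨-, h⟩ η hη h0
    exact h ⟨η, (h1 η).2 hη, h0⟩
  · intro h
    exact ⟨hQ, fun ⟨η, hη, h0⟩ => h η ((h1 η).1 hη) h0⟩

theorem delT_ne_zero (he : 1 ≤ e) (hP : P.totalDegree ≤ e)
    (hK : e ^ Fintype.card σ * (Fintype.card σ * e) ≤ K) : delT e K P ≠ 0 := by
  intro h0
  refine (aeval_delT_ne_zero_iff he hP hK 0).2 (fun η hη => ?_) (by rw [h0, map_zero])
  have h1 : (Matrix.of fun i j => pderiv j (sys e (rr (0 : ℂ) (map (Int.castRingHom ℂ) P)) i)) =
      Matrix.diagonal fun i => (e : MvPolynomial σ ℂ) * X i ^ (e - 1) := by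
    ext i j : 2
    rw [Matrix.of_apply, Matrix.diagonal_apply, sys, rr, map_sub, pderiv_pow]
    by_cases h : i = j
    · subst h
      simp
    · simp [h, pderiv_X_of_ne h]
  rw [jac, h1, Matrix.det_diagonal, map_prod, Finset.prod_ne_zero_iff]
  intro i _
  have h2 := hη i
  simp only [sys, rr, map_zero, zero_mul, sub_zero, map_sub, map_pow, eval_X, map_one] at h2
  have h3 : η i ≠ 0 := by
    intro h
    rw [h, zero_pow (by omega)] at h2
    simp at h2
  simp only [map_mul, map_natCast, map_pow, eval_X]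
  exact mul_ne_zero (by exact_mod_cast (show e ≠ 0 by omega)) (pow_ne_zero _ h3)

/-- All roots are simple for large `t₀`. -/
theorem jac_ne_zero (he : 1 ≤ e) (hP : P.totalDegree ≤ e)
    (hK : e ^ Fintype.card σ * (Fintype.card σ * e) ≤ K) {M : ℝ}
    (hM : ∀ j, |((delT e K P).coeff j : ℝ)| ≤ M) {t₀ : ℕ} (ht : M + 1 ≤ t₀) (η : σ → ℂ)
    (hη : ∀ i, eval η (sys e (rr (t₀ : ℂ) (map (Int.castRingHom ℂ) P)) i) = 0) :
    eval η (jac e (rr (t₀ : ℂ) (map (Int.castRingHom ℂ) P))) ≠ 0 :=
  (aeval_delT_ne_zero_iff he hP hK t₀).1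
    (aeval_ne_zero_of_le (delT_ne_zero he hP hK) hM (by simpa using ht)) η hη

omit [Fintype σ] [DecidableEq σ] in
theorem eval_ofReal (x : σ → ℝ) (g : MvPolynomial σ ℝ) :
    eval (fun i => (x i : ℂ)) (map Complex.ofRealHom g) = ((eval x g : ℝ) : ℂ) := by
  induction g using MvPolynomial.induction_on with
  | C a => simp
  | add p q hp hq => simp [hp, hq]
  | mul_X p j hp => simp [hp]

omit [Fintype σ] [DecidableEq σ] in
theorem map_ofReal_map (P : MvPolynomial σ ℤ) :
    map Complex.ofRealHom (map (Int.castRingHom ℝ) P) = map (Int.castRingHom ℂ) P := by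
  rw [map_map]
  congr 1

theorem epsT_zero_ne_zero (he : 1 ≤ e) (hP : P.totalDegree ≤ e)
    (hK : e ^ Fintype.card σ * (e + 1) ≤ K) : epsT e K P 0 ≠ 0 := by
  have hP' := (dg_iff.2 hP).map (Int.castRingHom ℂ)
  obtain ⟨Z, -, -, h3, -⟩ := exists_roots_EE he (dg_rr he hP' (0 : ℂ))
  intro h0
  have := aeval_epsT (0 : ℂ) P e K 0
  rw [h0, map_zero, h3 K _ ((Nat.mul_le_mul_left _ (dg_iff.1 (dg_hh hP' 0))).trans hK) _
    (Nat.zero_le _), esymm_zero', mul_one] at this
  exact (QQ_pos _).ne' (by exact_mod_cast this.symm)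

theorem charpoly_root (he : 1 ≤ e) (hP : P.totalDegree ≤ e)
    (hK : e ^ Fintype.card σ * (e + 1) ≤ K) (t : ℝ) (x : σ → ℝ)
    (hx : ∀ i, eval x (sys e (rr t (map (Int.castRingHom ℝ) P)) i) = 0) :
    ∑ k ∈ Finset.range (e ^ Fintype.card σ + 1), (-1) ^ k * Polynomial.aeval t (epsT e K P k) *
      eval x (hh e t (map (Int.castRingHom ℝ) P)) ^ (e ^ Fintype.card σ - k) = 0 := by
  have hP' := (dg_iff.2 hP).map (Int.castRingHom ℂ)
  obtain ⟨Z, h1, h2, h3, -⟩ := exists_roots_EE he (dg_rr he hP' (t : ℂ))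
  have hmem : (fun i => (x i : ℂ)) ∈ Z := by
    refine (h1 _).2 fun i => ?_
    have := eval_ofReal x (sys e (rr t (map (Int.castRingHom ℝ) P)) i)
    rw [hx i, map_sys] at this
    simpa [map_rr, map_ofReal_map] using this
  have hval : eval (fun i => (x i : ℂ)) (hh e (t : ℂ) (map (Int.castRingHom ℂ) P)) =
      ((eval x (hh e t (map (Int.castRingHom ℝ) P)) : ℝ) : ℂ) := by
    rw [← eval_ofReal, map_hh, map_ofReal_map]
    rfl
  apply Complex.ofReal_injective
  have h4 := sum_esymm_eq_prod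
    (Z.map fun η => eval η (hh e (t : ℂ) (map (Int.castRingHom ℂ) P)))
    ((eval x (hh e t (map (Int.castRingHom ℝ) P)) : ℝ) : ℂ)
  rw [Multiset.prod_eq_zero (Multiset.mem_map.2 ⟨_, Multiset.mem_map_of_mem _ hmem, by
    rw [hval, sub_self]⟩), Multiset.card_map, h2] at h4
  push_cast
  rw [← mul_zero ((QQ (e ^ Fintype.card σ) : ℕ) : ℂ), ← h4, Finset.mul_sum]
  refine Finset.sum_congr rfl fun k hk => ?_
  have h5 : ((Polynomial.aeval t (epsT e K P k) : ℝ) : ℂ) =
      Polynomial.aeval (t : ℂ) (epsT e K P k) :=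
    (Polynomial.aeval_algHom_apply (Complex.ofRealHom.toIntAlgHom) t _).symm
  rw [h5, aeval_epsT, h3 K _ ((Nat.mul_le_mul_left _ (dg_iff.1 (dg_hh hP' _))).trans hK) k
    (by have := Finset.mem_range.1 hk; omega)]
  ring

/-- Step C. -/
theorem stepC (he : Odd e) (hP : P.totalDegree ≤ e)
    (hP0 : ∀ x : σ → ℝ, 0 ≤ eval x (map (Int.castRingHom ℝ) P))
    (hK : e ^ Fintype.card σ * (e + 1) ≤ K) {M R t₀ : ℝ}
    (hM : ∀ k ≤ e ^ Fintype.card σ, ∀ j, |((epsT e K P k).coeff j : ℝ)| ≤ M) (hR : M + 1 ≤ R)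
    (ht : M * ((e ^ Fintype.card σ : ℕ) + 1) * (2 * R) ^ (e ^ Fintype.card σ) + 1 ≤ t₀) :
    (∃ x : σ → ℝ, eval x (map (Int.castRingHom ℝ) P) = 0) ↔
      ∃ x : σ → ℝ, (∀ i, eval x (sys e (rr t₀ (map (Int.castRingHom ℝ) P)) i) = 0) ∧
        eval x (hh e t₀ (map (Int.castRingHom ℝ) P)) < R := by
  have hM0 : 0 ≤ M := (abs_nonneg _).trans (hM 0 (Nat.zero_le _) 0)
  have hR0 : 0 < R := by linarith
  refine feasible_iff he hP0
    (b := fun r => M * ((e ^ Fintype.card σ : ℕ) + 1) * r ^ (e ^ Fintype.card σ) + 1) ?_ hR0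
    (lt_of_lt_of_le (by positivity) ht) ht fun t x _ hx hge => ?_
  · intro r hr s _ hrs
    have hr0 : 0 ≤ r := hR0.le.trans hr
    dsimp only
    gcongr
  · exact star_bound _ _ (epsT_zero_ne_zero he.pos hP hK) hM (hR.trans hge)
      (charpoly_root he.pos hP hK t x hx)

end Vale.Agent.P337
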