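import Vale.Agent.P337.Deg
import Mathlib.Algebra.Ring.GeomSum
import Mathlib.LinearAlgebra.Matrix.Adjugate
import Mathlib.RingTheory.Ideal.Span
import Mathlib.RingTheory.Ideal.Maps

/-!
The residue functional of the system `x_i ^ e = r_i`, and the Bezoutian of a root.
-/

namespace Vale.Agent.P337

open MvPolynomial

variable {σ : Type*} [Fintype σ] [DecidableEq σ] {R : Type*} [CommRing R]

/-! ### Naturality -/

section Nat
variable {S : Type*} [CommRing S] (φ : R →+* S)

omit [Fintype σ] [DecidableEq σ] in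
theorem map_sys (e : ℕ) (r : σ → MvPolynomial σ R) (i : σ) :
    map φ (sys e r i) = sys e (fun j => map φ (r j)) i := by simp [sys]

omit [Fintype σ] [DecidableEq σ] in
theorem map_geo (e K : ℕ) (r : σ → MvPolynomial σ R) (i : σ) :
    map φ (geo e K r i) = geo e K (fun j => map φ (r j)) i := by simp [geo]

omit [DecidableEq σ] in
theorem map_lamK (e K : ℕ) (r : σ → MvPolynomial σ R) (g : MvPolynomial σ R) :
    φ (lamK e K r g) = lamK e K (fun j => map φ (r j)) (map φ g) := by
  simp only [lamK]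
  rw [← coeff_map, map_mul, map_prod]
  simp only [map_geo]

theorem map_jac (e : ℕ) (r : σ → MvPolynomial σ R) :
    map φ (jac e r) = jac e (fun j => map φ (r j)) := by
  simp only [jac]
  rw [RingHom.map_det]
  congr 1
  ext i j : 2
  simp only [RingHom.mapMatrix_apply, Matrix.map_apply, Matrix.of_apply]
  rw [← map_sys, pderiv_map]

theorem map_tauK (e K : ℕ) (r : σ → MvPolynomial σ R) (g : MvPolynomial σ R) :
    φ (tauK e K r g) = tauK e K (fun j => map φ (r j)) (map φ g) := by
  simp only [tauK]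
  rw [map_lamK, map_mul, map_jac]

theorem map_newtonL (D : ℕ) (p : ℕ → R) :
    (newtonL D p).map φ = newtonL D (fun k => φ (p k)) := by
  simp only [newtonL, Polynomial.map_sum, Polynomial.map_mul, Polynomial.map_C,
    Polynomial.map_pow, Polynomial.map_X]
  refine Finset.sum_congr rfl fun k _ => ?_
  rw [map_mul φ, map_mul φ, map_pow φ, map_neg φ, map_one φ, map_natCast φ]

theorem map_newtonE (D : ℕ) (p : ℕ → R) :
    (newtonE D p).map φ = newtonE D (fun k => φ (p k)) := by
  simp only [newtonE, Polynomial.map_sum, Polynomial.map_mul,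
    Polynomial.map_pow, map_newtonL, map_natCast, Polynomial.map_natCast]

theorem map_EE (e K : ℕ) (r : σ → MvPolynomial σ R) (g : MvPolynomial σ R) (k : ℕ) :
    φ (EE e K r g k) = EE e K (fun j => map φ (r j)) (map φ g) k := by
  simp only [EE]
  rw [← Polynomial.coeff_map, map_newtonE]
  simp only [map_tauK, map_pow]

omit [Fintype σ] [DecidableEq σ] in
theorem map_rr (t : R) (P : MvPolynomial σ R) (i : σ) :
    map φ (rr t P i) = rr (φ t) (map φ P) i := by simp [rr, pderiv_map]

omit [DecidableEq σ] in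
theorem map_NN (e : ℕ) : map φ (NN σ R e) = NN σ S e := by simp [NN]

omit [DecidableEq σ] in
theorem map_hh (e : ℕ) (t : R) (P : MvPolynomial σ R) :
    map φ (hh e t P) = hh e (φ t) (map φ P) := by simp [hh, map_NN]

theorem map_vv (e K : ℕ) (r : σ → MvPolynomial σ R) (g : MvPolynomial σ R) (k : ℕ) :
    map φ (vv e K r g k) = vv e K (fun j => map φ (r j)) (map φ g) k := by
  simp only [vv]
  rw [map_sum]
  refine Finset.sum_congr rfl fun j _ => ?_
  rw [map_mul, map_C, map_pow, map_mul φ, map_mul φ, map_pow φ, map_neg φ, map_one φ,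
    map_natCast φ, map_EE]

theorem map_WW (B : ℕ) (u : R) : φ (WW B u) = WW B (φ u) := by simp [WW, map_ofNat]

theorem map_GG (B m : ℕ) (u : ℕ → R) : φ (GG B m u) = GG B m (fun l => φ (u l)) := by
  simp only [GG, map_sub, map_sum, map_prod, map_pow, map_WW, apply_ite φ, map_neg]

end Nat

/-! ### Degrees -/

variable {e : ℕ} {r : σ → MvPolynomial σ R}

omit [Fintype σ] [DecidableEq σ] in
theorem dg_sys (hr : ∀ i, Dg ((e : ℤ) - 1) (r i)) (i : σ) : Dg e (sys e r i) :=
  (Dg.X_pow i e).sub ((hr i).mono (by omega))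

omit [Fintype σ] [DecidableEq σ] in
theorem dg_geo (hr : ∀ i, Dg ((e : ℤ) - 1) (r i)) (K : ℕ) (i : σ) :
    Dg ((e : ℤ) * K) (geo e K r i) := by
  refine Dg.sum _ fun k hk => ?_
  have hk' : k ≤ K := Nat.lt_succ_iff.1 (Finset.mem_range.1 hk)
  refine (((hr i).pow k).mul ((Dg.X_pow i e).pow (K - k))).mono ?_
  rw [Nat.cast_sub hk']
  nlinarith [Int.natCast_nonneg k]

omit [Fintype σ] [DecidableEq σ] in
theorem geo_succ (K : ℕ) (i : σ) :
    geo e (K + 1) r i = X i ^ e * geo e K r i + r i ^ (K + 1) := by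
  simp only [geo]
  rw [Finset.sum_range_succ, Finset.mul_sum]
  congr 1
  · refine Finset.sum_congr rfl fun k hk => ?_
    have hk' : k ≤ K := Nat.lt_succ_iff.1 (Finset.mem_range.1 hk)
    rw [show K + 1 - k = (K - k) + 1 by omega, pow_succ]
    ring
  · simp

omit [Fintype σ] [DecidableEq σ] in
theorem sys_mul_geo (K : ℕ) (i : σ) :
    sys e r i * geo e K r i = (X i ^ e) ^ (K + 1) - r i ^ (K + 1) := by
  induction K with
  | zero => simp [geo, sys]
  | succ K ih =>
    rw [geo_succ, mul_add, mul_left_comm, ih, sys]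
    ring

theorem dg_jac (hr : ∀ i, Dg ((e : ℤ) - 1) (r i)) :
    Dg (Fintype.card σ * ((e : ℤ) - 1)) (jac e r) :=
  Dg.det fun i j => (dg_sys hr i).pderiv j

/-! ### Independence of the truncation order -/

omit [DecidableEq σ] in
theorem lamK_succ (he : 1 ≤ e) (hr : ∀ i, Dg ((e : ℤ) - 1) (r i)) {K : ℕ} {g : MvPolynomial σ R}
    (hg : Dg (K + Fintype.card σ * ((e : ℤ) - 1)) g) : lamK e (K + 1) r g = lamK e K r g := by
  have h1 : Dg (Fintype.card σ * ((e : ℤ) * (K + 1 : ℕ)) - (K + 1))
      (∏ i, geo e (K + 1) r i - ∏ i, (X i ^ e * geo e K r i)) := by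
    refine Dg.prod_sub_prod Finset.univ (fun i _ => dg_geo hr _ i) (fun i _ => ?_)
      (fun i _ => ?_)
    · exact ((Dg.X_pow i e).mul (dg_geo hr K i)).mono (by push_cast; linarith)
    · rw [geo_succ, add_sub_cancel_left]
      exact ((hr i).pow (K + 1)).mono (by push_cast; linarith)
  have h2 := (hg.mul h1).coeff_eq_zero (c := cst σ (e * (K + 1) + (e - 1))) (by
    rw [degree_cst]
    push_cast [Nat.cast_sub he]
    linarith)
  rw [mul_sub, coeff_sub, sub_eq_zero] at h2
  rw [lamK, h2, Finset.prod_mul_distrib, prod_X_pow_cst, mul_left_comm,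
    show e * (K + 1) + (e - 1) = e + (e * K + (e - 1)) by ring, cst_add, coeff_monomial_mul,
    one_mul, lamK]

omit [DecidableEq σ] in
theorem lamK_add_eq (he : 1 ≤ e) (hr : ∀ i, Dg ((e : ℤ) - 1) (r i)) {K : ℕ}
    {g : MvPolynomial σ R} (hg : Dg (K + Fintype.card σ * ((e : ℤ) - 1)) g) (k : ℕ) :
    lamK e (K + k) r g = lamK e K r g := by
  induction k with
  | zero => rfl
  | succ k ih =>
    rw [← add_assoc, lamK_succ he hr (hg.mono (by push_cast; omega)), ih]

omit [DecidableEq σ] in
theorem lamK_eq_lamK (he : 1 ≤ e) (hr : ∀ i, Dg ((e : ℤ) - 1) (r i)) {K K' : ℕ}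
    {g : MvPolynomial σ R} (hg : Dg (K + Fintype.card σ * ((e : ℤ) - 1)) g)
    (hg' : Dg (K' + Fintype.card σ * ((e : ℤ) - 1)) g) : lamK e K r g = lamK e K' r g := by
  rcases le_total K K' with h | h
  · obtain ⟨k, rfl⟩ := Nat.exists_eq_add_of_le h
    exact (lamK_add_eq he hr hg k).symm
  · obtain ⟨k, rfl⟩ := Nat.exists_eq_add_of_le h
    exact lamK_add_eq he hr hg' k

omit [DecidableEq σ] in
theorem dg_aux (he : 1 ≤ e) {g : MvPolynomial σ R} {K : ℕ} (h : g.totalDegree ≤ K) :
    Dg (K + Fintype.card σ * ((e : ℤ) - 1)) g := by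
  refine (dg_iff.2 h).mono ?_
  have : (0 : ℤ) ≤ Fintype.card σ * ((e : ℤ) - 1) :=
    mul_nonneg (Int.natCast_nonneg _) (by omega)
  omega

/-- The residue functional. -/
noncomputable def lam (he : 1 ≤ e) (hr : ∀ i, Dg ((e : ℤ) - 1) (r i)) :
    MvPolynomial σ R →ₗ[R] R where
  toFun g := lamK e g.totalDegree r g
  map_add' g h := by
    set K := max g.totalDegree h.totalDegree
    rw [lamK_eq_lamK he hr (dg_aux he le_rfl) (dg_aux he (totalDegree_add g h)),
      lamK_eq_lamK he hr (g := g) (dg_aux he le_rfl) (dg_aux he (le_max_left _ h.totalDegree)),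
      lamK_eq_lamK he hr (g := h) (dg_aux he le_rfl) (dg_aux he (le_max_right g.totalDegree _))]
    simp only [lamK, add_mul, coeff_add]
  map_smul' c g := by
    rw [lamK_eq_lamK he hr (dg_aux he le_rfl) (dg_aux he (totalDegree_smul_le c g))]
    simp only [lamK, smul_mul_assoc, coeff_smul, RingHom.id_apply]

omit [DecidableEq σ] in
theorem lam_eq (he : 1 ≤ e) (hr : ∀ i, Dg ((e : ℤ) - 1) (r i)) {K : ℕ} {g : MvPolynomial σ R}
    (hg : Dg (K + Fintype.card σ * ((e : ℤ) - 1)) g) : lam he hr g = lamK e K r g :=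
  lamK_eq_lamK he hr (dg_aux he le_rfl) hg

omit [DecidableEq σ] in
theorem lam_low (he : 1 ≤ e) (hr : ∀ i, Dg ((e : ℤ) - 1) (r i)) {g : MvPolynomial σ R}
    (hg : Dg (Fintype.card σ * ((e : ℤ) - 1)) g) : lam he hr g = coeff (cst σ (e - 1)) g := by
  rw [lam_eq he hr (K := 0) (by simpa using hg)]
  simp [lamK, geo]

theorem lam_mul_sys (he : 1 ≤ e) (hr : ∀ i, Dg ((e : ℤ) - 1) (r i)) (g : MvPolynomial σ R)
    (i : σ) : lam he hr (g * sys e r i) = 0 := by
  set K := g.totalDegree + e with hK
  have hn : 1 ≤ Fintype.card σ := Fintype.card_pos_iff.2 ⟨i⟩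
  have h0 : (0 : ℤ) ≤ Fintype.card σ * ((e : ℤ) - 1) :=
    mul_nonneg (Int.natCast_nonneg _) (by omega)
  rw [lam_eq he hr (K := K) (((dg_totalDegree g).mul (dg_sys hr i)).mono (by
    rw [hK]; push_cast; omega)), lamK, ← Finset.mul_prod_erase _ _ (Finset.mem_univ i)]
  have e1 : g * sys e r i * (geo e K r i * ∏ j ∈ Finset.univ.erase i, geo e K r j) =
      X i ^ (e * (K + 1)) * (g * ∏ j ∈ Finset.univ.erase i, geo e K r j) -
        g * r i ^ (K + 1) * ∏ j ∈ Finset.univ.erase i, geo e K r j := by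
    rw [mul_assoc g, ← mul_assoc (sys e r i), sys_mul_geo, pow_mul]
    ring
  rw [e1, coeff_sub, X_pow_eq_monomial, coeff_monomial_mul', if_neg, zero_sub, neg_eq_zero]
  · refine (((dg_totalDegree g).mul ((hr i).pow (K + 1))).mul
      (Dg.prod _ fun j _ => dg_geo hr K j)).coeff_eq_zero ?_
    rw [degree_cst, Finset.card_erase_of_mem (Finset.mem_univ i), Finset.card_univ, hK]
    push_cast [Nat.cast_sub he, Nat.cast_sub hn]
    nlinarith
  · intro h
    have := h i
    simp only [Finsupp.single_eq_same, cst_apply] at this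
    have e2 : e * (K + 1) = e * K + e := by ring
    omega

theorem lam_of_mem (he : 1 ≤ e) (hr : ∀ i, Dg ((e : ℤ) - 1) (r i)) {g : MvPolynomial σ R}
    (hg : g ∈ Ideal.span (Set.range (sys e r))) : lam he hr g = 0 := by
  obtain ⟨c, rfl⟩ := Ideal.mem_span_range_iff_exists_fun.1 hg
  rw [map_sum]
  exact Finset.sum_eq_zero fun i _ => lam_mul_sys he hr _ i

omit [DecidableEq σ] in
theorem map_lam {S : Type*} [CommRing S] (φ : R →+* S) (he : 1 ≤ e)
    (hr : ∀ i, Dg ((e : ℤ) - 1) (r i)) (g : MvPolynomial σ R) :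
    φ (lam he hr g) = lam (r := fun j => map φ (r j)) he (fun i => (hr i).map φ) (map φ g) := by
  rw [lam_eq he hr (dg_aux he le_rfl),
    lam_eq he (fun i => (hr i).map φ) ((dg_aux he (le_refl g.totalDegree)).map φ), map_lamK]

theorem tauK_eq (he : 1 ≤ e) (hr : ∀ i, Dg ((e : ℤ) - 1) (r i)) {K : ℕ} {g : MvPolynomial σ R}
    (hg : g.totalDegree ≤ K) : tauK e K r g = lam he hr (g * jac e r) :=
  (lam_eq he hr ((dg_iff.2 hg).mul (dg_jac hr))).symm

/-! ### Determinants with a dominant diagonal -/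

theorem lam_det (he : 1 ≤ e) (hr : ∀ i, Dg ((e : ℤ) - 1) (r i)) (c : R)
    {M : Matrix σ σ (MvPolynomial σ R)}
    (hM : ∀ i j, Dg ((e : ℤ) - 1 - 1)
      (M i j - Matrix.diagonal (fun i => C c * X i ^ (e - 1)) i j)) :
    lam he hr M.det = c ^ Fintype.card σ := by
  have hD : ∀ i j, Dg ((e : ℤ) - 1)
      (Matrix.diagonal (fun i => (C c * X i ^ (e - 1) : MvPolynomial σ R)) i j) := by
    intro i j
    rw [Matrix.diagonal_apply]
    split_ifs
    · exact ((Dg.X_pow i (e - 1)).C_mul c).mono (by omega)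
    · exact Dg.zero _
  have hM' : ∀ i j, Dg ((e : ℤ) - 1) (M i j) := by
    intro i j
    have := ((hM i j).mono (show (e : ℤ) - 1 - 1 ≤ e - 1 by omega)).add (hD i j)
    rwa [sub_add_cancel] at this
  rw [lam_low he hr (Dg.det hM')]
  have h2 := (Dg.det_sub_det hM' hD hM).coeff_eq_zero (c := cst σ (e - 1)) (by
    rw [degree_cst]
    push_cast [Nat.cast_sub he]
    linarith)
  rw [coeff_sub, sub_eq_zero] at h2
  rw [h2, Matrix.det_diagonal, Finset.prod_mul_distrib, prod_X_pow_cst, Finset.prod_const,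
    ← map_pow, coeff_C_mul, coeff_monomial, if_pos rfl, mul_one, Finset.card_univ]

theorem lam_jac (he : 1 ≤ e) (hr : ∀ i, Dg ((e : ℤ) - 1) (r i)) :
    lam he hr (jac e r) = (e : R) ^ Fintype.card σ := by
  refine lam_det he hr (e : R) fun i j => ?_
  have : (Matrix.of fun i j => pderiv j (sys e r i)) i j -
      Matrix.diagonal (fun i => (C (e : R) * X i ^ (e - 1) : MvPolynomial σ R)) i j =
      - pderiv j (r i) := by
    rw [Matrix.of_apply, Matrix.diagonal_apply, sys, map_sub, pderiv_pow]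
    by_cases h : i = j
    · subst h
      simp
    · simp [h, pderiv_X_of_ne h]
  rw [this]
  exact ((hr i).pderiv j).neg

/-! ### The Bezoutian of a root -/

omit [DecidableEq σ] in
theorem exists_divided (η : σ → R) {a : ℤ} {g : MvPolynomial σ R} (hg : Dg a g) :
    ∃ q : σ → MvPolynomial σ R, (∀ j, Dg (a - 1) (q j)) ∧
      g - C (eval η g) = ∑ j, q j * (X j - C (η j)) := by
  classical
  have key : ∀ (m : ℕ) (c : σ →₀ ℕ), c.degree = m → ∃ q : σ → MvPolynomial σ R,
      (∀ j, Dg ((m : ℤ) - 1) (q j)) ∧ monomial c (1 : R) - C (eval η (monomial c 1)) =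
        ∑ j, q j * (X j - C (η j)) := by
    intro m
    induction m with
    | zero =>
      intro c hc
      rw [Finsupp.degree_eq_zero_iff] at hc
      subst hc
      exact ⟨fun _ => 0, fun _ => Dg.zero _, by simp⟩
    | succ m ih =>
      intro c hc
      have hc0 : c ≠ 0 := by
        rintro rfl
        simp at hc
      obtain ⟨i, hi⟩ := Finsupp.ne_iff.1 hc0
      have hi' : c i ≠ 0 := by simpa using hi
      set d := c - Finsupp.single i 1 with hd
      have hcd : c = d + Finsupp.single i 1 := by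
        rw [hd, Finsupp.sub_add_single_one_cancel hi']
      have hdm : d.degree = m := by
        rw [hcd, map_add, Finsupp.degree_single] at hc
        omega
      obtain ⟨q, hq, hq'⟩ := ih d hdm
      have hmon : monomial c (1 : R) = monomial d 1 * X i := by
        rw [hcd, X, monomial_mul, mul_one]
      refine ⟨fun j => C (η i) * q j + if j = i then monomial d 1 else 0, fun j => ?_, ?_⟩
      · refine Dg.add (((hq j).C_mul _).mono (by push_cast; omega)) ?_
        split_ifs
        · exact (Dg.monomial d 1).mono (by rw [hdm]; push_cast; omega)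
        · exact Dg.zero _
      · simp only [add_mul, Finset.sum_add_distrib, mul_assoc, ← Finset.mul_sum, ← hq', ite_mul,
          zero_mul, Finset.sum_ite_eq', Finset.mem_univ, if_true]
        rw [hmon, map_mul, eval_X, map_mul]
        ring
  choose q hq hq' using fun c : σ →₀ ℕ => key c.degree c rfl
  refine ⟨fun j => ∑ c ∈ g.support, C (coeff c g) * q c j, fun j => ?_, ?_⟩
  · exact Dg.sum _ fun c hc => ((hq c j).C_mul _).mono (by have := hg c hc; omega)
  · simp only [Finset.sum_mul]
    rw [Finset.sum_comm]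
    simp only [mul_assoc, ← Finset.mul_sum, ← hq']
    conv_lhs => rw [g.as_sum]
    rw [map_sum, map_sum, ← Finset.sum_sub_distrib]
    refine Finset.sum_congr rfl fun c _ => ?_
    rw [mul_sub, C_mul_monomial, mul_one, ← map_mul]
    simp [eval_monomial]

theorem exists_bezoutian (he : 1 ≤ e) (hr : ∀ i, Dg ((e : ℤ) - 1) (r i)) (η : σ → R)
    (hη : ∀ i, eval η (sys e r i) = 0) :
    ∃ b : MvPolynomial σ R, eval η b = eval η (jac e r) ∧
      (∀ j, b * (X j - C (η j)) ∈ Ideal.span (Set.range (sys e r))) ∧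
      ∀ g, lam he hr (b * g) = eval η g := by
  choose q hq hq' using fun i => exists_divided η (hr i)
  set M : Matrix σ σ (MvPolynomial σ R) := Matrix.of fun i j =>
    (if i = j then ∑ k ∈ Finset.range e, X i ^ k * C (η i) ^ (e - 1 - k) else 0) - q i j with hM
  have hMv : ∀ i, ∑ j, M i j * (X j - C (η j)) = sys e r i := by
    intro i
    have h1 := hη i
    simp only [sys, map_sub, map_pow, eval_X, sub_eq_zero] at h1
    simp only [hM, Matrix.of_apply, sub_mul, Finset.sum_sub_distrib, ite_mul, zero_mul,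
      Finset.sum_ite_eq, Finset.mem_univ, if_true]
    rw [geom_sum₂_mul, ← hq' i, ← h1, sys, map_pow]
    ring
  have hmem : ∀ j, M.det * (X j - C (η j)) ∈ Ideal.span (Set.range (sys e r)) := by
    intro j
    have h1 : M.mulVec (fun j => X j - C (η j)) = sys e r := by
      funext i
      exact hMv i
    have h2 := congrFun (congrArg (M.adjugate.mulVec) h1) j
    rw [Matrix.mulVec_mulVec, Matrix.adjugate_mul, Matrix.smul_mulVec, Matrix.one_mulVec] at h2
    simp only [Pi.smul_apply, smul_eq_mul] at h2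
    rw [h2]
    exact Submodule.sum_mem _ fun i _ => Ideal.mul_mem_left _ _ (Ideal.subset_span ⟨i, rfl⟩)
  have hlam : lam he hr M.det = 1 := by
    rw [lam_det he hr 1, one_pow]
    intro i j
    simp only [hM, Matrix.of_apply, Matrix.diagonal_apply]
    split_ifs with h
    · obtain ⟨e', rfl⟩ : ∃ e', e = e' + 1 := ⟨e - 1, by omega⟩
      rw [Finset.sum_range_succ]
      simp only [add_tsub_cancel_right, tsub_self, pow_zero, mul_one, map_one, one_mul]
      rw [show ∀ a b c : MvPolynomial σ R, a + b - c - b = a - c from fun a b c => by ring]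
      refine Dg.sub (Dg.sum _ fun k hk => ?_) (hq i j)
      have := Finset.mem_range.1 hk
      rw [mul_comm, ← map_pow]
      exact ((Dg.X_pow i k).C_mul _).mono (by push_cast; omega)
    · simpa using (hq i j).neg
  refine ⟨M.det, ?_, hmem, fun g => ?_⟩
  · rw [jac, RingHom.map_det, RingHom.map_det]
    congr 1
    ext i j
    simp only [RingHom.mapMatrix_apply, Matrix.map_apply, Matrix.of_apply]
    rw [← hMv i, map_sum, map_sum, Finset.sum_eq_single j]
    · simp
    · intro k _ hk
      simp [pderiv_X_of_ne hk]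
    · simp
  · obtain ⟨u, -, hu⟩ := exists_divided η (dg_totalDegree g)
    have h1 : M.det * g = eval η g • M.det + ∑ j, u j * (M.det * (X j - C (η j))) := by
      have : g = C (eval η g) + ∑ j, u j * (X j - C (η j)) := by rw [← hu]; ring
      conv_lhs => rw [this]
      rw [mul_add, Finset.mul_sum, smul_eq_C_mul, mul_comm]
      congr 1
      exact Finset.sum_congr rfl fun j _ => by ring
    rw [h1, map_add, map_smul, hlam, lam_of_mem he hr
      (Submodule.sum_mem _ fun j _ => Ideal.mul_mem_left _ _ (hmem j))]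
    simp

end Vale.Agent.P337
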