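import Vale.Agent.Lib.PolyTime.Unary
import Vale.Agent.P338.R3.H900.EncInt

/-!
Typed instances: polynomials as raw lists, their values, and sign codes.
-/

namespace Vale.Agent.P337

open Vale.Agent.Lib.PolyTime

/-- Polynomials as raw lists. -/
abbrev LPoly : Type := List (ℤ × List Un)

/-- The value of a raw polynomial. -/
noncomputable def evalL (n : ℕ) (x : Fin n → ℝ) (p : LPoly) : ℝ :=
  (p.map fun m => (m.1 : ℝ) * ∏ i : Fin n, x i ^ (m.2.getD i (Un.mk 0)).v).sum

open Classical in
/-- The sign code of a real number. -/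
noncomputable def sgc (r : ℝ) : ℕ := if r = 0 then 0 else if 0 < r then 1 else 2

/-- The sign condition given by the list of codes is satisfiable. -/
def SignFeas (a : Un × List LPoly × List ℕ) : Prop :=
  ∃ x : Fin a.1.v → ℝ, ∀ j < a.2.1.length, sgc (evalL a.1.v x (a.2.1.getD j [])) = a.2.2.getD j 0

end Vale.Agent.P337
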