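import Vale.Agent.P337.Decode
import Vale.Agent.P337.Defs
import Vale.Agent.P337.ParseDefs

/-!
Reduction of `ETR` to the feasibility of sign conditions: parsing of sentences, and evaluation of
a formula for a guessed list of signs of the atoms.
-/

namespace Vale.Agent.P337

open Vale.Agent.Lib.PolyTime

/-- Symbols of formulas. -/
abbrev Tok : Type := Un × LPoly

/-- Raw sentences. -/
abbrev Inst : Type := Un × List Tok

/-- A polynomial as a raw list. -/
def toL {n : ℕ} (p : Poly n) : LPoly := p.map fun m => (m.1, List.ofFn fun i => Un.mk (m.2 i))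

/-- The list of symbols of a formula. -/
def toks {n : ℕ} : Formula n → List Tok
  | .eq p => [(⟨0⟩, toL p)]
  | .pos p => [(⟨1⟩, toL p)]
  | .not φ => (⟨2⟩, []) :: toks φ
  | .and φ ψ => (⟨3⟩, []) :: (toks φ ++ toks ψ)
  | .or φ ψ => (⟨4⟩, []) :: (toks φ ++ toks ψ)

theorem pair_eq_pr (x y : Word) : pair x y = pr x y := by
  induction x with
  | nil => rfl
  | cons b x ih => simp [pair, pr, ih]

theorem listCode_map_enc {α : Type*} [Enc α] (l : List α) : listCode (l.map enc) = enc l := by
  induction l with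
  | nil => rfl
  | cons a l ih => rw [List.map_cons, listCode, ih, pair_eq_pr, enc_cons]

theorem polyCode_eq {n : ℕ} (p : Poly n) : polyCode p = enc (toL p) := by
  rw [polyCode, ← listCode_map_enc, toL, List.map_map]
  congr 1
  refine List.map_congr_left fun m _ => ?_
  rw [Function.comp_apply, monoCode, enc_pair, pair_eq_pr, ← listCode_map_enc, List.map_ofFn,
    intCode, pair_eq_pr]
  rfl

theorem symbols_eq {n : ℕ} (φ : Formula n) : φ.symbols = (toks φ).map enc := by
  induction φ with
  | eq p => simp only [Formula.symbols, toks, List.map_cons, List.map_nil, polyCode_eq,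
      pair_eq_pr]; rfl
  | pos p => simp only [Formula.symbols, toks, List.map_cons, List.map_nil, polyCode_eq,
      pair_eq_pr]; rfl
  | not φ ih => simp only [Formula.symbols, toks, List.map_cons, ih, pair_eq_pr]; rfl
  | and φ ψ ih ih' =>
    simp only [Formula.symbols, toks, List.map_cons, List.map_append, ih, ih', pair_eq_pr]; rfl
  | or φ ψ ih ih' =>
    simp only [Formula.symbols, toks, List.map_cons, List.map_append, ih, ih', pair_eq_pr]; rfl

theorem sentenceCode_eq (n : ℕ) (φ : Formula n) :
    sentenceCode n φ = enc ((⟨n⟩, toks φ) : Inst) := by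
  rw [sentenceCode, symbols_eq, listCode_map_enc, pair_eq_pr]
  rfl

/-- All exponent vectors have length `n`. -/
def WF (n : ℕ) (p : LPoly) : Prop := ∀ m ∈ p, m.2.length = n

theorem WF_toL {n : ℕ} (p : Poly n) : WF n (toL p) := by
  intro m hm
  obtain ⟨m', -, rfl⟩ := List.mem_map.1 hm
  simp

theorem WF_toks {n : ℕ} (φ : Formula n) : ∀ t ∈ toks φ, WF n t.2 := by
  have h0 : WF n [] := fun m hm => by simp at hm
  induction φ with
  | eq p => intro t ht; rw [toks, List.mem_singleton] at ht; subst ht; exact WF_toL p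
  | pos p => intro t ht; rw [toks, List.mem_singleton] at ht; subst ht; exact WF_toL p
  | not φ ih =>
    intro t ht
    rcases List.mem_cons.1 ht with rfl | ht
    · exact h0
    · exact ih t ht
  | and φ ψ ih ih' =>
    intro t ht
    rcases List.mem_cons.1 ht with rfl | ht
    · exact h0
    · exact (List.mem_append.1 ht).elim (ih t) (ih' t)
  | or φ ψ ih ih' =>
    intro t ht
    rcases List.mem_cons.1 ht with rfl | ht
    · exact h0
    · exact (List.mem_append.1 ht).elim (ih t) (ih' t)

theorem exists_toL {n : ℕ} {p : LPoly} (h : WF n p) : ∃ q : Poly n, toL q = p := by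
  refine ⟨p.map fun m => (m.1, fun i => (m.2.getD i ⟨0⟩).v), ?_⟩
  rw [toL, List.map_map]
  conv_rhs => rw [← List.map_id p]
  refine List.map_congr_left fun m hm => ?_
  refine Prod.ext rfl (List.ext_getElem (by simp [h m hm]) fun i h1 h2 => ?_)
  simp only [id_eq] at h2
  simp [List.getD_eq_getElem?_getD, h2]

theorem evalL_toL {n : ℕ} (x : Fin n → ℝ) (p : Poly n) : evalL n x (toL p) = p.eval x := by
  rw [evalL, toL, Poly.eval, List.map_map]
  congr 1
  refine List.map_congr_left fun m _ => ?_
  simp [List.getD_eq_getElem?_getD]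

theorem sgc_eq_zero {r : ℝ} : sgc r = 0 ↔ r = 0 := by
  unfold sgc
  split_ifs <;> simp [*]

theorem sgc_eq_one {r : ℝ} : sgc r = 1 ↔ 0 < r := by
  unfold sgc
  split_ifs with h1 h2
  · simp [h1]
  · simp [h2]
  · simp [h2]

theorem sgc_lt (r : ℝ) : sgc r < 3 := by
  unfold sgc
  split_ifs <;> omega

/-- One step of the evaluation of a list of symbols with given signs of the atoms. The state is a
flag (no error so far) and a stack of truth values. -/
def step (t : Tok × ℕ) (s : Bool × List Bool) : Bool × List Bool :=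
  if t.1.1.v = 0 then (s.1, decide (t.2 = 0) :: s.2)
  else if t.1.1.v = 1 then (s.1, decide (t.2 = 1) :: s.2)
  else if t.1.1.v = 2 then
    (s.1 && decide (t.1.2.length = 0 ∧ 1 ≤ s.2.length), (!(s.2.getD 0 false)) :: s.2.drop 1)
  else if t.1.1.v = 3 then
    (s.1 && decide (t.1.2.length = 0 ∧ 2 ≤ s.2.length),
      (s.2.getD 0 false && s.2.getD 1 false) :: s.2.drop 2)
  else if t.1.1.v = 4 then
    (s.1 && decide (t.1.2.length = 0 ∧ 2 ≤ s.2.length),
      (s.2.getD 0 false || s.2.getD 1 false) :: s.2.drop 2)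
  else (false, s.2)

/-- Evaluation of a list of symbols. -/
def run (l : List (Tok × ℕ)) : Bool × List Bool := l.foldr step (true, [])

/-- A symbol with the sign of its polynomial. -/
noncomputable def ann (n : ℕ) (x : Fin n → ℝ) (t : Tok) : Tok × ℕ := (t, sgc (evalL n x t.2))

open Classical in
/-- The truth value of a formula. -/
noncomputable def tv {n : ℕ} (x : Fin n → ℝ) (φ : Formula n) : Bool := decide (φ.Holds x)

theorem tv_iff {n : ℕ} {x : Fin n → ℝ} {φ : Formula n} : tv x φ = true ↔ φ.Holds x := by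
  simp [tv]

theorem tv_eq {n : ℕ} (x : Fin n → ℝ) (p : Poly n) :
    tv x (.eq p) = decide (sgc (evalL n x (toL p)) = 0) := by
  rw [Bool.eq_iff_iff, tv_iff, decide_eq_true_eq, sgc_eq_zero, evalL_toL, Formula.Holds]

theorem tv_pos {n : ℕ} (x : Fin n → ℝ) (p : Poly n) :
    tv x (.pos p) = decide (sgc (evalL n x (toL p)) = 1) := by
  rw [Bool.eq_iff_iff, tv_iff, decide_eq_true_eq, sgc_eq_one, evalL_toL, Formula.Holds]

theorem tv_not {n : ℕ} (x : Fin n → ℝ) (φ : Formula n) : tv x (.not φ) = !tv x φ := by
  rw [Bool.eq_iff_iff, tv_iff, Bool.not_eq_true', ← Bool.not_eq_true, tv_iff, Formula.Holds]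

theorem tv_and {n : ℕ} (x : Fin n → ℝ) (φ ψ : Formula n) :
    tv x (.and φ ψ) = (tv x φ && tv x ψ) := by
  rw [Bool.eq_iff_iff, tv_iff, Bool.and_eq_true, tv_iff, tv_iff, Formula.Holds]

theorem tv_or {n : ℕ} (x : Fin n → ℝ) (φ ψ : Formula n) :
    tv x (.or φ ψ) = (tv x φ || tv x ψ) := by
  rw [Bool.eq_iff_iff, tv_iff, Bool.or_eq_true, tv_iff, tv_iff, Formula.Holds]

theorem run_toks {n : ℕ} (x : Fin n → ℝ) (φ : Formula n) : ∀ l : List (Tok × ℕ),
    run ((toks φ).map (ann n x) ++ l) = ((run l).1, tv x φ :: (run l).2) := by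
  have hc : ∀ t l, run (t :: l) = step t (run l) := fun _ _ => rfl
  induction φ with
  | eq p =>
    intro l
    simp [toks, hc, step, ann, tv_eq]
  | pos p =>
    intro l
    simp [toks, hc, step, ann, tv_pos]
  | not φ ih =>
    intro l
    rw [toks, List.map_cons, List.cons_append, hc, ih]
    simp [step, ann, tv_not]
  | and φ ψ ih ih' =>
    intro l
    rw [toks, List.map_cons, List.cons_append, hc, List.map_append, List.append_assoc, ih, ih']
    simp [step, ann, tv_and]
  | or φ ψ ih ih' =>
    intro l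
    rw [toks, List.map_cons, List.cons_append, hc, List.map_append, List.append_assoc, ih, ih']
    simp [step, ann, tv_or]

theorem exists_parse {n : ℕ} (x : Fin n → ℝ) : ∀ ts : List Tok, (∀ t ∈ ts, WF n t.2) →
    (run (ts.map (ann n x))).1 = true → ∃ φs : List (Formula n), ts = φs.flatMap toks ∧
      (run (ts.map (ann n x))).2 = φs.map (tv x) := by
  have hc : ∀ t l, run (t :: l) = step t (run l) := fun _ _ => rfl
  intro ts
  induction ts with
  | nil => intro _ _; exact ⟨[], rfl, rfl⟩
  | cons t ts ih =>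
    intro hwf hok
    obtain ⟨⟨k⟩, p⟩ := t
    obtain ⟨q, rfl⟩ := exists_toL (hwf _ List.mem_cons_self)
    have ih' := ih fun t ht => hwf t (List.mem_cons_of_mem _ ht)
    rw [List.map_cons, hc] at hok ⊢
    have hq : (toL q).length = 0 → toL q = [] := List.length_eq_zero_iff.1
    match k with
    | 0 =>
      obtain ⟨φs, h1, h2⟩ := ih' (by simpa [step, ann] using hok)
      refine ⟨.eq q :: φs, by simp [toks, h1], ?_⟩
      rw [List.map_cons, tv_eq, ← h2]
      rfl
    | 1 =>
      obtain ⟨φs, h1, h2⟩ := ih' (by simpa [step, ann] using hok)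
      refine ⟨.pos q :: φs, by simp [toks, h1], ?_⟩
      rw [List.map_cons, tv_pos, ← h2]
      rfl
    | 2 =>
      simp only [step, ann, OfNat.ofNat_ne_zero, OfNat.ofNat_ne_one, if_false, if_true,
        Bool.and_eq_true] at hok
      replace hok := And.intro hok.1 (of_decide_eq_true hok.2)
      obtain ⟨φs, h1, h2⟩ := ih' hok.1
      have h3 := hok.2.2
      rw [h2, List.length_map] at h3
      match φs, h3 with
      | φ :: φs, _ =>
        refine ⟨.not φ :: φs, by simp [toks, h1, hq hok.2.1], ?_⟩
        simp [step, ann, h2, tv_not]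
    | 3 =>
      simp only [step, ann, OfNat.ofNat_ne_zero, OfNat.ofNat_ne_one, if_false, if_true,
        Bool.and_eq_true, Nat.reduceEqDiff] at hok
      replace hok := And.intro hok.1 (of_decide_eq_true hok.2)
      obtain ⟨φs, h1, h2⟩ := ih' hok.1
      have h3 := hok.2.2
      rw [h2, List.length_map] at h3
      match φs, h3 with
      | φ :: ψ :: φs, _ =>
        refine ⟨.and φ ψ :: φs, by simp [toks, h1, hq hok.2.1], ?_⟩
        simp [step, ann, h2, tv_and]
    | 4 =>
      simp only [step, ann, OfNat.ofNat_ne_zero, OfNat.ofNat_ne_one, if_false, if_true,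
        Bool.and_eq_true, Nat.reduceEqDiff] at hok
      replace hok := And.intro hok.1 (of_decide_eq_true hok.2)
      obtain ⟨φs, h1, h2⟩ := ih' hok.1
      have h3 := hok.2.2
      rw [h2, List.length_map] at h3
      match φs, h3 with
      | φ :: ψ :: φs, _ =>
        refine ⟨.or φ ψ :: φs, by simp [toks, h1, hq hok.2.1], ?_⟩
        simp [step, ann, h2, tv_or]
    | k + 5 => simp [step, ann] at hok

/-- The raw sentence is the list of symbols of a satisfiable formula. -/
def Good (I : Inst) : Prop := ∃ φ : Formula I.1.v, I.2 = toks φ ∧ ∃ x, φ.Holds x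

theorem ETR_eq : ETR = {w : Word | ∃ I : Inst, w = enc I ∧ Good I} := by
  ext w
  constructor
  · rintro ⟨n, φ, rfl, h⟩
    exact ⟨(⟨n⟩, toks φ), sentenceCode_eq n φ, φ, rfl, h⟩
  · rintro ⟨⟨⟨n⟩, ts⟩, rfl, φ, h1, h2⟩
    refine ⟨n, φ, ?_, h2⟩
    rw [sentenceCode_eq]
    simp only at h1
    rw [h1]

theorem zip_eq_map_ann {n : ℕ} (x : Fin n → ℝ) {ts : List Tok} {σ : List ℕ}
    (hl : σ.length = ts.length) (h : ∀ j < (ts.map Prod.snd).length,
      sgc (evalL n x ((ts.map Prod.snd).getD j [])) = σ.getD j 0) :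
    ts.zip σ = ts.map (ann n x) := by
  refine List.ext_getElem (by simp [hl]) fun i h1 h2 => ?_
  rw [List.length_map] at h2
  have := h i (by simpa using h2)
  rw [List.getD_eq_getElem _ _ (by simpa using h2), List.getD_eq_getElem _ _ (by omega),
    List.getElem_map] at this
  rw [List.getElem_zip, List.getElem_map, ann, this]

theorem good_iff (I : Inst) : Good I ↔ (∀ t ∈ I.2, WF I.1.v t.2) ∧
    ∃ σ : List ℕ, σ.length = I.2.length ∧ (∀ s ∈ σ, s < 3) ∧
      (run (I.2.zip σ) = (true, [true]) ∧ SignFeas (I.1, I.2.map Prod.snd, σ)) := by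
  obtain ⟨⟨n⟩, ts⟩ := I
  constructor
  · rintro ⟨φ, h1, x, hx⟩
    simp only at h1 φ x
    subst h1
    have h2 : ∀ j < ((toks φ).map Prod.snd).length,
        sgc (evalL n x (((toks φ).map Prod.snd).getD j [])) =
          ((toks φ).map fun t => sgc (evalL n x t.2)).getD j 0 := by
      intro j hj
      rw [List.getD_eq_getElem _ _ hj, List.getD_eq_getElem _ _ (by simpa using hj)]
      simp
    refine ⟨WF_toks φ, (toks φ).map fun t => sgc (evalL n x t.2), by simp, ?_, ?_, x, h2⟩
    · intro s hs
      obtain ⟨t, -, rfl⟩ := List.mem_map.1 hs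
      exact sgc_lt _
    · have := run_toks x φ []
      rw [List.append_nil] at this
      rw [zip_eq_map_ann x (by simp) h2, this]
      simp [run, tv_iff.2 hx]
  · rintro ⟨hwf, σ, hl, -, hrun, x, hx⟩
    simp only at hwf hl hrun hx x
    rw [zip_eq_map_ann x hl hx] at hrun
    obtain ⟨φs, h1, h2⟩ := exists_parse x ts hwf (by rw [hrun])
    rw [hrun] at h2
    have h3 : φs.length = 1 := by simpa using (congrArg List.length h2).symm
    obtain ⟨φ, rfl⟩ := List.length_eq_one_iff.1 h3
    refine ⟨φ, by simpa using h1, x, tv_iff.1 ?_⟩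
    simpa using h2

theorem length_foldr_step (l : List (Tok × ℕ)) :
    (l.foldr step (true, [])).2.length ≤ l.length := by
  induction l with
  | nil => simp
  | cons t l ih =>
    rw [List.foldr_cons, step]
    split_ifs <;> simp only [List.length_cons, List.length_drop] <;> omega

theorem CHF_run : CHF run := by
  refine CHF.foldr (l := fun l : List (Tok × ℕ) => l) (init := fun _ => (true, []))
    (f := fun _ t s => step t s) CHF.id (CHF.const _) ?_
    (b := fun l => 3 * l.length + 3) (by fun_prop) fun l i => ?_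
  · unfold step
    fun_prop
  · have h1 := length_foldr_step (l.drop i)
    have h2 := esize_list_le (l := ((l.drop i).foldr step (true, [])).2) (B := 1)
      fun x _ => le_rfl
    rw [List.length_drop] at h1
    rw [show (l.drop i).foldr step (true, []) = (((l.drop i).foldr step (true, [])).1,
      ((l.drop i).foldr step (true, [])).2) from rfl, esize_pair, esize_bool]
    omega

/-- `ETR` reduces to the feasibility of sign conditions. -/
theorem ETR_mem_CH_of (h : CHP SignFeas) : ETR ∈ CH := by
  rw [ETR_eq]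
  refine codes_mem_CH (CHP.congr (CHP.and ?_ (CHP.exists_list (CHP.and ?_ ?_) (CHF.const 3)
    (by fun_prop) (by fun_prop))) fun I => (good_iff I).symm)
  · have h1 : CHF (fun I : Inst => I.2.all fun t => t.2.all fun m =>
        decide (m.2.length = I.1.v)) := by fun_prop
    exact (CHP.of_bool h1).congr fun I => by simp [WF]
  · exact CHP.eq (CHF_run.comp (by fun_prop)) (CHF.const _)
  · exact h.comp (f := fun x : Inst × List ℕ => (x.1.1, x.1.2.map Prod.snd, x.2)) (by fun_prop)

/-- Closure of the levels under polynomial time many-one reductions (one level up). -/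
theorem existsR_subset (h : ETR ∈ CH) : ∃ j, ExistsR ⊆ C j := by
  obtain ⟨j, hj⟩ := mem_CH.1 h
  refine ⟨j + 1, ?_⟩
  rintro L ⟨f, hf, hL⟩
  have h1 : FP ETR f := FP.subst ((FP.const [false]).congr fun x => by simp [chi])
    (polyTimeFun_iff.1 hf)
  exact mem_C_succ_of_FP hj ((FP.oracle.comp h1).congr fun x => chi_congr (hL x).symm)

end Vale.Agent.P337
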