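import Vale.Agent.P337.CH.CoreCH
import Vale.Agent.P337.Parse

/-!
The existential theory of the reals lies in the counting hierarchy.
-/

namespace Vale.Agent.P337

open Vale.Agent.Lib.PolyTime

theorem ETR_mem_CH : ETR ∈ CH := ETR_mem_CH_of CHP_signFeas

theorem exists_existsR_subset : ∃ j, ExistsR ⊆ C j := existsR_subset ETR_mem_CH

end Vale.Agent.P337
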