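import Mathlib.Analysis.Calculus.Deriv.MeanValue
import Mathlib.Analysis.Calculus.Deriv.Polynomial
import Mathlib.Algebra.Polynomial.Roots
import Mathlib.Order.Interval.Set.Infinite
import Mathlib.Data.Sign.Basic
import Mathlib.Tactic

/-!
Thom's lemma (two different real roots of a polynomial are separated by the sign of a
derivative), greedy halving, and digits.
-/

namespace Vale.Agent.P337

open Finset Polynomial

theorem sign_between {x y z : ℝ} (h : SignType.sign x = SignType.sign y) (h1 : x ≤ z)
    (h2 : z ≤ y) : SignType.sign z = SignType.sign x :=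
  le_antisymm (h ▸ SignType.sign.monotone h2) (SignType.sign.monotone h1)

theorem thom_step (G : ℝ[X]) {a b : ℝ} (hab : a ≤ b)
    (h : SignType.sign (G.eval a) = SignType.sign (G.eval b))
    (h' : ∀ x ∈ Set.Icc a b,
      SignType.sign (G.derivative.eval x) = SignType.sign (G.derivative.eval a)) :
    ∀ x ∈ Set.Icc a b, SignType.sign (G.eval x) = SignType.sign (G.eval a) := by
  intro x hx
  have hc : ContinuousOn (fun y => G.eval y) (Set.Icc a b) := G.continuous.continuousOn
  have hd : DifferentiableOn ℝ (fun y => G.eval y) (interior (Set.Icc a b)) :=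
    G.differentiable.differentiableOn
  have ha : a ∈ Set.Icc a b := Set.left_mem_Icc.2 hab
  have hb : b ∈ Set.Icc a b := Set.right_mem_Icc.2 hab
  rcases le_total 0 (G.derivative.eval a) with h0 | h0
  · have hm : MonotoneOn (fun y => G.eval y) (Set.Icc a b) := by
      refine monotoneOn_of_deriv_nonneg (convex_Icc a b) hc hd fun y hy => ?_
      rw [Polynomial.deriv, ← sign_nonneg_iff, h' y (interior_subset hy), sign_nonneg_iff]
      exact h0
    exact sign_between h (hm ha hx hx.1) (hm hx hb hx.2)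
  · have hm : AntitoneOn (fun y => G.eval y) (Set.Icc a b) := by
      refine antitoneOn_of_deriv_nonpos (convex_Icc a b) hc hd fun y hy => ?_
      rw [Polynomial.deriv, ← sign_nonpos_iff, h' y (interior_subset hy), sign_nonpos_iff]
      exact h0
    rw [h]
    exact sign_between h.symm (hm hx hb hx.2) (hm ha hx hx.1)

theorem thom_lt (F : ℝ[X]) (hF : F ≠ 0) {a b : ℝ} (hab : a < b) (ha : F.eval a = 0) :
    ∃ k ≤ F.natDegree, SignType.sign ((derivative^[k] F).eval a) ≠
      SignType.sign ((derivative^[k] F).eval b) := by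
  by_contra hcon
  push Not at hcon
  have key : ∀ j k, k + j = F.natDegree + 1 → ∀ x ∈ Set.Icc a b,
      SignType.sign ((derivative^[k] F).eval x) = SignType.sign ((derivative^[k] F).eval a) := by
    intro j
    induction j with
    | zero =>
      intro k hk x _
      rw [iterate_derivative_eq_zero (by omega)]
      simp
    | succ j ih =>
      intro k hk
      refine thom_step _ hab.le (hcon k (by omega)) ?_
      have := ih (k + 1) (by omega)
      rwa [Function.iterate_succ_apply'] at this
  have h0 := key (F.natDegree + 1) 0 (by omega)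
  simp only [Function.iterate_zero, id_eq, ha, sign_zero, sign_eq_zero_iff] at h0
  exact hF (eq_zero_of_infinite_isRoot F ((Set.Icc_infinite hab).mono fun x hx => h0 x hx))

/-- Thom's lemma. -/
theorem thom (F : ℝ[X]) (hF : F ≠ 0) {a b : ℝ} (hab : a ≠ b) (ha : F.eval a = 0)
    (hb : F.eval b = 0) :
    ∃ k ≤ F.natDegree, SignType.sign ((derivative^[k] F).eval a) ≠
      SignType.sign ((derivative^[k] F).eval b) := by
  rcases lt_or_gt_of_ne hab with h | h
  · exact thom_lt F hF h ha
  · obtain ⟨k, hk, h'⟩ := thom_lt F hF h hb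
    exact ⟨k, hk, h'.symm⟩

/-- Greedy halving: a separating family of tests closed under complement isolates one point of a
finite set with logarithmically many tests. -/
theorem halving {α ι : Type*} [DecidableEq α] (T : ι → α → Prop) (ok : ι → Prop) :
    ∀ (n : ℕ) (S : Finset α), S.card = n → S.Nonempty →
      (∀ i, ok i → ∃ i', ok i' ∧ ∀ a ∈ S, (T i' a ↔ ¬ T i a)) →
      (∀ a ∈ S, ∀ b ∈ S, a ≠ b → ∃ i, ok i ∧ T i a ∧ ¬ T i b) →
      ∃ (l : List ι) (a : α), a ∈ S ∧ 2 ^ l.length ≤ S.card ∧ (∀ i ∈ l, ok i ∧ T i a) ∧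
        ∀ b ∈ S, b ≠ a → ∃ i ∈ l, ¬ T i b := by
  classical
  intro n
  induction n using Nat.strong_induction_on with
  | _ n ih =>
  intro S hn hS hneg hsep
  by_cases h1 : ∀ a ∈ S, ∀ b ∈ S, a = b
  · obtain ⟨a, ha⟩ := hS
    exact ⟨[], a, ha, by simpa using ⟨a, ha⟩, by simp, fun b hb hba => (hba (h1 b hb a ha)).elim⟩
  push Not at h1
  obtain ⟨a, ha, b, hb, hab⟩ := h1
  obtain ⟨i, hi, hia, hib⟩ := hsep a ha b hb hab
  obtain ⟨i', hi', hii'⟩ := hneg i hi
  have hcard := card_filter_add_card_filter_not (s := S) (T i)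
  have hcongr : S.filter (fun x => ¬ T i x) = S.filter (T i') :=
    filter_congr fun x hx => (hii' x hx).symm
  rw [hcongr] at hcard
  have main : ∀ j, ok j → (S.filter (T j)).Nonempty → 2 * (S.filter (T j)).card ≤ S.card →
      ∃ (l : List ι) (a : α), a ∈ S ∧ 2 ^ l.length ≤ S.card ∧ (∀ i ∈ l, ok i ∧ T i a) ∧
        ∀ b ∈ S, b ≠ a → ∃ i ∈ l, ¬ T i b := by
    intro j hj hne hle
    have hpos := hne.card_pos
    obtain ⟨l, c, hc, hl, h1, h2⟩ := ih (S.filter (T j)).card (by omega) (S.filter (T j)) rfl hne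
      (fun i hi => by
        obtain ⟨i', hi', h⟩ := hneg i hi
        exact ⟨i', hi', fun a ha => h a (mem_filter.1 ha).1⟩)
      (fun a ha b hb hab => hsep a (mem_filter.1 ha).1 b (mem_filter.1 hb).1 hab)
    refine ⟨j :: l, c, (mem_filter.1 hc).1, ?_, ?_, ?_⟩
    · rw [List.length_cons, pow_succ]; omega
    · intro i hi
      rcases List.mem_cons.1 hi with rfl | hi
      · exact ⟨hj, (mem_filter.1 hc).2⟩
      · exact h1 i hi
    · intro b hb hbc
      by_cases hjb : T j b
      · obtain ⟨i, hi, h⟩ := h2 b (mem_filter.2 ⟨hb, hjb⟩) hbc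
        exact ⟨i, List.mem_cons_of_mem _ hi, h⟩
      · exact ⟨j, List.mem_cons_self, hjb⟩
  rcases le_total (S.filter (T i)).card (S.filter (T i')).card with h | h
  · exact main i hi ⟨a, mem_filter.2 ⟨ha, hia⟩⟩ (by omega)
  · exact main i' hi' ⟨b, mem_filter.2 ⟨hb, (hii' b hb).2 hib⟩⟩ (by omega)

/-- A number with prescribed digits. -/
theorem exists_digits (b : ℕ) : ∀ (m : ℕ) (code : ℕ → ℕ), (∀ l, code l < b) →
    ∃ N < b ^ m, ∀ l < m, N / b ^ l % b = code l := by
  intro m
  induction m with
  | zero => intro code _; exact ⟨0, by simp, by simp⟩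
  | succ m ih =>
    intro code hc
    obtain ⟨N, hN, h⟩ := ih (fun l => code (l + 1)) (fun l => hc _)
    have hb : 0 < b := lt_of_le_of_lt (Nat.zero_le _) (hc 0)
    refine ⟨code 0 + b * N, ?_, fun l hl => ?_⟩
    · have := hc 0
      rw [pow_succ]
      nlinarith
    · rcases l with _ | l
      · simp [Nat.mod_eq_of_lt (hc 0)]
      · rw [pow_succ', ← Nat.div_div_eq_div_mul, Nat.add_mul_div_left _ _ hb,
          Nat.div_eq_of_lt (hc 0), zero_add]
        exact h l (by omega)

end Vale.Agent.P337
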