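import Vale.Agent.P337.DDefs
import Vale.Agent.P337.AndPoly
import Vale.Agent.P337.Thom
import Mathlib.Data.List.GetD

/-!
The abstract real root test: a finite set with a conjugation contains a fixed point with
`w 0 > 0` if and only if one of the test products is negative.
-/

namespace Vale.Agent.P337

open Finset ComplexConjugate

theorem UU_zero {R : Type*} [CommRing R] (L : R) (w : ℕ → R) : UU L w 0 = L * w 0 - 1 := by
  simp [UU]

theorem UU_four {R : Type*} [CommRing R] (L : R) (w : ℕ → R) (j : ℕ) :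
    UU L w (4 * j) = L * w j - 1 ∧ UU L w (4 * j + 1) = -(L * w j - 1) ∧
    UU L w (4 * j + 2) = -(L * w j) - 1 ∧ UU L w (4 * j + 3) = -(-(L * w j) - 1) := by
  have e0 : 4 * j / 4 = j := by omega
  have e1 : (4 * j + 1) / 4 = j := by omega
  have e2 : (4 * j + 2) / 4 = j := by omega
  have e3 : (4 * j + 3) / 4 = j := by omega
  have f0 : 4 * j / 2 = 2 * j := by omega
  have f1 : (4 * j + 1) / 2 = 2 * j := by omega
  have f2 : (4 * j + 2) / 2 = 2 * j + 1 := by omega
  have f3 : (4 * j + 3) / 2 = 2 * j + 1 := by omega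
  have g : (-1 : R) ^ (4 * j) = 1 := by rw [pow_mul]; norm_num
  have g' : (-1 : R) ^ (2 * j) = 1 := by rw [pow_mul]; norm_num
  simp only [UU, e0, e1, e2, e3, f0, f1, f2, f3, pow_add, g, g']
  refine ⟨by ring, by ring, by ring, by ring⟩

/-- Every test value is at least `1` or at most `-1`, and bounded. -/
theorem UU_gap {L : ℝ} {w : ℕ → ℝ} {c : ℕ} {M : ℝ} (hL : 0 ≤ L)
    (hlow : w (c / 4) ≠ 0 → 2 ≤ L * |w (c / 4)|) (hup : L * |w (c / 4)| + 1 ≤ M) :
    1 ≤ |UU L w c| ∧ |UU L w c| ≤ M := by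
  have h1 : |UU L w c| = |L * ((-1) ^ (c / 2) * w (c / 4)) - 1| := by
    simp [UU, abs_mul]
  have h2 : |L * ((-1) ^ (c / 2) * w (c / 4))| = L * |w (c / 4)| := by
    simp [abs_mul, abs_of_nonneg hL]
  rw [h1]
  constructor
  · by_cases h0 : w (c / 4) = 0
    · simp [h0]
    · have := abs_sub_abs_le_abs_sub (L * ((-1) ^ (c / 2) * w (c / 4))) 1
      rw [h2, abs_one] at this
      linarith [hlow h0]
  · have := abs_sub (L * ((-1) ^ (c / 2) * w (c / 4))) 1
    rw [h2, abs_one] at this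
    linarith

theorem exists_neg_code (L : ℝ) (J c : ℕ) (hc : c < 4 * J) :
    ∃ c' < 4 * J, ∀ w : ℕ → ℝ, UU L w c' = -UU L w c := by
  obtain ⟨j, hj⟩ : ∃ j, c = 4 * j ∨ c = 4 * j + 1 ∨ c = 4 * j + 2 ∨ c = 4 * j + 3 :=
    ⟨c / 4, by omega⟩
  rcases hj with rfl | rfl | rfl | rfl
  · exact ⟨4 * j + 1, by omega, fun w => by rw [(UU_four L w j).2.1, (UU_four L w j).1]⟩
  · exact ⟨4 * j, by omega, fun w => by rw [(UU_four L w j).2.1, (UU_four L w j).1, neg_neg]⟩
  · exact ⟨4 * j + 3, by omega, fun w => by rw [(UU_four L w j).2.2.1, (UU_four L w j).2.2.2]⟩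
  · exact ⟨4 * j + 2, by omega, fun w => by
      rw [(UU_four L w j).2.2.1, (UU_four L w j).2.2.2, neg_neg]⟩

theorem exists_sep_code {L : ℝ} {J j : ℕ} (hj : j < J) {w w' : ℕ → ℝ}
    (h : w j ≠ 0 → 2 ≤ L * |w j|) (h' : w' j ≠ 0 → 2 ≤ L * |w' j|)
    (hs : SignType.sign (w j) ≠ SignType.sign (w' j)) :
    ∃ c < 4 * J, 1 ≤ UU L w c ∧ ¬ 1 ≤ UU L w' c := by
  have p : ∀ x : ℝ, (x ≠ 0 → 2 ≤ L * |x|) → (0 < x ∧ 2 ≤ L * x) ∨ (x = 0 ∧ L * x = 0) ∨
      (x < 0 ∧ L * x ≤ -2) := by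
    intro x hx
    rcases lt_trichotomy x 0 with h0 | h0 | h0
    · have := hx h0.ne
      rw [abs_of_neg h0] at this
      exact Or.inr (Or.inr ⟨h0, by linarith⟩)
    · exact Or.inr (Or.inl ⟨h0, by simp [h0]⟩)
    · have := hx h0.ne'
      rw [abs_of_pos h0] at this
      exact Or.inl ⟨h0, this⟩
  obtain ⟨a0, a1, a2, a3⟩ := UU_four L w j
  obtain ⟨b0, b1, b2, b3⟩ := UU_four L w' j
  rcases p _ h with ⟨h1, h2⟩ | ⟨h1, h2⟩ | ⟨h1, h2⟩ <;>
    rcases p _ h' with ⟨h3, h4⟩ | ⟨h3, h4⟩ | ⟨h3, h4⟩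
  · exact (hs (by rw [sign_pos h1, sign_pos h3])).elim
  · exact ⟨4 * j, by omega, by rw [a0]; linarith, by rw [b0]; linarith⟩
  · exact ⟨4 * j, by omega, by rw [a0]; linarith, by rw [b0]; linarith⟩
  · exact ⟨4 * j + 1, by omega, by rw [a1]; linarith, by rw [b1]; linarith⟩
  · exact (hs (by rw [h1, h3])).elim
  · exact ⟨4 * j + 3, by omega, by rw [a3]; linarith, by rw [b3]; linarith⟩
  · exact ⟨4 * j + 1, by omega, by rw [a1]; linarith, by rw [b1]; linarith⟩
  · exact ⟨4 * j + 2, by omega, by rw [a2]; linarith, by rw [b2]; linarith⟩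
  · exact (hs (by rw [sign_neg h1, sign_neg h3])).elim

theorem digit_zero (b N : ℕ) : b * N / b ^ 0 % b = 0 := by simp

variable {α : Type*} [DecidableEq α]

theorem stepD (Z : Finset α) (σ : α → α) (hZ : ∀ a ∈ Z, σ a ∈ Z) (hσ : ∀ a, σ (σ a) = a)
    (w : ℕ → α → ℂ) (hw : ∀ j a, w j (σ a) = conj (w j a)) {J D m B L : ℕ} (hJ : 0 < J)
    (hD : Z.card ≤ D) (hm : D < 2 ^ m) (hm0 : 0 < m)
    (hsep : ∀ a ∈ Z, ∀ b ∈ Z, σ a = a → σ b = b → a ≠ b →
      ∃ j < J, SignType.sign (w j a).re ≠ SignType.sign (w j b).re)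
    (hlow : ∀ j < J, ∀ a ∈ Z, w j a ≠ 0 → 2 ≤ (L : ℝ) * ‖w j a‖)
    (hup : ∀ j < J, ∀ a ∈ Z, (L : ℝ) * ‖w j a‖ + 1 ≤ 2 ^ B) :
    (∃ a ∈ Z, σ a = a ∧ 0 < (w 0 a).re) ↔
      ∃ N < (4 * J) ^ m, ∃ c < D + 1,
        (∏ a ∈ Z, GC B m D (4 * J) N c (L : ℂ) (fun j => w j a)).re < 0 := by
  classical
  have hL : (0 : ℝ) ≤ L := Nat.cast_nonneg L
  have hreal : ∀ a, σ a = a → ∀ j, w j a = ((w j a).re : ℂ) := by
    intro a ha j
    have h := hw j a
    rw [ha] at h
    exact (Complex.conj_eq_iff_re.1 h.symm).symm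
  have hequi : ∀ N c a, GC B m D (4 * J) N c (L : ℂ) (fun j => w j (σ a)) =
      conj (GC B m D (4 * J) N c (L : ℂ) (fun j => w j a)) := by
    intro N c a
    rw [map_GC]
    simp only [hw, map_natCast]
  have hGC : ∀ N c a, σ a = a → (GC B m D (4 * J) N c (L : ℂ) (fun j => w j a)).re =
      GC B m D (4 * J) N c (L : ℝ) (fun j => (w j a).re) := by
    intro N c a ha
    have h := map_GC Complex.ofRealHom B m D (4 * J) N c (L : ℝ) (fun j => (w j a).re)
    simp only [Complex.ofRealHom_eq_coe, Complex.ofReal_natCast, ← hreal a ha] at h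
    rw [← h, Complex.ofReal_re]
  have hnorm : ∀ a, σ a = a → ∀ j, ‖w j a‖ = |(w j a).re| := by
    intro a ha j
    conv_lhs => rw [hreal a ha j]
    exact Complex.norm_real _
  have hlow' : ∀ j < J, ∀ a ∈ Z, σ a = a → (w j a).re ≠ 0 → 2 ≤ (L : ℝ) * |(w j a).re| := by
    intro j hj a ha hfix h0
    rw [← hnorm a hfix]
    exact hlow j hj a ha fun h => h0 (by rw [h, Complex.zero_re])
  have hgap : ∀ c < 4 * J, ∀ a ∈ Z, σ a = a → 1 ≤ |UU (L : ℝ) (fun j => (w j a).re) c| ∧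
      |UU (L : ℝ) (fun j => (w j a).re) c| ≤ 2 ^ B := by
    intro c hc a ha hfix
    refine UU_gap hL (hlow' _ (by omega) a ha hfix) ?_
    rw [← hnorm a hfix]
    exact hup _ (by omega) a ha
  constructor
  · rintro ⟨a0, ha0, hfix0, hpos0⟩
    set S := Z.filter (fun a => σ a = a ∧ 0 < (w 0 a).re) with hS
    have hSmem : ∀ a, a ∈ S ↔ a ∈ Z ∧ σ a = a ∧ 0 < (w 0 a).re := fun a => mem_filter
    obtain ⟨l, a, ha, hl, h1, h2⟩ := halving
      (fun (c : ℕ) (a : α) => 1 ≤ UU (L : ℝ) (fun j => (w j a).re) c) (fun c => c < 4 * J)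
      S.card S rfl ⟨a0, (hSmem _).2 ⟨ha0, hfix0, hpos0⟩⟩
      (fun c hc => by
        obtain ⟨c', hc', h⟩ := exists_neg_code (L : ℝ) J c hc
        refine ⟨c', hc', fun a ha => ?_⟩
        have := (hgap c hc a ((hSmem _).1 ha).1 ((hSmem _).1 ha).2.1).1
        rw [h]
        rcases le_abs.1 this with h3 | h3
        · constructor <;> intro h4 <;> [linarith; exact (h4 h3).elim]
        · constructor <;> intro h4 <;> [intro h5; exact h3]
          linarith)
      (fun a ha b hb hab => by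
        obtain ⟨ha1, ha2, -⟩ := (hSmem _).1 ha
        obtain ⟨hb1, hb2, -⟩ := (hSmem _).1 hb
        obtain ⟨j, hj, hs⟩ := hsep a ha1 b hb1 ha2 hb2 hab
        exact exists_sep_code hj (w := fun j => (w j a).re) (w' := fun j => (w j b).re)
          (hlow' j hj a ha1 ha2) (hlow' j hj b hb1 hb2) hs)
    obtain ⟨haZ, hafix, hapos⟩ := (hSmem _).1 ha
    have hlen : l.length < m := by
      have h3 : S.card ≤ Z.card := card_filter_le _ _
      exact (Nat.pow_lt_pow_iff_right (by norm_num : 1 < 2)).1 (by omega)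
    have hcode : ∀ i, (0 :: l).getD i 0 < 4 * J ∧
        1 ≤ UU (L : ℝ) (fun j => (w j a).re) ((0 :: l).getD i 0) := by
      have h0 : 0 < 4 * J ∧ 1 ≤ UU (L : ℝ) (fun j => (w j a).re) 0 := by
        refine ⟨by omega, ?_⟩
        have := hlow' 0 hJ a haZ hafix hapos.ne'
        rw [abs_of_pos hapos] at this
        rw [UU_zero]
        linarith
      intro i
      by_cases hi : i < (0 :: l).length
      · rw [List.getD_eq_getElem _ _ hi]
        rcases List.mem_cons.1 (List.getElem_mem hi) with h | h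
        · rw [h]; exact h0
        · exact h1 _ h
      · rw [List.getD_eq_default _ _ (not_lt.1 hi)]
        exact h0
    obtain ⟨N', hN', hdig⟩ := exists_digits (4 * J) m (fun i => (0 :: l).getD i 0)
      (fun i => (hcode i).1)
    have hN0 : N' % (4 * J) = 0 := by simpa using hdig 0 hm0
    have hNN : 4 * J * (N' / (4 * J)) = N' := Nat.mul_div_cancel' (Nat.dvd_of_mod_eq_zero hN0)
    -- choice of the shift
    have hc : ∃ c < D + 1, ∀ b ∈ Z,
        GC B m D (4 * J) (N' / (4 * J)) c (L : ℂ) (fun j => w j b) ≠ 0 := by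
      by_contra hcon
      push Not at hcon
      have : Nonempty α := ⟨a⟩
      choose! f hf1 hf2 using hcon
      obtain ⟨c, hc, c', hc', hne, heq⟩ := exists_ne_map_eq_of_card_lt_of_maps_to
        (s := range (D + 1)) (t := Z) (by rw [card_range]; omega) (f := f)
        (fun c hc => hf1 c (mem_range.1 hc))
      have e1 := hf2 c (mem_range.1 hc)
      have e2 := hf2 c' (mem_range.1 hc')
      rw [heq] at e1
      unfold GC at e1 e2
      have e3 : ((c + 1 : ℕ) : ℂ) = ((c' + 1 : ℕ) : ℂ) := by linear_combination e1 - e2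
      exact hne (by exact_mod_cast Nat.succ_injective (Nat.cast_injective e3))
    obtain ⟨c, hc, hc0⟩ := hc
    refine ⟨N' / (4 * J), lt_of_le_of_lt (Nat.div_le_self _ _) hN', c, hc, ?_⟩
    refine re_prod_neg Z σ hZ hσ _ (hequi _ c) hc0 haZ hafix ?_ ?_
    · rw [hGC _ _ a hafix, GC, hNN]
      have h3 := GG_le (B := B) (m := m)
        (u := fun i => UU (L : ℝ) (fun j => (w j a).re) (N' / (4 * J) ^ i % (4 * J)))
        (fun i hi => by rw [hdig i hi]; exact (hcode i).2)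
        (fun i hi => by
          rw [hdig i hi]
          exact (le_abs_self _).trans (hgap _ (hcode i).1 a haZ hafix).2)
      have h4 : (c : ℝ) ≤ D := by exact_mod_cast Nat.lt_succ_iff.1 hc
      have h5 : (0 : ℝ) ≤ D := Nat.cast_nonneg D
      push_cast
      nlinarith
    · intro b hb hbfix hba
      rw [hGC _ _ b hbfix, GC, hNN]
      have h3 : ∃ i < m,
          UU (L : ℝ) (fun j => (w j b).re) (N' / (4 * J) ^ i % (4 * J)) ≤ 0 := by
        by_cases hb0 : 0 < (w 0 b).re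
        · obtain ⟨t, ht, hnt⟩ := h2 b ((hSmem _).2 ⟨hb, hbfix, hb0⟩) hba
          obtain ⟨i, hi, rfl⟩ := List.getElem_of_mem ht
          refine ⟨i + 1, by omega, ?_⟩
          rw [hdig (i + 1) (by omega), List.getD_cons_succ, List.getD_eq_getElem _ _ hi]
          rcases le_abs.1 (hgap _ (h1 _ ht).1 b hb hbfix).1 with h4 | h4
          · exact (hnt h4).elim
          · linarith
        · refine ⟨0, hm0, ?_⟩
          rw [hdig 0 hm0, List.getD_cons_zero, UU_zero]
          have := mul_nonneg hL (neg_nonneg.2 (not_lt.1 hb0))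
          linarith
      obtain ⟨i, hi, h3⟩ := h3
      have h4 := GG_nonneg (B := B) (m := m)
        (u := fun i => UU (L : ℝ) (fun j => (w j b).re) (N' / (4 * J) ^ i % (4 * J))) hi h3
      positivity
  · rintro ⟨N, -, c, -, h⟩
    obtain ⟨a, ha, hfix, hneg⟩ := exists_neg_of_re_prod_neg Z σ hZ hσ _ (hequi N c) h
    refine ⟨a, ha, hfix, ?_⟩
    rw [hGC _ _ a hfix, GC] at hneg
    have h1 : GG B m (fun l => UU (L : ℝ) (fun j => (w j a).re)
        (4 * J * N / (4 * J) ^ l % (4 * J))) < 0 := by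
      by_contra hcon
      have := not_lt.1 hcon
      refine absurd hneg (not_lt.2 ?_)
      positivity
    have h2 := pos_of_GG_neg h1 hm0
    simp only [digit_zero, UU_zero] at h2
    by_contra hcon
    have := mul_nonneg hL (neg_nonneg.2 (not_lt.1 hcon))
    linarith

end Vale.Agent.P337
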