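import Vale.Agent.P337.Lam
import Mathlib.Algebra.DirectSum.LinearMap
import Mathlib.LinearAlgebra.Eigenspace.Pi
import Mathlib.LinearAlgebra.Eigenspace.Triangularizable
import Mathlib.RingTheory.Finiteness.Nilpotent
import Mathlib.RingTheory.Ideal.Quotient.Operations

/-!
The roots of the system `x_i ^ e = r_i` over an algebraically closed field, and the trace formula.
-/

namespace Vale.Agent.P337

open MvPolynomial Module

variable {σ : Type*} [Fintype σ] [DecidableEq σ] {K : Type*} [Field K]

section Abstract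

variable {A : Type*} [CommRing A] [Algebra K A]

theorem lmul_sub_pow_apply (a : A) (μ : K) (k : ℕ) (v : A) :
    ((Algebra.lmul K A a - μ • (1 : End K A)) ^ k) v = (a - algebraMap K A μ) ^ k * v := by
  induction k with
  | zero => simp
  | succ k ih =>
    rw [pow_succ', End.mul_apply, ih, pow_succ', mul_assoc, sub_mul]
    simp [Algebra.smul_def]

/-- The joint generalised eigenspace of the variables. -/
noncomputable def jointSpace (π : MvPolynomial σ K →ₐ[K] A) (η : σ → K) : Submodule K A :=
  ⨅ i, End.maxGenEigenspace (Algebra.lmul K A (π (X i))) (η i)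

omit [Fintype σ] [DecidableEq σ] in
theorem mem_jointSpace {π : MvPolynomial σ K →ₐ[K] A} {η : σ → K} {v : A} :
    v ∈ jointSpace π η ↔ ∀ i, ∃ k : ℕ, (π (X i) - algebraMap K A (η i)) ^ k * v = 0 := by
  simp only [jointSpace, Submodule.mem_iInf, End.mem_maxGenEigenspace, lmul_sub_pow_apply]

omit [DecidableEq σ] in
theorem jointSpace_nil {π : MvPolynomial σ K →ₐ[K] A} {η : σ → K} {v : A}
    (hv : v ∈ jointSpace π η) (g : MvPolynomial σ K) :
    ∃ k : ℕ, (π g - algebraMap K A (eval η g)) ^ k * v = 0 := by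
  let I : Ideal A := LinearMap.ker (LinearMap.toSpanSingleton A A v)
  have hI : ∀ a, a ∈ I.radical ↔ ∃ k : ℕ, a ^ k * v = 0 := by
    intro a
    simp [I, Ideal.mem_radical_iff]
  rw [← hI]
  obtain ⟨q, -, hq⟩ := exists_divided η (dg_totalDegree g)
  have := congrArg π hq
  simp only [map_sub, map_sum, map_mul, algHom_C] at this
  rw [this]
  exact Submodule.sum_mem _ fun j _ => Ideal.mul_mem_left _ _ ((hI _).2 (mem_jointSpace.1 hv j))

omit [Fintype σ] [DecidableEq σ] in
theorem jointSpace_mapsTo (π : MvPolynomial σ K →ₐ[K] A) (η : σ → K) (a : A) :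
    Set.MapsTo (Algebra.lmul K A a) (jointSpace π η) (jointSpace π η) := by
  intro v hv
  rw [SetLike.mem_coe, mem_jointSpace] at hv ⊢
  intro i
  obtain ⟨k, hk⟩ := hv i
  refine ⟨k, ?_⟩
  rw [Algebra.coe_lmul_eq_mul, LinearMap.mul_apply', mul_left_comm, hk, mul_zero]

omit [DecidableEq σ] in
theorem trace_jointSpace [FiniteDimensional K A] (π : MvPolynomial σ K →ₐ[K] A) (η : σ → K)
    (g : MvPolynomial σ K) :
    LinearMap.trace K _ ((Algebra.lmul K A (π g)).restrict (jointSpace_mapsTo π η (π g))) =
      (finrank K (jointSpace π η) : K) * eval η g := by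
  set f := (Algebra.lmul K A (π g)).restrict (jointSpace_mapsTo π η (π g)) with hf
  have hnil : IsNilpotent (f - algebraMap K (End K (jointSpace π η)) (eval η g)) := by
    rw [End.isNilpotent_iff_of_finite]
    intro m
    obtain ⟨k, hk⟩ := jointSpace_nil m.2 g
    refine ⟨k, Subtype.ext ?_⟩
    have : ∀ k : ℕ, (((f - algebraMap K (End K (jointSpace π η)) (eval η g)) ^ k) m : A) =
        (π g - algebraMap K A (eval η g)) ^ k * m := by
      intro k
      induction k with
      | zero => simp
      | succ k ih =>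
        rw [pow_succ', End.mul_apply, pow_succ', mul_assoc, sub_mul, ← ih]
        simp [hf, Algebra.smul_def]
    rw [this, hk]
    rfl
  have := LinearMap.trace_comp_eq_mul_of_commute_of_isNilpotent (f := (1 : End K _)) (eval η g)
    (Commute.one_left f) hnil
  rw [End.one_eq_id, LinearMap.id_comp, LinearMap.trace_id] at this
  rw [this, mul_comm]

omit [DecidableEq σ] in
theorem exists_points [IsAlgClosed K] [FiniteDimensional K A] (π : MvPolynomial σ K →ₐ[K] A) :
    ∃ Z : Multiset (σ → K),
      (∀ g, LinearMap.trace K A (Algebra.lmul K A (π g)) = (Z.map fun η => eval η g).sum) ∧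
      (∀ η ∈ Z, ∀ g, π g = 0 → eval η g = 0) ∧
      ∀ (ξ : σ → K) (ev : A →ₐ[K] K), (∀ i, ev (π (X i)) = ξ i) → ξ ∈ Z := by
  classical
  have hcomm : ∀ i j : σ, Commute (Algebra.lmul K A (π (X i))) (Algebra.lmul K A (π (X j))) :=
    fun i j => (Commute.all _ _).map _
  have htop : ⨆ η, jointSpace π η = ⊤ :=
    End.iSup_iInf_maxGenEigenspace_eq_top_of_iSup_maxGenEigenspace_eq_top_of_commute _
      (fun i j _ => hcomm i j) fun i => End.iSup_maxGenEigenspace_eq_top _
  have hind : iSupIndep (jointSpace π) :=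
    End.independent_iInf_maxGenEigenspace_of_forall_mapsTo _
      fun i j φ => End.mapsTo_maxGenEigenspace_of_comm (hcomm j i) φ
  have hds := DirectSum.isInternal_submodule_of_iSupIndep_of_iSup_eq_top hind htop
  have hfin : {η | jointSpace π η ≠ ⊥}.Finite := WellFoundedGT.finite_ne_bot_of_iSupIndep hind
  have hmem : ∀ η, η ∈ (∑ η ∈ hfin.toFinset,
      Multiset.replicate (finrank K (jointSpace π η)) η) ↔ jointSpace π η ≠ ⊥ := by
    intro η
    simp only [Multiset.mem_sum, Set.Finite.mem_toFinset, Set.mem_ofPred_eq,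
      Multiset.mem_replicate]
    constructor
    · rintro ⟨ζ, h, -, rfl⟩
      exact h
    · intro h
      exact ⟨η, h, by rwa [Ne, Submodule.finrank_eq_zero], rfl⟩
  refine ⟨∑ η ∈ hfin.toFinset, Multiset.replicate (finrank K (jointSpace π η)) η,
    fun g => ?_, fun η hη g hg => ?_, fun ξ ev hev => ?_⟩
  · rw [LinearMap.trace_eq_sum_trace_restrict' hds hfin (fun η => jointSpace_mapsTo π η (π g)),
      ← Multiset.coe_mapAddMonoidHom, map_sum, Multiset.sum_sum]
    refine Finset.sum_congr rfl fun η _ => ?_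
    rw [trace_jointSpace, Multiset.coe_mapAddMonoidHom, Multiset.map_replicate,
      Multiset.sum_replicate, nsmul_eq_mul]
  · obtain ⟨v, hv, hv0⟩ := (Submodule.ne_bot_iff _).1 ((hmem η).1 hη)
    obtain ⟨k, hk⟩ := jointSpace_nil hv g
    rw [hg, zero_sub, ← map_neg, ← map_pow, ← Algebra.smul_def, smul_eq_zero] at hk
    rcases hk with hk | hk
    · simpa using (pow_eq_zero_iff'.1 hk).1
    · exact absurd hk hv0
  · rw [hmem]
    intro hbot
    have hle : (⨆ η, jointSpace π η) ≤ LinearMap.ker ev.toLinearMap := by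
      refine iSup_le fun η => ?_
      by_cases h : η = ξ
      · rw [h, hbot]
        exact bot_le
      · intro v hv
        obtain ⟨i, hi⟩ := Function.ne_iff.1 h
        obtain ⟨k, hk⟩ := mem_jointSpace.1 hv i
        have := congrArg ev hk
        rw [map_mul, map_pow, map_sub, hev, AlgHom.commutes, map_zero, mul_eq_zero] at this
        rcases this with h1 | h1
        · exact absurd (sub_eq_zero.1 (pow_eq_zero_iff'.1 h1).1).symm hi
        · exact h1
    rw [htop] at hle
    simpa using hle (Submodule.mem_top (x := (1 : A)))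

end Abstract

variable {e : ℕ} {r : σ → MvPolynomial σ K}

/-- The trace formula, abstract form. -/
theorem trace_abstract (he : 1 ≤ e) (hr : ∀ i, Dg ((e : ℤ) - 1) (r i))
    {A : Type*} [CommRing A] [Algebra K A] (π : MvPolynomial σ K →ₐ[K] A)
    (hsurj : Function.Surjective π) (hsys : ∀ i, π (sys e r i) = 0) (lamb : A →ₗ[K] K)
    (hlamb : ∀ g, lamb (π g) = lam he hr g) :
    FiniteDimensional K A ∧
    ∀ g, LinearMap.trace K A (Algebra.lmul K A (π g)) = lam he hr (g * jac e r) := by
  classical
  have hev : ∀ g : MvPolynomial σ K,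
      eval (fun i => π (X i)) (map (algebraMap K A) g) = π g := by
    intro g
    rw [eval_map, ← aeval_def]
    exact (DFunLike.congr_fun (aeval_unique π) g).symm
  obtain ⟨b, hb1, -, hb2⟩ := exists_bezoutian (r := fun j => map (algebraMap K A) (r j)) he
    (fun i => (hr i).map _) (fun i => π (X i)) (fun i => by rw [← map_sys, hev, hsys])
  rw [← map_jac, hev] at hb1
  have hid : ∀ a : A, a = ∑ c ∈ b.support, lamb (π (monomial c 1) * a) • coeff c b := by
    intro a
    obtain ⟨g, rfl⟩ := hsurj a
    conv_lhs => rw [← hev g, ← hb2, b.as_sum, Finset.sum_mul, map_sum]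
    refine Finset.sum_congr rfl fun c _ => ?_
    rw [← map_mul π, hlamb, Algebra.smul_def, map_lam (algebraMap K A), mul_comm _ (coeff c b),
      ← smul_eq_mul (coeff c b), ← map_smul, map_mul (map (algebraMap K A)),
      map_monomial, map_one, smul_eq_C_mul, ← mul_assoc, C_mul_monomial, mul_one]
  have hfd : FiniteDimensional K A := by
    refine Module.Finite.of_fg_top ⟨b.support.image fun c => coeff c b, ?_⟩
    rw [eq_top_iff]
    intro a _
    rw [hid a]
    exact Submodule.sum_mem _ fun c hc => Submodule.smul_mem _ _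
      (Submodule.subset_span (Finset.mem_coe.2 (Finset.mem_image_of_mem _ hc)))
  refine ⟨hfd, fun g => ?_⟩
  have h1 : Algebra.lmul K A (π g) = ∑ c ∈ b.support,
      (lamb.comp (Algebra.lmul K A (π (monomial c 1)))).smulRight (π g * coeff c b) := by
    ext a
    rw [LinearMap.sum_apply, Algebra.coe_lmul_eq_mul, LinearMap.mul_apply']
    conv_lhs => rw [hid a, Finset.mul_sum]
    refine Finset.sum_congr rfl fun c _ => ?_
    simp
  rw [h1, map_sum, ← hlamb, map_mul π, ← hb1, eval_eq, Finset.mul_sum, map_sum]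
  refine Finset.sum_congr rfl fun c _ => ?_
  rw [LinearMap.trace_smulRight, LinearMap.comp_apply, Algebra.coe_lmul_eq_mul,
    LinearMap.mul_apply']
  congr 1
  rw [monomial_eq, map_one, one_mul, Finsupp.prod, map_prod]
  simp only [map_pow]
  ring

/-- The trace formula in the quotient algebra. -/
theorem trace_quotient (he : 1 ≤ e) (hr : ∀ i, Dg ((e : ℤ) - 1) (r i)) :
    FiniteDimensional K (MvPolynomial σ K ⧸ Ideal.span (Set.range (sys e r))) ∧
    ∀ g, LinearMap.trace K _ (Algebra.lmul K _
      (Ideal.Quotient.mkₐ K (Ideal.span (Set.range (sys e r))) g)) =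
        lam he hr (g * jac e r) :=
  trace_abstract he hr _ (Ideal.Quotient.mkₐ_surjective K _)
    (fun i => Ideal.Quotient.eq_zero_iff_mem.2 (Ideal.subset_span ⟨i, rfl⟩))
    ((((Ideal.span (Set.range (sys e r))).restrictScalars K).liftQ (lam he hr)
      (fun _ hg => lam_of_mem he hr hg)).comp
      (Submodule.Quotient.restrictScalarsEquiv K (Ideal.span (Set.range (sys e r)))).symm.toLinearMap)
    (fun _ => rfl)

/-- The roots of the system, with multiplicities. -/
theorem exists_roots [IsAlgClosed K] [CharZero K] (he : 1 ≤ e)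
    (hr : ∀ i, Dg ((e : ℤ) - 1) (r i)) :
    ∃ Z : Multiset (σ → K), (∀ η, η ∈ Z ↔ ∀ i, eval η (sys e r i) = 0) ∧
      Z.card = e ^ Fintype.card σ ∧
      (∀ (N : ℕ) (g : MvPolynomial σ K), g.totalDegree ≤ N →
        tauK e N r g = (Z.map fun η => eval η g).sum) ∧
      ((∀ η ∈ Z, eval η (jac e r) ≠ 0) → Z.Nodup) := by
  classical
  obtain ⟨hfd, htr⟩ := trace_quotient he hr
  obtain ⟨Z, h1, h2, h3⟩ :=
    exists_points (Ideal.Quotient.mkₐ K (Ideal.span (Set.range (sys e r))))
  have hsum : ∀ g, lam he hr (g * jac e r) = (Z.map fun η => eval η g).sum :=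
    fun g => by rw [← htr, h1]
  have hvan : ∀ η ∈ Z, ∀ g ∈ Ideal.span (Set.range (sys e r)), eval η g = 0 :=
    fun η hη g hg => h2 η hη g (Ideal.Quotient.eq_zero_iff_mem.2 hg)
  have hmem : ∀ η, η ∈ Z ↔ ∀ i, eval η (sys e r i) = 0 := by
    intro η
    refine ⟨fun hη i => hvan η hη _ (Ideal.subset_span ⟨i, rfl⟩), fun hη => ?_⟩
    refine h3 η (Ideal.Quotient.liftₐ _ (aeval η) fun g hg => ?_) fun i => by simp
    obtain ⟨c, rfl⟩ := Ideal.mem_span_range_iff_exists_fun.1 hg
    simp [hη]
  refine ⟨Z, hmem, ?_, fun N g hg => by rw [tauK_eq he hr hg, hsum], fun hJ => ?_⟩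
  · have := hsum 1
    rw [one_mul, lam_jac] at this
    simp only [map_one, Multiset.map_const', Multiset.sum_replicate, nsmul_eq_mul,
      mul_one] at this
    exact_mod_cast this.symm
  · rw [Multiset.nodup_iff_count_le_one]
    intro η
    by_cases hη : η ∈ Z
    swap
    · rw [Multiset.count_eq_zero_of_notMem hη]
      exact zero_le_one
    obtain ⟨b, hb1, hb2, hb3⟩ := exists_bezoutian he hr η ((hmem η).1 hη)
    have h4 := hsum b
    rw [hb3, Finset.sum_multiset_map_count, Finset.sum_eq_single η, hb1, nsmul_eq_mul] at h4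
    · have h5 : ((Z.count η : ℕ) : K) = 1 :=
        mul_right_cancel₀ (hJ η hη) (by rw [← h4, one_mul])
      exact le_of_eq (by exact_mod_cast h5)
    · intro ζ hζ hne
      obtain ⟨j, hj⟩ := Function.ne_iff.1 hne
      have := hvan ζ (Multiset.mem_toFinset.1 hζ) _ (hb2 j)
      rw [map_mul, map_sub, eval_X, eval_C, mul_eq_zero] at this
      rw [this.resolve_right (sub_ne_zero.2 hj), smul_zero]
    · intro h
      exact absurd (Multiset.mem_toFinset.2 hη) h

end Vale.Agent.P337
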